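import Mathlib

set_option autoImplicit false
universe u

namespace Crest.Agent.H0164

open scoped InnerProductSpace BigOperators

section basic
variable {K : Type*} [NormedAddCommGroup K] [InnerProductSpace ℂ K]

/-- The operator matrix `z` has norm at most `c` (vector form). -/
def Ctr {ι : Type} [Fintype ι] (z : ι → ι → (K →L[ℂ] K)) (c : ℝ) : Prop :=
  ∀ ξ : ι → K, ∑ i, ‖∑ j, z i j (ξ j)‖ ^ 2 ≤ c ^ 2 * ∑ j, ‖ξ j‖ ^ 2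

variable [CompleteSpace K]

/-- A (non-unital) system of matrix units. -/
def MU {ι : Type} [DecidableEq ι] (e : ι → ι → (K →L[ℂ] K)) : Prop :=
  (∀ i j, star (e i j) = e j i) ∧ ∀ i j k l, e i j * e k l = if j = k then e i l else 0

/-- There is no non-zero `d`-family under `z`. -/
def NF (P : VonNeumannAlgebra K) (d : ℕ) (z : K →L[ℂ] K) : Prop :=
  ∀ u : Fin d → (K →L[ℂ] K), (∀ i, u i ∈ P) → (∀ i, z * u i = u i) →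
    (∀ i j, i ≠ j → star (u i) * u j = 0) → (∀ i j, star (u i) * u i = star (u j) * u j) →
    ∀ i, u i = 0

/-- `z` is a central projection of `P`. -/
def CP (P : VonNeumannAlgebra K) (z : K →L[ℂ] K) : Prop :=
  z ∈ P ∧ star z = z ∧ z * z = z ∧ ∀ x ∈ P, z * x = x * z

/-- A convex set of operators stable under conjugation by the unitaries of `P`. -/
def AvgClosed (P : VonNeumannAlgebra K) (C : Set (K →L[ℂ] K)) : Prop :=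
  Convex ℝ C ∧ ∀ Y ∈ C, ∀ w ∈ P, star w * w = 1 → w * star w = 1 → w * Y * star w ∈ C

end basic

/-- Job B (random unitary colligation). -/
def MT : Prop :=
  ∀ (h : ℕ) (ε : ℝ), 0 < ε → ∃ d : ℕ, 0 < d ∧
    ∀ (K : Type u) [NormedAddCommGroup K] [InnerProductSpace ℂ K] [CompleteSpace K]
      (Q : StarSubalgebra ℂ (K →L[ℂ] K)), IsClosed (Q : Set (K →L[ℂ] K)) →
      ∀ (Y : K →L[ℂ] K) (g : ℝ), 0 ≤ g →
      (∀ z : Fin d → Fin d → (K →L[ℂ] K), (∀ i j, z i j ∈ Q) → Ctr z 1 →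
        Ctr (fun i j => Y * z i j - z i j * Y) g) →
      ∀ x : Fin h × Fin d → Fin h × Fin d → (K →L[ℂ] K), (∀ i j, x i j ∈ Q) →
        (∀ i j, ∑ k, star (x k i) * x k j = if i = j then 1 else 0) →
        (∀ i j, ∑ k, x i k * star (x j k) = if i = j then 1 else 0) →
        Ctr (fun i j => Y * x i j - x i j * Y) (4 * g + ε * ‖Y‖)

/-- Job A1: top level decomposition `1 = f + v⋆ v + z`. -/
def Top : Prop :=
  ∀ (K : Type u) [NormedAddCommGroup K] [InnerProductSpace ℂ K] [CompleteSpace K]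
    (P : VonNeumannAlgebra K) (d : ℕ), 0 < d →
    ∃ (e : Fin d → Fin d → (K →L[ℂ] K)) (v z : K →L[ℂ] K), MU e ∧ (∀ i j, e i j ∈ P) ∧ v ∈ P ∧
      (∑ i, e i i) * v = v ∧ v * (∑ i, e i i) = 0 ∧ v * star v * v = v ∧
      (∑ i, e i i) + star v * v + z = 1 ∧ CP P z ∧ NF P d z

/-- Job A1: averaging over matrix units. -/
def AvgMU : Prop :=
  ∀ (K : Type u) [NormedAddCommGroup K] [InnerProductSpace ℂ K] [CompleteSpace K]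
    (P : VonNeumannAlgebra K) (d : ℕ) (e : Fin d → Fin d → (K →L[ℂ] K)),
    MU e → (∀ i j, e i j ∈ P) → ∀ C : Set (K →L[ℂ] K), AvgClosed P C → ∀ Y ∈ C,
    ∃ Y' ∈ C, (∀ i j, Y' * e i j = e i j * Y') ∧
      ∀ x : K →L[ℂ] K, (∀ i j, x * e i j = e i j * x) → ‖Y' * x - x * Y'‖ ≤ ‖Y * x - x * Y‖

/-- Job A2: the finite type I part is amenable. -/
def TypeI : Prop :=
  ∀ (K : Type u) [NormedAddCommGroup K] [InnerProductSpace ℂ K] [CompleteSpace K]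
    (P : VonNeumannAlgebra K) (d : ℕ), 0 < d → ∀ z : K →L[ℂ] K, CP P z → NF P d z →
    ∀ C : Set (K →L[ℂ] K), AvgClosed P C → ∀ Y ∈ C,
    ∀ F : Finset (K →L[ℂ] K), (∀ x ∈ F, x ∈ P) → ∀ ε : ℝ, 0 < ε →
    ∃ Y' ∈ C, ∀ x ∈ F, ‖Y' * (z * x) - (z * x) * Y'‖ ≤ ε

/-- The statement S0165. -/
def S165 : Prop :=
    ∃ C : ℝ, ∀ (K : Type u) [NormedAddCommGroup K] [InnerProductSpace ℂ K] [CompleteSpace K]
      (P : VonNeumannAlgebra K) (Y : K →L[ℂ] K) (g : ℝ),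
      (∀ a ∈ P, ‖Y * a - a * Y‖ ≤ g * ‖a‖) →
      ∀ (h : ℕ), 1 ≤ h →
        ∀ (Yh X : PiLp 2 (fun _ : Fin h => K) →L[ℂ] PiLp 2 (fun _ : Fin h => K))
          (x : Fin h → Fin h → (K →L[ℂ] K)),
          (∀ (v : PiLp 2 (fun _ : Fin h => K)) (i : Fin h), Yh v i = Y (v i)) →
          (∀ i j, x i j ∈ P) →
          (∀ (v : PiLp 2 (fun _ : Fin h => K)) (i : Fin h), X v i = ∑ j, x i j (v j)) →
          ‖Yh * X - X * Yh‖ ≤ C * g * ‖X‖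

/-- Job C1: hyperreflexivity (distance formula). -/
def AD : Prop :=
    ∃ C : ℝ, 0 ≤ C ∧ ∀ (K : Type u) [NormedAddCommGroup K] [InnerProductSpace ℂ K] [CompleteSpace K]
      (P : VonNeumannAlgebra K) (Y : K →L[ℂ] K) (g : ℝ), IsSelfAdjoint Y → 0 ≤ g →
      (∀ a ∈ P, ‖Y * a - a * Y‖ ≤ g * ‖a‖) →
      ∃ Y₀ : K →L[ℂ] K, IsSelfAdjoint Y₀ ∧ (∀ a ∈ P, a * Y₀ = Y₀ * a) ∧ ‖Y - Y₀‖ ≤ C * g

/-- Job C2: Kirchberg's lemma for von Neumann algebras. -/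
def KL : Prop :=
  ∀ κ : ℝ, ∃ γ : ℝ, 0 ≤ γ ∧
    ∀ (K : Type u) [NormedAddCommGroup K] [InnerProductSpace ℂ K] [CompleteSpace K]
      (P : VonNeumannAlgebra K) (T : K →L[ℂ] K) (c : ℝ), 0 < c → IsSelfAdjoint T →
      (∀ v, c * ‖v‖ ^ 2 ≤ (⟪v, T v⟫_ℂ).re) →
      (∀ x ∈ P, ∀ v, (⟪x v, T (x v)⟫_ℂ).re ≤ κ ^ 2 * ‖x‖ ^ 2 * (⟪v, T v⟫_ℂ).re) →
      ∃ T' : K →L[ℂ] K, IsSelfAdjoint T' ∧ (∀ x ∈ P, x * T' = T' * x) ∧
        ∀ v, (⟪v, T v⟫_ℂ).re ≤ (⟪v, T' v⟫_ℂ).re ∧ (⟪v, T' v⟫_ℂ).re ≤ γ * (⟪v, T v⟫_ℂ).re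

/-- Job C3: Kirchberg's lemma for closed star subalgebras (Kaplansky density). -/
def KLA : Prop :=
  ∀ κ : ℝ, ∃ γ : ℝ, 0 ≤ γ ∧
    ∀ (K : Type u) [NormedAddCommGroup K] [InnerProductSpace ℂ K] [CompleteSpace K]
      (A : Type u) [CStarAlgebra A] (ρ : A →⋆ₐ[ℂ] (K →L[ℂ] K))
      (T : K →L[ℂ] K) (c : ℝ), 0 < c → IsSelfAdjoint T →
      (∀ v, c * ‖v‖ ^ 2 ≤ (⟪v, T v⟫_ℂ).re) →
      (∀ a v, (⟪ρ a v, T (ρ a v)⟫_ℂ).re ≤ κ ^ 2 * ‖a‖ ^ 2 * (⟪v, T v⟫_ℂ).re) →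
      ∃ T' : K →L[ℂ] K, IsSelfAdjoint T' ∧ (∀ a, ρ a * T' = T' * ρ a) ∧
        ∀ v, (⟪v, T v⟫_ℂ).re ≤ (⟪v, T' v⟫_ℂ).re ∧ (⟪v, T' v⟫_ℂ).re ≤ γ * (⟪v, T v⟫_ℂ).re

end Crest.Agent.H0164
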