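import Mathlib
import Crest.Agent.H0164.Defs

set_option autoImplicit false

namespace Crest.Agent.H0164

open scoped InnerProductSpace BigOperators

section maxMU
variable {K : Type*} [NormedAddCommGroup K] [InnerProductSpace ℂ K] [CompleteSpace K]
variable {ι : Type} [Fintype ι] [DecidableEq ι]

/-- Diagonal amplification of an operator. -/
noncomputable def mxDiag (ι : Type) [Fintype ι] (b : K →L[ℂ] K) :
    PiLp 2 (fun _ : ι => K) →L[ℂ] PiLp 2 (fun _ : ι => K) :=
  (PiLp.continuousLinearEquiv 2 ℂ (fun _ : ι => K)).symm.toContinuousLinearMap ∘L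
    ContinuousLinearMap.pi (fun i => b ∘L PiLp.proj 2 (fun _ : ι => K) i)

omit [CompleteSpace K] [DecidableEq ι] in
@[simp] lemma mxDiag_apply (b : K →L[ℂ] K) (x : PiLp 2 (fun _ : ι => K)) (i : ι) :
    mxDiag ι b x i = b (x i) := rfl

/-- Column operator. -/
noncomputable def mxCol (u : ι → (K →L[ℂ] K)) : K →L[ℂ] PiLp 2 (fun _ : ι => K) :=
  (PiLp.continuousLinearEquiv 2 ℂ (fun _ : ι => K)).symm.toContinuousLinearMap ∘L
    ContinuousLinearMap.pi u

omit [CompleteSpace K] [DecidableEq ι] [Fintype ι] in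
@[simp] lemma mxCol_apply (u : ι → (K →L[ℂ] K)) (ξ : K) (i : ι) : mxCol u ξ i = u i ξ := rfl

/-- Coordinate inclusion. -/
noncomputable def mxInc (j : ι) : K →L[ℂ] PiLp 2 (fun _ : ι => K) :=
  mxCol (fun i => if i = j then 1 else 0)

omit [CompleteSpace K] [Fintype ι] in
lemma mxInc_apply (j : ι) (ξ : K) (i : ι) :
    (mxInc j ξ : PiLp 2 (fun _ : ι => K)) i = if i = j then ξ else 0 := by
  unfold mxInc
  rw [mxCol_apply]
  split_ifs <;> simp

omit [CompleteSpace K] in
lemma inner_mxInc_left (j : ι) (ξ : K) (x : PiLp 2 (fun _ : ι => K)) :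
    ⟪mxInc j ξ, x⟫_ℂ = ⟪ξ, x j⟫_ℂ := by
  rw [PiLp.inner_apply, Finset.sum_eq_single j]
  · rw [mxInc_apply, if_pos rfl]
  · intro i _ hij
    rw [mxInc_apply, if_neg hij, inner_zero_left]
  · simp

omit [CompleteSpace K] in
lemma inner_mxInc_right (j : ι) (ξ : K) (x : PiLp 2 (fun _ : ι => K)) :
    ⟪x, mxInc j ξ⟫_ℂ = ⟪x j, ξ⟫_ℂ := by
  rw [← inner_conj_symm, inner_mxInc_left, inner_conj_symm]

omit [CompleteSpace K] in
lemma sum_mxInc (x : PiLp 2 (fun _ : ι => K)) : ∑ j, mxInc j (x j) = x := by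
  ext i
  rw [WithLp.ofLp_sum, Finset.sum_apply, Finset.sum_eq_single i]
  · rw [mxInc_apply, if_pos rfl]
  · intro j _ hij
    rw [mxInc_apply, if_neg (Ne.symm hij)]
  · simp

omit [DecidableEq ι] in
lemma inner_mxDiag_left (b : K →L[ℂ] K) (x y : PiLp 2 (fun _ : ι => K)) :
    ⟪mxDiag ι b x, y⟫_ℂ = ⟪x, mxDiag ι (star b) y⟫_ℂ := by
  rw [PiLp.inner_apply, PiLp.inner_apply]
  refine Finset.sum_congr rfl fun i _ => ?_
  rw [mxDiag_apply, mxDiag_apply, ContinuousLinearMap.star_eq_adjoint,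
    ContinuousLinearMap.adjoint_inner_right]

omit [CompleteSpace K] in
lemma mxDiag_mxInc (b : K →L[ℂ] K) (j : ι) (ξ : K) :
    mxDiag ι b (mxInc j ξ) = mxInc j (b ξ) := by
  ext i
  rw [mxDiag_apply, mxInc_apply, mxInc_apply]
  split_ifs <;> simp

/-- Admissible subspaces for the Zorn argument. -/
def MxAdm (P : VonNeumannAlgebra K) (a : ι → (K →L[ℂ] K))
    (M : Submodule ℂ (PiLp 2 (fun _ : ι => K))) : Prop :=
  (∀ b ∈ P.commutant, ∀ x ∈ M, mxDiag ι b x ∈ M) ∧ (∀ x ∈ M, ∀ i, a i (x i) = x i) ∧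
    (∀ x ∈ M, ∀ y ∈ M, ∀ i j, i ≠ j → ⟪x i, y j⟫_ℂ = 0) ∧
    (∀ x ∈ M, ∀ y ∈ M, ∀ i j, ⟪x i, y i⟫_ℂ = ⟪x j, y j⟫_ℂ)

omit [DecidableEq ι] in
lemma MxAdm.closure {P : VonNeumannAlgebra K} {a : ι → (K →L[ℂ] K)}
    {M : Submodule ℂ (PiLp 2 (fun _ : ι => K))} (h : MxAdm P a M) :
    MxAdm P a M.topologicalClosure := by
  obtain ⟨h1, h2, h3, h4⟩ := h
  have two : ∀ (F G : PiLp 2 (fun _ : ι => K) → PiLp 2 (fun _ : ι => K) → ℂ),
      Continuous (fun p : PiLp 2 (fun _ : ι => K) × PiLp 2 (fun _ : ι => K) => F p.1 p.2) →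
      Continuous (fun p : PiLp 2 (fun _ : ι => K) × PiLp 2 (fun _ : ι => K) => G p.1 p.2) →
      (∀ x ∈ M, ∀ y ∈ M, F x y = G x y) →
      ∀ x ∈ M.topologicalClosure, ∀ y ∈ M.topologicalClosure, F x y = G x y := by
    intro F G hF hG hFG x hx y hy
    have hc := isClosed_eq hF hG
    have hsub : (M : Set _) ×ˢ (M : Set _) ⊆ {p : PiLp 2 (fun _ : ι => K) ×
        PiLp 2 (fun _ : ι => K) | F p.1 p.2 = G p.1 p.2} := fun p hp => hFG _ hp.1 _ hp.2
    have := closure_minimal hsub hc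
    rw [closure_prod_eq] at this
    exact this (Set.mk_mem_prod hx hy)
  refine ⟨fun b hb x hx => ?_, fun x hx i => ?_, fun x hx y hy i j hij => ?_,
    fun x hx y hy i j => ?_⟩
  · exact map_mem_closure (mxDiag ι b).continuous hx (fun y hy => h1 b hb y hy)
  · have hc : IsClosed {x : PiLp 2 (fun _ : ι => K) | a i (x i) = x i} :=
      isClosed_eq (by fun_prop) (by fun_prop)
    exact closure_minimal (fun y hy => h2 y hy i) hc hx
  · exact two (fun x y => ⟪x i, y j⟫_ℂ) (fun _ _ => 0) (by fun_prop) continuous_const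
      (fun x hx y hy => h3 x hx y hy i j hij) x hx y hy
  · exact two (fun x y => ⟪x i, y i⟫_ℂ) (fun x y => ⟪x j, y j⟫_ℂ) (by fun_prop) (by fun_prop)
      (fun x hx y hy => h4 x hx y hy i j) x hx y hy

omit [DecidableEq ι] in
lemma exists_maximal_mxAdm (P : VonNeumannAlgebra K) (a : ι → (K →L[ℂ] K)) :
    ∃ M : Submodule ℂ (PiLp 2 (fun _ : ι => K)), Maximal (MxAdm P a) M := by
  have h0 : MxAdm P a ⊥ := by
    refine ⟨fun b _ x hx => ?_, fun x hx i => ?_, fun x hx y hy i j _ => ?_,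
      fun x hx y hy i j => ?_⟩
    · rw [Submodule.mem_bot] at hx ⊢; rw [hx, map_zero]
    · rw [Submodule.mem_bot] at hx; simp [hx]
    · rw [Submodule.mem_bot] at hx; simp [hx]
    · rw [Submodule.mem_bot] at hx; simp [hx]
  obtain ⟨M, -, hM⟩ := zorn_le_nonempty₀ {M | MxAdm P a M} (fun c hc hch y hy => by
    have hne : c.Nonempty := ⟨y, hy⟩
    have hdir : DirectedOn (· ≤ ·) c := hch.directedOn
    have two : ∀ x ∈ sSup c, ∀ y ∈ sSup c, ∃ N ∈ c, x ∈ N ∧ y ∈ N := by
      intro x hx y hy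
      obtain ⟨N1, hN1, hx⟩ := (Submodule.mem_sSup_of_directed hne hdir).1 hx
      obtain ⟨N2, hN2, hy⟩ := (Submodule.mem_sSup_of_directed hne hdir).1 hy
      obtain ⟨N, hN, h1, h2⟩ := hdir N1 hN1 N2 hN2
      exact ⟨N, hN, h1 hx, h2 hy⟩
    refine ⟨sSup c, ⟨fun b hb x hx => ?_, fun x hx i => ?_, fun x hx y hy i j hij => ?_,
      fun x hx y hy i j => ?_⟩, fun z hz => le_sSup hz⟩
    · obtain ⟨N, hN, hx, -⟩ := two x hx x hx
      exact (le_sSup hN : N ≤ sSup c) ((hc hN).1 b hb x hx)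
    · obtain ⟨N, hN, hx, -⟩ := two x hx x hx
      exact (hc hN).2.1 x hx i
    · obtain ⟨N, hN, hx, hy⟩ := two x hx y hy
      exact (hc hN).2.2.1 x hx y hy i j hij
    · obtain ⟨N, hN, hx, hy⟩ := two x hx y hy
      exact (hc hN).2.2.2 x hx y hy i j) ⊥ h0
  exact ⟨M, hM⟩

/-- A maximal system of matrix units under the constraints `a i * e i j = e i j`. -/
theorem maxMU (P : VonNeumannAlgebra K) (ι : Type) [Fintype ι] [DecidableEq ι] [Nonempty ι]
    (a : ι → (K →L[ℂ] K)) :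
    ∃ e : ι → ι → (K →L[ℂ] K), MU e ∧ (∀ i j, e i j ∈ P) ∧ (∀ i j, a i * e i j = e i j) ∧
      ∀ u : ι → (K →L[ℂ] K), (∀ i, u i ∈ P) → (∀ i, a i * u i = u i) →
        (∀ i j, i ≠ j → star (u i) * u j = 0) → (∀ i j, star (u i) * u i = star (u j) * u j) →
        (∀ i j k, e i j * u k = 0) → ∀ i, u i = 0 := by
  obtain ⟨M, hM, hmax⟩ := exists_maximal_mxAdm P a
  have hcl : IsClosed (M : Set (PiLp 2 (fun _ : ι => K))) := by
    have h1 : M.topologicalClosure ≤ M := hmax hM.closure M.le_topologicalClosure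
    have h2 : M.topologicalClosure = M := le_antisymm h1 M.le_topologicalClosure
    rw [← h2]
    exact M.isClosed_topologicalClosure
  have : CompleteSpace M := hcl.completeSpace_coe
  obtain ⟨h1, h2, h3, h4⟩ := hM
  set p := M.starProjection with hp
  let q : ι → ι → (K →L[ℂ] K) := fun i j => PiLp.proj 2 (fun _ : ι => K) i ∘L p ∘L mxInc j
  have hq : ∀ i j ξ, q i j ξ = p (mxInc j ξ) i := fun i j ξ => rfl
  have hpM : ∀ x, p x ∈ M := fun x => M.starProjection_apply_mem x
  have hcomm : ∀ b ∈ P.commutant, ∀ x, p (mxDiag ι b x) = mxDiag ι b (p x) := by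
    intro b hb x
    refine Submodule.eq_starProjection_of_mem_of_inner_eq_zero (h1 b hb _ (hpM x)) fun w hw => ?_
    rw [← map_sub, inner_mxDiag_left]
    exact Submodule.starProjection_inner_eq_zero _ _ (h1 _ (star_mem hb) w hw)
  have hqP : ∀ i j, q i j ∈ P := by
    intro i j
    rw [← P.commutant_commutant, VonNeumannAlgebra.mem_commutant_iff]
    intro b hb
    ext ξ
    rw [mul_apply_eq_comp, mul_apply_eq_comp, hq, hq, ← mxDiag_mxInc,
      hcomm b hb, mxDiag_apply]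
  have hqs : ∀ i j, star (q i j) = q j i := by
    intro i j
    rw [ContinuousLinearMap.star_eq_adjoint]
    symm
    rw [ContinuousLinearMap.eq_adjoint_iff]
    intro ξ η
    rw [hq, hq, ← inner_mxInc_right, ← inner_mxInc_left, hp,
      Submodule.inner_starProjection_left_eq_right]
  have hd : (Fintype.card ι : ℂ) ≠ 0 := by exact_mod_cast Fintype.card_ne_zero
  have hin : ∀ x ∈ M, ∀ y ∈ M, ∀ i, (Fintype.card ι : ℂ) * ⟪x i, y i⟫_ℂ = ⟪x, y⟫_ℂ := by
    intro x hx y hy i
    rw [PiLp.inner_apply, Finset.sum_congr rfl (fun j _ => h4 x hx y hy j i), Finset.sum_const,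
      Finset.card_univ, nsmul_eq_mul]
  have hqq : ∀ i j k l, (Fintype.card ι : ℂ) • (q i j * q k l) = if j = k then q i l else 0 := by
    intro i j k l
    ext η
    refine ext_inner_left ℂ fun ξ => ?_
    rw [smul_apply, mul_apply_eq_comp, inner_smul_right,
      ← hqs j i, ContinuousLinearMap.star_eq_adjoint, ContinuousLinearMap.adjoint_inner_right,
      hq, hq]
    split_ifs with hjk
    · subst hjk
      rw [hin _ (hpM _) _ (hpM _), hp, Submodule.inner_starProjection_left_eq_right, ← hp,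
        inner_mxInc_left, (Submodule.starProjection_eq_self_iff).2 (hpM _), hq]
    · rw [h3 _ (hpM _) _ (hpM _) _ _ hjk]; simp
  refine ⟨fun i j => (Fintype.card ι : ℂ) • q i j, ⟨fun i j => ?_, fun i j k l => ?_⟩,
    fun i j => ?_, fun i j => ?_, ?_⟩
  · simp only [star_smul, hqs, star_natCast]
  · simp only [smul_mul_assoc, mul_smul_comm]
    rw [hqq]
    split_ifs <;> simp
  · exact P.toStarSubalgebra.smul_mem (hqP i j) _
  · ext ξ
    simp only [mul_apply_eq_comp, smul_apply, map_smul]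
    rw [hq, h2 _ (hpM _)]
  · intro u huP hua huo hue heu
    have hqu : ∀ i j k, q i j * u k = 0 := by
      intro i j k
      have := heu i j k
      rw [smul_mul_assoc] at this
      exact (smul_eq_zero.1 this).resolve_left hd
    have horth : ∀ x ∈ M, ∀ i k ξ, ⟪x i, u k ξ⟫_ℂ = 0 := by
      intro x hx i k ξ
      have e1 : x i = ∑ j, q i j (x j) := by
        conv_lhs => rw [← (Submodule.starProjection_eq_self_iff).2 hx, ← sum_mxInc x, map_sum]
        rw [WithLp.ofLp_sum, Finset.sum_apply]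
        rfl
      rw [e1, sum_inner]
      refine Finset.sum_eq_zero fun j _ => ?_
      rw [← ContinuousLinearMap.adjoint_inner_right, ← ContinuousLinearMap.star_eq_adjoint, hqs,
        ← mul_apply_eq_comp, hqu]
      simp
    have horth' : ∀ x ∈ M, ∀ i k ξ, ⟪u k ξ, x i⟫_ℂ = 0 := by
      intro x hx i k ξ
      rw [← inner_conj_symm, horth x hx, map_zero]
    have huu : ∀ i j ξ η, ⟪u i ξ, u j η⟫_ℂ = ⟪ξ, (star (u i) * u j) η⟫_ℂ := by
      intro i j ξ η
      rw [mul_apply_eq_comp, ContinuousLinearMap.star_eq_adjoint,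
        ContinuousLinearMap.adjoint_inner_right]
    have hdec : ∀ x ∈ M ⊔ (mxCol u).range, ∃ y ∈ M, ∃ ξ, x = y + mxCol u ξ := by
      intro x hx
      obtain ⟨y, hy, z, ⟨ξ, rfl⟩, rfl⟩ := Submodule.mem_sup.1 hx
      exact ⟨y, hy, ξ, rfl⟩
    have hadm : MxAdm P a (M ⊔ (mxCol u).range) := by
      refine ⟨fun b hb x hx => ?_, fun x hx i => ?_, fun x hx y hy i j hij => ?_,
        fun x hx y hy i j => ?_⟩
      · obtain ⟨y, hy, ξ, rfl⟩ := hdec x hx
        rw [map_add]
        refine Submodule.add_mem_sup (h1 b hb y hy) ⟨b ξ, ?_⟩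
        ext i
        have := (VonNeumannAlgebra.mem_commutant_iff.1 hb) _ (huP i)
        change u i (b ξ) = b (u i ξ)
        rw [← mul_apply_eq_comp, this, mul_apply_eq_comp]
      · obtain ⟨y, hy, ξ, rfl⟩ := hdec x hx
        rw [PiLp.add_apply, map_add, h2 y hy, mxCol_apply, ← mul_apply_eq_comp, hua]
      · obtain ⟨x, hx', ξ, rfl⟩ := hdec x hx
        obtain ⟨y, hy', η, rfl⟩ := hdec y hy
        simp only [PiLp.add_apply, mxCol_apply, inner_add_left, inner_add_right]
        rw [h3 x hx' y hy' i j hij, horth x hx', horth' y hy', huu, huo i j hij]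
        simp
      · obtain ⟨x, hx', ξ, rfl⟩ := hdec x hx
        obtain ⟨y, hy', η, rfl⟩ := hdec y hy
        simp only [PiLp.add_apply, mxCol_apply, inner_add_left, inner_add_right]
        rw [h4 x hx' y hy' i j, horth x hx', horth' y hy', horth x hx', horth' y hy', huu, huu,
          hue i j]
    have hle : M ⊔ (mxCol u).range ≤ M := hmax hadm le_sup_left
    intro i
    ext ξ
    have hm : mxCol u ξ ∈ M := hle (Submodule.mem_sup_right ⟨ξ, rfl⟩)
    have := horth _ hm i i ξ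
    rw [mxCol_apply] at this
    simpa using this

/-- The absolute value of an element of `P` lies in `P`. -/
lemma abs_mem_vn (P : VonNeumannAlgebra K) {y : K →L[ℂ] K} (hy : y ∈ P) : CFC.abs y ∈ P := by
  rw [← P.commutant_commutant, VonNeumannAlgebra.mem_commutant_iff]
  intro b hb
  have h1 : Commute y b := (VonNeumannAlgebra.mem_commutant_iff.1 hb) y hy
  have h2 : Commute y (star b) := (VonNeumannAlgebra.mem_commutant_iff.1 (star_mem hb)) y hy
  exact (h1.cfcAbs_right h2).eq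

lemma star_abs_clm (y : K →L[ℂ] K) : star (CFC.abs y) = CFC.abs y :=
  (CFC.abs_nonneg y).isSelfAdjoint.star_eq

/-- `y * w = 0` iff `|y| * w = 0`. -/
lemma abs_mul_eq_zero_iff (y w : K →L[ℂ] K) : CFC.abs y * w = 0 ↔ y * w = 0 := by
  have : star (CFC.abs y * w) * (CFC.abs y * w) = star (y * w) * (y * w) := by
    rw [star_mul, star_mul, star_abs_clm, mul_assoc, ← mul_assoc (CFC.abs y), CFC.abs_mul_abs]
    simp only [mul_assoc]
  rw [← CStarRing.star_mul_self_eq_zero_iff, this, CStarRing.star_mul_self_eq_zero_iff]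

/-- If `y * z = y` with `z` self-adjoint then `z * |y| = |y|`. -/
lemma mul_abs_eq_of_mul_eq {y z : K →L[ℂ] K} (hz : star z = z) (h : y * z = y) :
    z * CFC.abs y = CFC.abs y := by
  have h1 : CFC.abs y * (1 - z) = 0 := by
    rw [abs_mul_eq_zero_iff, mul_sub, mul_one, h, sub_self]
  have h2 := congrArg star h1
  rw [star_mul, star_sub, star_one, hz, star_abs_clm, star_zero, sub_mul, one_mul,
    sub_eq_zero] at h2
  exact h2.symm

end maxMU

end Crest.Agent.H0164
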