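import Mathlib
import Crest.Agent.H0164.A1Max

set_option autoImplicit false
universe u

namespace Crest.Agent.H0164

open scoped InnerProductSpace BigOperators

section mu
variable {K : Type*} [NormedAddCommGroup K] [InnerProductSpace ℂ K] [CompleteSpace K]
variable {ι : Type} [Fintype ι] [DecidableEq ι] {e : ι → ι → (K →L[ℂ] K)}

lemma MU.sum_mul (he : MU e) (j k : ι) : (∑ i, e i i) * e j k = e j k := by
  rw [Finset.sum_mul, Finset.sum_eq_single j]
  · rw [he.2, if_pos rfl]
  · intro i _ hij
    rw [he.2, if_neg hij]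
  · simp

lemma MU.mul_sum (he : MU e) (j k : ι) : e j k * (∑ i, e i i) = e j k := by
  rw [Finset.mul_sum, Finset.sum_eq_single k]
  · rw [he.2, if_pos rfl]
  · intro i _ hij
    rw [he.2, if_neg (Ne.symm hij)]
  · simp

lemma MU.star_sum (he : MU e) : star (∑ i, e i i) = ∑ i, e i i := by
  rw [_root_.star_sum]
  exact Finset.sum_congr rfl fun i _ => he.1 i i

lemma MU.sum_mul_sum (he : MU e) : (∑ i, e i i) * (∑ i, e i i) = ∑ i, e i i := by
  conv_lhs => rw [Finset.mul_sum]
  exact Finset.sum_congr rfl fun i _ => he.sum_mul i i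

omit [Fintype ι] in
lemma MU.mul_same (he : MU e) (i j l : ι) : e i j * e j l = e i l := by
  rw [he.2, if_pos rfl]

end mu

theorem top : Top.{u} := by
  intro K _ _ _ P d hd
  have : Nonempty (Fin d) := ⟨⟨0, hd⟩⟩
  obtain ⟨e, he, heP, -, hemax⟩ := maxMU P (Fin d) (fun _ => 1)
  set f : K →L[ℂ] K := ∑ i, e i i with hf
  have hfP : f ∈ P := sum_mem fun i _ => heP i i
  have hfs : star f = f := he.star_sum
  have hff : f * f = f := he.sum_mul_sum
  have hfe : ∀ j k, f * e j k = e j k := he.sum_mul
  have hef : ∀ j k, e j k * f = e j k := he.mul_sum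
  obtain ⟨E, hE, hEP, hEa, hEmax⟩ := maxMU P (Fin 2) ![1 - f, f]
  have a0 : ∀ j, (1 - f) * E 0 j = E 0 j := fun j => hEa 0 j
  have a1 : ∀ j, f * E 1 j = E 1 j := fun j => hEa 1 j
  have b0 : ∀ j, f * E 0 j = 0 := by
    intro j
    rw [← a0 j, ← mul_assoc, mul_sub, mul_one, hff, sub_self, zero_mul]
  have c0 : ∀ j, E j 0 * f = 0 := by
    intro j
    have := congrArg star (b0 j)
    rwa [star_mul, hfs, hE.1, star_zero] at this
  have c1 : ∀ j, E j 1 * f = E j 1 := by
    intro j
    have := congrArg star (a1 j)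
    rwa [star_mul, hfs, hE.1] at this
  have m : ∀ i j l, E i j * E j l = E i l := hE.mul_same
  have m01 : ∀ i l, E i 0 * E 1 l = 0 := fun i l => by rw [hE.2, if_neg (by decide)]
  have m10 : ∀ i l, E i 1 * E 0 l = 0 := fun i l => by rw [hE.2, if_neg (by decide)]
  set z : K →L[ℂ] K := 1 - f - E 0 0 with hz
  set b : K →L[ℂ] K := f - E 1 1 with hb
  have hzP : z ∈ P := sub_mem (sub_mem (one_mem P) hfP) (hEP 0 0)
  have hbP : b ∈ P := sub_mem hfP (hEP 1 1)
  have hzs : star z = z := by rw [hz, star_sub, star_sub, star_one, hfs, hE.1]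
  have hfz : f * z = 0 := by
    rw [hz, mul_sub, mul_sub, mul_one, hff, b0]; simp
  have hEz : ∀ i j, E i j * z = 0 := by
    intro i j
    fin_cases j
    · change E i 0 * z = 0
      rw [hz, mul_sub, mul_sub, mul_one, c0, m]; simp
    · change E i 1 * z = 0
      rw [← c1, mul_assoc, hfz, mul_zero]
  have hzz : z * z = z := by
    have : (1 - f - E 0 0) * z = z := by
      rw [sub_mul, sub_mul, one_mul, hfz, hEz]; simp
    exact this
  have hfb : f * b = b := by rw [hb, mul_sub, hff, a1]
  have hEb : ∀ i j, E i j * b = 0 := by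
    intro i j
    fin_cases j
    · change E i 0 * b = 0
      rw [← hfb, ← mul_assoc, c0, zero_mul]
    · change E i 1 * b = 0
      rw [hb, mul_sub, c1, m, sub_self]
  have hzb : z * b = 0 := by
    rw [hz, sub_mul, sub_mul, one_mul, hfb, hEb]; simp
  -- comparison
  have cmp : ∀ y ∈ P, b * y * z = 0 := by
    intro y hy
    set w := b * y * z with hw
    have hwP : w ∈ P := mul_mem (mul_mem hbP hy) hzP
    have hwz : w * z = w := by rw [hw, mul_assoc, hzz]
    have hzw : z * CFC.abs w = CFC.abs w := mul_abs_eq_of_mul_eq hzs hwz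
    have h01 : CFC.abs w * w = 0 := by
      have h1 := congrArg star hzw
      rw [star_mul, hzs, star_abs_clm] at h1
      rw [← h1]
      conv_lhs => rw [mul_assoc]; congr; rfl; rw [hw, ← mul_assoc, ← mul_assoc, hzb]
      simp
    have key := hEmax ![CFC.abs w, w] (fun i => by
        fin_cases i
        · exact abs_mem_vn P hwP
        · exact hwP)
      (fun i => by
        fin_cases i
        · change (1 - f) * CFC.abs w = CFC.abs w
          rw [sub_mul, one_mul, ← hzw, ← mul_assoc, hfz, zero_mul, sub_zero]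
        · change f * w = w
          rw [hw, ← mul_assoc, ← mul_assoc, hfb])
      (fun i j hij => by
        fin_cases i <;> fin_cases j
        · exact absurd rfl hij
        · change star (CFC.abs w) * w = 0
          rw [star_abs_clm, h01]
        · change star w * CFC.abs w = 0
          have := congrArg star h01
          rwa [star_mul, star_abs_clm, star_zero] at this
        · exact absurd rfl hij)
      (fun i j => by
        have h : star (CFC.abs w) * CFC.abs w = star w * w := by
          rw [star_abs_clm, CFC.abs_mul_abs]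
        fin_cases i <;> fin_cases j
        · rfl
        · exact h
        · exact h.symm
        · rfl)
      (fun i j k => by
        fin_cases k
        · change E i j * CFC.abs w = 0
          rw [← hzw, ← mul_assoc, hEz, zero_mul]
        · change E i j * w = 0
          rw [hw, ← mul_assoc, ← mul_assoc, hEb, zero_mul, zero_mul])
    exact key 1
  let o : Fin d := ⟨0, hd⟩
  have h00 : ∀ y ∈ P, e o o * y * z = 0 := by
    intro y hy
    set w := e o o * y * z with hw
    have hwP : w ∈ P := mul_mem (mul_mem (heP o o) hy) hzP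
    have hwz : w * z = w := by rw [hw, mul_assoc, hzz]
    have how : e o o * w = w := by rw [hw, ← mul_assoc, ← mul_assoc, he.mul_same]
    have hE11 : ∀ j, E 1 1 * (e j o * w) = e j o * w := by
      intro j
      have h1 := cmp _ (mul_mem (heP j o) hwP)
      rw [mul_assoc, mul_assoc, hwz, hb, sub_mul, ← mul_assoc f, hfe, sub_eq_zero] at h1
      exact h1.symm
    have hprod : ∀ i j, star (E 0 1 * (e i o * w)) * (E 0 1 * (e j o * w)) =
        if i = j then star w * w else 0 := by
      intro i j
      rw [star_mul, hE.1, mul_assoc, ← mul_assoc (E 1 0), m, hE11, star_mul, he.1, mul_assoc,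
        ← mul_assoc (e o i), he.2]
      split_ifs
      · rw [how]
      · simp
    have key := hemax (fun i => E 0 1 * (e i o * w))
      (fun i => mul_mem (hEP 0 1) (mul_mem (heP i o) hwP)) (fun i => one_mul _)
      (fun i j hij => by rw [hprod, if_neg hij])
      (fun i j => by rw [hprod, hprod, if_pos rfl, if_pos rfl])
      (fun i j k => by rw [← hef, mul_assoc, ← mul_assoc f, b0, zero_mul, mul_zero])
    have h2 := hprod o o
    rw [if_pos rfl, key o, mul_zero] at h2
    exact (CStarRing.star_mul_self_eq_zero_iff w).1 h2.symm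
  have hfxz : ∀ x ∈ P, f * x * z = 0 := by
    intro x hx
    rw [hf, Finset.sum_mul, Finset.sum_mul]
    refine Finset.sum_eq_zero fun i _ => ?_
    have := h00 _ (mul_mem (heP o i) hx)
    rw [← he.mul_same i o i, ← he.mul_same i o o]
    simp only [mul_assoc] at this ⊢
    rw [this, mul_zero]
  have hzxz : ∀ x ∈ P, x * z = z * x * z := by
    intro x hx
    have h1 := hfxz x hx
    have h2 : E 0 0 * x * z = 0 := by
      have := hfxz _ (mul_mem (hEP 1 0) hx)
      rw [← mul_assoc, a1] at this
      rw [← m 0 1 0, mul_assoc (E 0 1), mul_assoc (E 0 1), this, mul_zero]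
    have : x * z = (1 - f - E 0 0) * x * z := by
      rw [sub_mul, sub_mul, sub_mul, sub_mul, one_mul, h1, h2]; simp
    exact this
  have hcent : ∀ x ∈ P, z * x = x * z := by
    intro x hx
    have h1 := congrArg star (hzxz _ (star_mem hx))
    rw [star_mul, star_mul, star_mul, star_star, hzs, ← mul_assoc] at h1
    rw [h1, ← hzxz x hx]
  refine ⟨e, E 1 0, z, he, heP, hEP 1 0, a1 0, c0 1, ?_, ?_, ⟨hzP, hzs, hzz, hcent⟩, ?_⟩
  · rw [hE.1, m, m]
  · rw [hE.1, m, hz]; abel
  · intro u huP hzu huo hue
    refine hemax u huP (fun i => one_mul _) huo hue fun i j k => ?_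
    rw [← hef, ← hzu k, mul_assoc, ← mul_assoc f, hfz, zero_mul, mul_zero]

section avg
variable {K : Type*} [NormedAddCommGroup K] [InnerProductSpace ℂ K] [CompleteSpace K]
variable {ι : Type} [Fintype ι] [DecidableEq ι]

/-- The operator attached to an integer matrix. -/
noncomputable def muOp (e : ι → ι → (K →L[ℂ] K)) (A : Matrix ι ι ℤ) : K →L[ℂ] K :=
  ∑ i, ∑ j, A i j • e i j + (1 - ∑ i, e i i)

variable {e : ι → ι → (K →L[ℂ] K)}

lemma muOp_mul_e (he : MU e) (A : Matrix ι ι ℤ) (k l : ι) :
    muOp e A * e k l = ∑ i, A i k • e i l := by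
  rw [muOp, add_mul, sub_mul, one_mul, he.sum_mul, sub_self, add_zero, Finset.sum_mul]
  refine Finset.sum_congr rfl fun i _ => ?_
  rw [Finset.sum_mul, Finset.sum_eq_single k]
  · rw [smul_mul_assoc, he.mul_same]
  · intro j _ hj
    rw [smul_mul_assoc, he.2, if_neg hj, smul_zero]
  · simp

lemma muOp_mul_compl (he : MU e) (A : Matrix ι ι ℤ) :
    muOp e A * (1 - ∑ i, e i i) = 1 - ∑ i, e i i := by
  have h1 : ∀ i j, e i j * (1 - ∑ i, e i i) = 0 := fun i j => by
    rw [mul_sub, mul_one, he.mul_sum, sub_self]
  rw [muOp, add_mul, Finset.sum_mul, Finset.sum_eq_zero, zero_add, mul_sub, mul_one, sub_mul,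
    one_mul, he.sum_mul_sum, sub_self, sub_zero]
  intro i _
  rw [Finset.sum_mul]
  exact Finset.sum_eq_zero fun j _ => by rw [smul_mul_assoc, h1, smul_zero]

lemma muOp_mul (he : MU e) (A B : Matrix ι ι ℤ) : muOp e (A * B) = muOp e A * muOp e B := by
  conv_rhs => rw [muOp.eq_def e B, mul_add, muOp_mul_compl he]
  rw [muOp]
  congr 1
  simp only [Finset.mul_sum, mul_smul_comm, muOp_mul_e he, Matrix.mul_apply, Finset.sum_smul,
    Finset.smul_sum, smul_smul]
  rw [Finset.sum_comm]
  conv_rhs => rw [Finset.sum_comm]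
  refine Finset.sum_congr rfl fun l _ => ?_
  rw [Finset.sum_comm]
  refine Finset.sum_congr rfl fun k _ => Finset.sum_congr rfl fun i _ => ?_
  rw [mul_comm]

omit [CompleteSpace K] in
lemma muOp_one (e : ι → ι → (K →L[ℂ] K)) : muOp e 1 = 1 := by
  have : ∀ i, ∑ j, (1 : Matrix ι ι ℤ) i j • e i j = e i i := by
    intro i
    rw [Finset.sum_eq_single i]
    · simp
    · intro j _ hj
      rw [Matrix.one_apply_ne (Ne.symm hj), zero_smul]
    · simp
  rw [muOp, Finset.sum_congr rfl fun i _ => this i]
  abel

lemma star_muOp (he : MU e) (A : Matrix ι ι ℤ) : star (muOp e A) = muOp e (star A) := by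
  rw [muOp, muOp, star_add, star_sub, star_one, he.star_sum, star_sum, Finset.sum_comm]
  congr 1
  refine Finset.sum_congr rfl fun i _ => ?_
  rw [star_sum]
  refine Finset.sum_congr rfl fun j _ => ?_
  rw [star_zsmul, he.1, Matrix.star_apply, star_trivial]

lemma finite_unitaryGroup_int (ι : Type) [Fintype ι] [DecidableEq ι] :
    Finite (Matrix.unitaryGroup ι ℤ) := by
  have hb : ∀ A : Matrix.unitaryGroup ι ℤ, ∀ i j, A.1 i j ∈ Set.Icc (-1 : ℤ) 1 := by
    intro A i j
    have h1 := congrFun (congrFun (Matrix.mem_unitaryGroup_iff.1 A.2) i) i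
    rw [Matrix.mul_apply, Matrix.one_apply_eq] at h1
    simp only [Matrix.star_apply, star_trivial] at h1
    have h2 : A.1 i j * A.1 i j ≤ 1 := by
      rw [← h1]
      exact Finset.single_le_sum (f := fun j => A.1 i j * A.1 i j)
        (fun k _ => mul_self_nonneg _) (Finset.mem_univ j)
    constructor <;> nlinarith
  refine Finite.of_injective
    (fun A : Matrix.unitaryGroup ι ℤ => fun i j => (⟨A.1 i j, hb A i j⟩ : Set.Icc (-1 : ℤ) 1)) ?_
  intro A B h
  ext i j
  exact congrArg Subtype.val (congrFun (congrFun h i) j)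

end avg

theorem avgMU : AvgMU.{u} := by
  intro K _ _ _ P d e he heP C hC Y hY
  have := finite_unitaryGroup_int (Fin d)
  let G := Matrix.unitaryGroup (Fin d) ℤ
  have : Fintype G := Fintype.ofFinite G
  let w : G → (K →L[ℂ] K) := fun A => muOp e A.1
  have hwP : ∀ A, w A ∈ P := fun A =>
    add_mem (sum_mem fun i _ => sum_mem fun j _ => zsmul_mem (heP i j) _)
      (sub_mem (one_mem P) (sum_mem fun i _ => heP i i))
  have hw1 : ∀ A, star (w A) * w A = 1 := fun A => by
    simp only [w]
    rw [star_muOp he, ← muOp_mul he, Matrix.mem_unitaryGroup_iff'.1 A.2, muOp_one]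
  have hw2 : ∀ A, w A * star (w A) = 1 := fun A => by
    simp only [w]
    rw [star_muOp he, ← muOp_mul he, Matrix.mem_unitaryGroup_iff.1 A.2, muOp_one]
  have hwm : ∀ A B, w (A * B) = w A * w B := fun A B => muOp_mul he _ _
  have hN : (0 : ℝ) < Fintype.card G := by exact_mod_cast Fintype.card_pos
  set c : ℝ := (Fintype.card G : ℝ)⁻¹ with hc
  set Y' := ∑ A : G, c • (w A * Y * star (w A)) with hY'
  have hcomm : ∀ B, Y' * w B = w B * Y' := by
    intro B
    have h1 : w B * Y' * star (w B) = Y' := by
      rw [hY', Finset.mul_sum, Finset.sum_mul]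
      refine Fintype.sum_equiv (Equiv.mulLeft B) _ _ fun A => ?_
      rw [Equiv.coe_mulLeft, hwm, star_mul, mul_smul_comm, smul_mul_assoc]
      simp only [mul_assoc]
    conv_lhs => rw [← h1]
    rw [mul_assoc, hw1, mul_one]
  have hdiag : ∀ i, Y' * e i i = e i i * Y' := by
    intro i
    let D : Matrix (Fin d) (Fin d) ℤ := Matrix.diagonal fun k => if k = i then -1 else 1
    have hD : D ∈ Matrix.unitaryGroup (Fin d) ℤ := by
      rw [Matrix.mem_unitaryGroup_iff, Matrix.star_eq_conjTranspose, Matrix.diagonal_conjTranspose,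
        Matrix.diagonal_mul_diagonal, ← Matrix.diagonal_one]
      congr 1
      ext k
      simp only [Pi.star_apply, star_trivial]
      split_ifs <;> simp
    have h1 : w ⟨D, hD⟩ = 1 - (2 : ℂ) • e i i := by
      have h2 : ∀ k, ∑ j, D k j • e k j = e k k - if k = i then (2 : ℂ) • e i i else 0 := by
        intro k
        rw [Finset.sum_eq_single k]
        · simp only [D, Matrix.diagonal_apply_eq]
          split_ifs with hk
          · subst hk
            rw [two_smul]; simp
          · simp
        · intro j _ hj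
          simp only [D]
          rw [Matrix.diagonal_apply_ne _ (Ne.symm hj), zero_smul]
        · simp
      change ∑ k, ∑ j, D k j • e k j + (1 - ∑ k, e k k) = _
      rw [Finset.sum_congr rfl fun k _ => h2 k, Finset.sum_sub_distrib, Finset.sum_ite_eq']
      simp only [Finset.mem_univ, if_true]
      abel
    have h3 := hcomm ⟨D, hD⟩
    rw [h1, mul_sub, sub_mul, mul_one, one_mul, sub_right_inj, mul_smul_comm, smul_mul_assoc] at h3
    exact smul_right_injective _ (two_ne_zero) h3
  refine ⟨Y', ?_, fun i j => ?_, fun x hx => ?_⟩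
  · refine hC.1.sum_mem (fun _ _ => by positivity) ?_ fun A _ => hC.2 Y hY _ (hwP A) (hw1 A) (hw2 A)
    rw [Finset.sum_const, Finset.card_univ, nsmul_eq_mul, hc, mul_inv_cancel₀ hN.ne']
  · have hS : Matrix.swap ℤ i j ∈ Matrix.unitaryGroup (Fin d) ℤ := by
      rw [Matrix.mem_unitaryGroup_iff, Matrix.star_eq_conjTranspose, Matrix.conjTranspose_swap,
        Matrix.swap_mul_self]
    have h1 : w ⟨_, hS⟩ * e j j = e i j := by
      change muOp e (Matrix.swap ℤ i j) * e j j = e i j
      rw [muOp_mul_e he, Finset.sum_eq_single i]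
      · simp [Matrix.swap]
      · intro k _ hk
        have : Matrix.swap ℤ i j k j = 0 := by
          have h5 : Equiv.swap i j k ≠ j := by
            intro h
            apply hk
            rw [Equiv.swap_apply_eq_iff, Equiv.swap_apply_right] at h
            exact h
          simp [Matrix.swap, h5]
        rw [this, zero_smul]
      · simp
    rw [← h1, ← mul_assoc, hcomm, mul_assoc, hdiag, mul_assoc]
  · have hxw : ∀ A, x * w A = w A * x := by
      intro A
      simp only [w, muOp, mul_add, add_mul, mul_sub, sub_mul, Finset.mul_sum, Finset.sum_mul,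
        mul_smul_comm, smul_mul_assoc, hx, mul_one, one_mul]
    have hxw' : ∀ A, star (w A) * x = x * star (w A) := by
      intro A
      calc star (w A) * x = star (w A) * x * (w A * star (w A)) := by rw [hw2, mul_one]
        _ = star (w A) * (x * w A) * star (w A) := by simp only [mul_assoc]
        _ = (star (w A) * w A) * x * star (w A) := by rw [hxw]; simp only [mul_assoc]
        _ = x * star (w A) := by rw [hw1, one_mul]
    have h1 : Y' * x - x * Y' = ∑ A : G, c • (w A * (Y * x - x * Y) * star (w A)) := by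
      rw [hY', Finset.mul_sum, Finset.sum_mul, ← Finset.sum_sub_distrib]
      refine Finset.sum_congr rfl fun A _ => ?_
      rw [mul_smul_comm, smul_mul_assoc, ← smul_sub, mul_sub, sub_mul]
      congr 2
      · rw [mul_assoc, hxw']; simp only [mul_assoc]
      · rw [← mul_assoc, ← mul_assoc, hxw]; simp only [mul_assoc]
    have h2 : ∀ A, ‖w A * (Y * x - x * Y) * star (w A)‖ = ‖Y * x - x * Y‖ := by
      intro A
      have hu : w A ∈ unitary (K →L[ℂ] K) := ⟨hw1 A, hw2 A⟩
      rw [CStarRing.norm_mul_mem_unitary _ (Unitary.star_mem hu), CStarRing.norm_mem_unitary_mul _ hu]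
    rw [h1]
    refine (norm_sum_le _ _).trans (le_of_eq ?_)
    simp only [norm_smul, h2]
    rw [Finset.sum_const, Finset.card_univ, nsmul_eq_mul, Real.norm_of_nonneg (by positivity),
      ← mul_assoc, hc, mul_inv_cancel₀ hN.ne', one_mul]

end Crest.Agent.H0164
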