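import Mathlib
import Crest.Agent.H0164.A1

set_option autoImplicit false
universe u

namespace Crest.Agent.H0164

open scoped InnerProductSpace BigOperators

section cent
variable {K : Type*} [NormedAddCommGroup K] [InnerProductSpace ℂ K] [CompleteSpace K]

lemma norm_unitary_conj {w : K →L[ℂ] K} (h1 : star w * w = 1) (h2 : w * star w = 1)
    (Z : K →L[ℂ] K) : ‖w * Z * star w‖ = ‖Z‖ := by
  have hu : w ∈ unitary (K →L[ℂ] K) := ⟨h1, h2⟩
  rw [CStarRing.norm_mul_mem_unitary _ (Unitary.star_mem hu), CStarRing.norm_mem_unitary_mul _ hu]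

/-- Averaging along the powers of a central unitary. -/
lemma centAvg1 (P : VonNeumannAlgebra K) {C : Set (K →L[ℂ] K)} (hC : AvgClosed P C)
    {w : K →L[ℂ] K} (hwP : w ∈ P) (hwc : ∀ x ∈ P, w * x = x * w) (h1 : star w * w = 1)
    (h2 : w * star w = 1) {δ : ℝ} (hδ : 0 < δ) {Y : K →L[ℂ] K} (hY : Y ∈ C) :
    ∃ Y' ∈ C, ‖Y' * w - w * Y'‖ ≤ δ ∧ ∀ x ∈ P, ‖Y' * x - x * Y'‖ ≤ ‖Y * x - x * Y‖ := by
  obtain ⟨n, hn⟩ := exists_nat_gt (2 * ‖Y‖ / δ)
  have hn0 : (0 : ℝ) < n := lt_of_le_of_lt (by positivity) hn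
  have hu : w ∈ unitary (K →L[ℂ] K) := ⟨h1, h2⟩
  have hk1 : ∀ k : ℕ, star (w ^ k) * w ^ k = 1 := fun k => (pow_mem hu k).1
  have hk2 : ∀ k : ℕ, w ^ k * star (w ^ k) = 1 := fun k => (pow_mem hu k).2
  set c : ℝ := (n : ℝ)⁻¹ with hc
  have hc0 : 0 < c := by positivity
  set Y' := ∑ k ∈ Finset.range n, c • (w ^ k * Y * star (w ^ k)) with hY'
  refine ⟨Y', ?_, ?_, fun x hx => ?_⟩
  · refine hC.1.sum_mem (fun _ _ => hc0.le) ?_ fun k _ =>
      hC.2 Y hY _ (pow_mem hwP k) (hk1 k) (hk2 k)
    rw [Finset.sum_const, Finset.card_range, nsmul_eq_mul, hc, mul_inv_cancel₀ hn0.ne']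
  · have e1 : w * Y' * star w - Y' = c • (w ^ n * Y * star (w ^ n) - Y) := by
      have := Finset.sum_range_sub (fun k => w ^ k * Y * star (w ^ k)) n
      simp only [pow_zero, star_one, one_mul, mul_one] at this
      rw [← this, hY', Finset.mul_sum, Finset.sum_mul, ← Finset.sum_sub_distrib, Finset.smul_sum]
      refine Finset.sum_congr rfl fun k _ => ?_
      rw [smul_sub, mul_smul_comm, smul_mul_assoc, pow_succ', star_mul]
      simp only [mul_assoc]
    have e2 : Y' * w - w * Y' = -((w * Y' * star w - Y') * w) := by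
      rw [sub_mul, mul_assoc, h1, mul_one, neg_sub]
    rw [e2, norm_neg, CStarRing.norm_mul_mem_unitary _ hu, e1, norm_smul,
      Real.norm_of_nonneg hc0.le]
    have e3 : ‖w ^ n * Y * star (w ^ n) - Y‖ ≤ 2 * ‖Y‖ := by
      refine (norm_sub_le _ _).trans ?_
      rw [norm_unitary_conj (hk1 n) (hk2 n)]
      linarith
    rw [div_lt_iff₀ hδ] at hn
    rw [hc, inv_mul_le_iff₀ hn0]
    linarith
  · have hxw : ∀ k : ℕ, x * w ^ k = w ^ k * x := fun k =>
      (Commute.pow_left (hwc x hx) k).eq.symm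
    have hxw' : ∀ k : ℕ, star (w ^ k) * x = x * star (w ^ k) := by
      intro k
      have := congrArg star (Commute.pow_left (hwc _ (star_mem hx)) k).eq
      rw [star_mul, star_mul, star_star] at this
      exact this.symm
    have e1 : Y' * x - x * Y' =
        ∑ k ∈ Finset.range n, c • (w ^ k * (Y * x - x * Y) * star (w ^ k)) := by
      rw [hY', Finset.mul_sum, Finset.sum_mul, ← Finset.sum_sub_distrib]
      refine Finset.sum_congr rfl fun k _ => ?_
      rw [mul_smul_comm, smul_mul_assoc, ← smul_sub, mul_sub, sub_mul]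
      congr 2
      · rw [mul_assoc, hxw']; simp only [mul_assoc]
      · rw [← mul_assoc, ← mul_assoc, hxw]; simp only [mul_assoc]
    rw [e1]
    refine (norm_sum_le _ _).trans (le_of_eq ?_)
    simp only [norm_smul, norm_unitary_conj (hk1 _) (hk2 _)]
    rw [Finset.sum_const, Finset.card_range, nsmul_eq_mul, Real.norm_of_nonneg hc0.le,
      ← mul_assoc, hc, mul_inv_cancel₀ hn0.ne', one_mul]

/-- Simultaneous version of an averaging property. -/
lemma avg_finset (P : VonNeumannAlgebra K) {C : Set (K →L[ℂ] K)} {α : Type*} (S : Finset α)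
    (s : α → (K →L[ℂ] K)) (hsP : ∀ a ∈ S, s a ∈ P) {δ : ℝ}
    (h : ∀ a ∈ S, ∀ Y ∈ C, ∃ Y' ∈ C, ‖Y' * s a - s a * Y'‖ ≤ δ ∧
      ∀ x ∈ P, ‖Y' * x - x * Y'‖ ≤ ‖Y * x - x * Y‖) {Y : K →L[ℂ] K} (hY : Y ∈ C) :
    ∃ Y' ∈ C, (∀ a ∈ S, ‖Y' * s a - s a * Y'‖ ≤ δ) ∧
      ∀ x ∈ P, ‖Y' * x - x * Y'‖ ≤ ‖Y * x - x * Y‖ := by
  classical
  induction S using Finset.induction_on with
  | empty => exact ⟨Y, hY, by simp, fun x _ => le_rfl⟩
  | insert a S _ ih =>
    obtain ⟨Y1, hY1, h1, h2⟩ := ih (fun b hb => hsP b (Finset.mem_insert_of_mem hb))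
      (fun b hb => h b (Finset.mem_insert_of_mem hb))
    obtain ⟨Y2, hY2, h3, h4⟩ := h a (Finset.mem_insert_self a S) Y1 hY1
    refine ⟨Y2, hY2, fun b hb => ?_, fun x hx => (h4 x hx).trans (h2 x hx)⟩
    rcases Finset.mem_insert.1 hb with rfl | hb
    · exact h3
    · exact (h4 _ (hsP b (Finset.mem_insert_of_mem hb))).trans (h1 b hb)

/-- Averaging for an arbitrary central element. -/
lemma centAvg (P : VonNeumannAlgebra K) {C : Set (K →L[ℂ] K)} (hC : AvgClosed P C)
    {s : K →L[ℂ] K} (hsP : s ∈ P) (hsc : ∀ x ∈ P, s * x = x * s) {δ : ℝ} (hδ : 0 < δ)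
    {Y : K →L[ℂ] K} (hY : Y ∈ C) :
    ∃ Y' ∈ C, ‖Y' * s - s * Y'‖ ≤ δ ∧ ∀ x ∈ P, ‖Y' * x - x * Y'‖ ≤ ‖Y * x - x * Y‖ := by
  let Z : StarSubalgebra ℂ (K →L[ℂ] K) := P.toStarSubalgebra ⊓ P.commutant.toStarSubalgebra
  have hZ : IsClosed (Z : Set (K →L[ℂ] K)) := by
    have h1 : IsClosed (P : Set (K →L[ℂ] K)) := by
      rw [← P.centralizer_centralizer]; exact Set.isClosed_centralizer _
    have h2 : IsClosed (P.commutant : Set (K →L[ℂ] K)) := by
      rw [P.coe_commutant]; exact Set.isClosed_centralizer _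
    exact h1.inter h2
  have hsZ : s ∈ Z :=
    ⟨hsP, VonNeumannAlgebra.mem_commutant_iff.2 fun g hg => (hsc g hg).symm⟩
  obtain ⟨u, c, hsum, hc⟩ := CStarAlgebra.exists_sum_four_unitary (⟨s, hsZ⟩ : Z)
  have hs : s = ∑ i, c i • ((u i : Z) : K →L[ℂ] K) := by
    have := congrArg (Subtype.val : Z → K →L[ℂ] K) hsum
    simpa using this
  have hc' : ∀ i, ‖c i‖ ≤ ‖s‖ / 2 := hc
  have hδ' : 0 < δ / (2 * ‖s‖ + 1) := by positivity
  obtain ⟨Y', hY', h1, h2⟩ := avg_finset P Finset.univ (fun i => ((u i : Z) : K →L[ℂ] K))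
    (fun i _ => (u i : Z).2.1) (δ := δ / (2 * ‖s‖ + 1)) (fun i _ Y hY =>
      centAvg1 P hC (u i : Z).2.1
        (fun x hx => (VonNeumannAlgebra.mem_commutant_iff.1 (u i : Z).2.2 x hx).symm)
        (congrArg Subtype.val (u i).2.1) (congrArg Subtype.val (u i).2.2) hδ' hY) hY
  refine ⟨Y', hY', ?_, h2⟩
  have e1 : Y' * s - s * Y' =
      ∑ i, c i • (Y' * ((u i : Z) : K →L[ℂ] K) - ((u i : Z) : K →L[ℂ] K) * Y') := by
    conv_lhs => rw [hs]
    rw [Finset.mul_sum, Finset.sum_mul, ← Finset.sum_sub_distrib]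
    refine Finset.sum_congr rfl fun i _ => ?_
    rw [smul_sub, mul_smul_comm, smul_mul_assoc]
  rw [e1]
  refine (norm_sum_le _ _).trans ?_
  have e2 : ∀ i, ‖c i • (Y' * ((u i : Z) : K →L[ℂ] K) - ((u i : Z) : K →L[ℂ] K) * Y')‖ ≤
      ‖s‖ / 2 * (δ / (2 * ‖s‖ + 1)) := by
    intro i
    rw [norm_smul]
    exact mul_le_mul (hc' i) (h1 i (Finset.mem_univ i)) (norm_nonneg _) (by positivity)
  refine (Finset.sum_le_sum fun i _ => e2 i).trans ?_
  rw [Finset.sum_const, Finset.card_univ, Fintype.card_fin, nsmul_eq_mul]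
  have e3 : (4 : ℕ) * (‖s‖ / 2 * (δ / (2 * ‖s‖ + 1))) = δ * (2 * ‖s‖ / (2 * ‖s‖ + 1)) := by
    push_cast; field_simp; ring
  rw [e3]
  exact mul_le_of_le_one_right hδ.le ((div_le_one (by positivity)).2 (by linarith))

lemma norm_two_abs_sub_one_le {t : K →L[ℂ] K} (ht : IsSelfAdjoint t) (hn : ‖t‖ ≤ 1) :
    ‖CFC.abs t + CFC.abs t - 1‖ ≤ 1 := by
  obtain (_ | _) := subsingleton_or_nontrivial (K →L[ℂ] K)
  · rw [Subsingleton.elim (CFC.abs t + CFC.abs t - 1) 0]; simp
  have : CFC.abs t + CFC.abs t - 1 = cfc (fun x : ℝ => ‖x‖ + ‖x‖ - 1) t := by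
    rw [cfc_sub .., cfc_add .., cfc_const_one .., CFC.abs_eq_cfc_norm t ht]
  rw [this]
  refine norm_cfc_le zero_le_one fun x hx => ?_
  have h1 := (spectrum.norm_le_norm_of_mem hx).trans hn
  have h2 := norm_nonneg x
  rw [Real.norm_eq_abs (‖x‖ + ‖x‖ - 1), abs_le]
  constructor <;> linarith

/-- A corner without square-zero elements is commutative. -/
lemma comm_of_no_nilpotent (P : VonNeumannAlgebra K) {p : K →L[ℂ] K} (hps : star p = p)
    (hnil : ∀ y ∈ P, p * y = y → y * p = y → y * y = 0 → y = 0) :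
    ∀ x ∈ P, ∀ y ∈ P, p * x = x → x * p = x → p * y = y → y * p = y → x * y = y * x := by
  have key : ∀ a ∈ P, IsSelfAdjoint a → p * a = a → a * p = a → ∀ n : ℕ, ∀ t ∈ P,
      IsSelfAdjoint t → Commute t p → ‖t‖ ≤ 1 → ‖t * a - a * t‖ ≤ 2 * ‖a‖ * (1 / 2) ^ n := by
    intro a haP has hpa hap n
    induction n with
    | zero =>
      intro t _ _ _ hn
      refine (norm_sub_le _ _).trans ?_
      have h1 := (norm_mul_le t a).trans (mul_le_of_le_one_left (norm_nonneg _) hn)
      have h2 := (norm_mul_le a t).trans (mul_le_of_le_one_right (norm_nonneg _) hn)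
      simp only [pow_zero, mul_one]
      linarith
    | succ n ih =>
      intro t htP hts htp hn
      have memP : ∀ f : ℝ → ℝ, cfcₙ f t ∈ P := by
        intro f
        rw [← P.commutant_commutant, VonNeumannAlgebra.mem_commutant_iff]
        intro b hb
        have h1 : Commute t b := (VonNeumannAlgebra.mem_commutant_iff.1 hb) t htP
        exact (h1.cfcₙ_real f).eq.symm
      have hpP : t⁺ ∈ P := memP _
      have hnP : t⁻ ∈ P := memP _
      have hpp : Commute t⁺ p := htp.cfcₙ_real _
      have hnp : Commute t⁻ p := htp.cfcₙ_real _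
      have hps' : star t⁺ = t⁺ := (CFC.posPart_nonneg t).isSelfAdjoint.star_eq
      have hns' : star t⁻ = t⁻ := (CFC.negPart_nonneg t).isSelfAdjoint.star_eq
      have nil : ∀ b ∈ P, p * b = b → b * p = b → t⁺ * b * t⁻ = 0 := by
        intro b hb h1 h2
        refine hnil _ (mul_mem (mul_mem hpP hb) hnP) ?_ ?_ ?_
        · rw [← mul_assoc, ← mul_assoc, ← hpp.eq, mul_assoc t⁺ p, h1]
        · rw [mul_assoc, hnp.eq, ← mul_assoc, mul_assoc t⁺, h2]
        · have := CFC.negPart_mul_posPart t
          calc t⁺ * b * t⁻ * (t⁺ * b * t⁻) = t⁺ * b * (t⁻ * t⁺) * b * t⁻ := by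
                simp only [mul_assoc]
            _ = 0 := by rw [this]; simp
      have n1 := nil a haP hpa hap
      have n2 := nil (a * a) (mul_mem haP haP) (by rw [← mul_assoc, hpa]) (by rw [mul_assoc, hap])
      have n3 := CFC.posPart_mul_negPart t
      set A := t⁺ * a - a * t⁺ with hA
      set B := t⁻ * a - a * t⁻ with hB
      have hAB : star A * B = 0 := by
        have : star A * B = a * (t⁺ * t⁻) * a - a * (t⁺ * a * t⁻) - (t⁺ * a * t⁻) * 0 -
            t⁺ * a * t⁻ * a + t⁺ * (a * a) * t⁻ := by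
          rw [hA, hB, star_sub, star_mul, star_mul, hps', has.star_eq]
          noncomm_ring
        rw [this, n1, n2, n3]; simp
      have hBA : star B * A = 0 := by
        have := congrArg star hAB
        rwa [star_mul, star_star, star_zero] at this
      have hnorm : ‖A - B‖ = ‖A + B‖ := by
        have h1 : star (A - B) * (A - B) = star (A + B) * (A + B) := by
          clear_value A B
          rw [star_sub, star_add, sub_mul, add_mul, mul_sub, mul_sub, mul_add, mul_add, hAB, hBA]
          simp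
        have h2 := CStarRing.norm_star_mul_self (x := A - B)
        rw [h1, CStarRing.norm_star_mul_self] at h2
        exact (mul_self_inj_of_nonneg (norm_nonneg _) (norm_nonneg _)).1 h2.symm
      have e1 : t * a - a * t = A - B := by
        conv_lhs => rw [← CFC.posPart_sub_negPart t hts]
        rw [hA, hB]; noncomm_ring
      set t' := CFC.abs t + CFC.abs t - 1 with ht'
      have e2 : t' * a - a * t' = (A + B) + (A + B) := by
        rw [ht', ← CFC.posPart_add_negPart t hts, hA, hB]; noncomm_ring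
      have habs := abs_mem_vn P htP
      have habsp : Commute (CFC.abs t) p := htp.cfcAbs_left (by rw [hps]; exact htp)
      have h3 := ih t' (sub_mem (add_mem habs habs) (one_mem P))
        (by rw [IsSelfAdjoint, ht', star_sub, star_add, star_one, star_abs_clm])
        ((habsp.add_left habsp).sub_left (Commute.one_left p)) (norm_two_abs_sub_one_le hts hn)
      rw [e2, ← two_smul ℂ, norm_smul] at h3
      rw [e1, hnorm, pow_succ]
      simp only [Complex.norm_ofNat] at h3
      linarith
  have key2 : ∀ a ∈ P, IsSelfAdjoint a → p * a = a → a * p = a → ∀ t ∈ P,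
      IsSelfAdjoint t → p * t = t → t * p = t → t * a = a * t := by
    intro a haP has hpa hap t htP hts hpt htp
    set r : ℝ := (‖t‖ + 1)⁻¹ with hr
    have hr0 : 0 < r := by positivity
    have h1 : ∀ n : ℕ, ‖((r : ℂ) • t) * a - a * ((r : ℂ) • t)‖ ≤ 2 * ‖a‖ * (1 / 2) ^ n := by
      intro n
      refine key a haP has hpa hap n _ (P.toStarSubalgebra.smul_mem htP _) ?_ ?_ ?_
      · rw [IsSelfAdjoint, star_smul, hts.star_eq]; simp
      · exact Commute.smul_left (htp.trans hpt.symm) _
      · rw [norm_smul, Complex.norm_real, Real.norm_of_nonneg hr0.le, hr,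
          inv_mul_le_iff₀ (by positivity)]
        linarith
    have h2 : Filter.Tendsto (fun n : ℕ => 2 * ‖a‖ * (1 / 2 : ℝ) ^ n) Filter.atTop (nhds 0) := by
      simpa using (tendsto_pow_atTop_nhds_zero_of_lt_one (r := (1 / 2 : ℝ)) (by norm_num)
        (by norm_num)).const_mul (2 * ‖a‖)
    have h3 := ge_of_tendsto' h2 h1
    rw [norm_le_zero_iff, smul_mul_assoc, mul_smul_comm, ← smul_sub, smul_eq_zero] at h3
    exact sub_eq_zero.1 (h3.resolve_left (by exact_mod_cast hr0.ne'))
  have dec : ∀ x ∈ P, p * x = x → x * p = x → ∃ a b, a ∈ P ∧ b ∈ P ∧ IsSelfAdjoint a ∧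
      IsSelfAdjoint b ∧ p * a = a ∧ a * p = a ∧ p * b = b ∧ b * p = b ∧
      x = (1 / 2 : ℂ) • a + (Complex.I / 2) • b := by
    intro x hx h1 h2
    have h1' : star x * p = star x := by
      have := congrArg star h1
      rwa [star_mul, hps] at this
    have h2' : p * star x = star x := by
      have := congrArg star h2
      rwa [star_mul, hps] at this
    refine ⟨x + star x, Complex.I • (star x - x), add_mem hx (star_mem hx),
      P.toStarSubalgebra.smul_mem (sub_mem (star_mem hx) hx) _, ?_, ?_, ?_, ?_, ?_, ?_, ?_⟩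
    · rw [IsSelfAdjoint, star_add, star_star, add_comm]
    · rw [IsSelfAdjoint, star_smul, star_sub, star_star, Complex.star_def, Complex.conj_I,
        neg_smul, ← smul_neg, neg_sub]
    · rw [mul_add, h1, h2']
    · rw [add_mul, h2, h1']
    · rw [mul_smul_comm, mul_sub, h1, h2']
    · rw [smul_mul_assoc, sub_mul, h2, h1']
    · rw [smul_smul, show Complex.I / 2 * Complex.I = -(1 / 2) by
        rw [div_mul_eq_mul_div, Complex.I_mul_I]; ring]
      module
  intro x hx y hy h1 h2 h3 h4
  obtain ⟨a, b, haP, hbP, has, hbs, a1, a2, b1, b2, rfl⟩ := dec x hx h1 h2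
  obtain ⟨c, d, hcP, hdP, hcs, hds, c1, c2, d1, d2, rfl⟩ := dec y hy h3 h4
  have ca : Commute a c := key2 c hcP hcs c1 c2 a haP has a1 a2
  have da : Commute a d := key2 d hdP hds d1 d2 a haP has a1 a2
  have cb : Commute b c := key2 c hcP hcs c1 c2 b hbP hbs b1 b2
  have db : Commute b d := key2 d hdP hds d1 d2 b hbP hbs b1 b2
  exact (Commute.add_left
    (((ca.smul_right _).add_right (da.smul_right _)).smul_left _)
    (((cb.smul_right _).add_right (db.smul_right _)).smul_left _)).eq

end cent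

theorem typeI : TypeI.{u} := by
  intro K _ _ _ P d hd
  obtain ⟨k, rfl⟩ : ∃ k, d = k + 1 := ⟨d - 1, by omega⟩
  clear hd
  induction k with
  | zero =>
    intro z hz hNF C _ Y hY F _ ε hε
    have hz0 : z = 0 := hNF (fun _ => z) (fun _ => hz.1) (fun _ => hz.2.2.1)
      (fun i j hij => absurd (Subsingleton.elim (α := Fin 1) i j) hij) (fun _ _ => rfl) 0
    exact ⟨Y, hY, fun x _ => by simp [hz0, hε.le]⟩
  | succ k ih =>
    intro z hz hNF C hC Y hY F hF ε hε
    obtain ⟨hzP, hzs, hzz, hzc⟩ := hz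
    obtain ⟨e, he, heP, hze, hemax⟩ := maxMU P (Fin (k + 1)) (fun _ => z)
    set c : K →L[ℂ] K := ∑ i, e i i with hc
    have hcP : c ∈ P := sum_mem fun i _ => heP i i
    have hcs : star c = c := he.star_sum
    have hcc : c * c = c := he.sum_mul_sum
    have hce : ∀ i j, c * e i j = e i j := he.sum_mul
    have hec : ∀ i j, e i j * c = e i j := he.mul_sum
    have hez : ∀ i j, e i j * z = e i j := fun i j => by rw [← hzc _ (heP i j), hze]
    have hzc' : z * c = c := by
      rw [hc, Finset.mul_sum]; exact Finset.sum_congr rfl fun i _ => hze i i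
    have hcz : c * z = c := by rw [← hzc _ hcP, hzc']
    -- the basic extension lemma
    have ext : ∀ y ∈ P, z * y = y → y * e 0 0 = y → (∀ i, CFC.abs y * (e 0 i * y) = 0) →
        y = 0 := by
      intro y hy h1 h2 h3
      have hab : e 0 0 * CFC.abs y = CFC.abs y := mul_abs_eq_of_mul_eq (he.1 0 0) h2
      have hprod : ∀ i j, star (e i 0 * CFC.abs y) * (e j 0 * CFC.abs y) =
          if i = j then star y * y else 0 := by
        intro i j
        rw [star_mul, star_abs_clm, he.1, mul_assoc, ← mul_assoc (e 0 i), he.2]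
        split_ifs
        · rw [hab, CFC.abs_mul_abs]
        · simp
      have hprod2 : ∀ i, star (e i 0 * CFC.abs y) * y = 0 := by
        intro i
        rw [star_mul, star_abs_clm, he.1, mul_assoc, h3]
      have hprod3 : ∀ i, star y * (e i 0 * CFC.abs y) = 0 := by
        intro i
        have := congrArg star (hprod2 i)
        rwa [star_mul, star_star, star_zero] at this
      have hsq : ∀ i : Fin (k + 1 + 1),
          star ((Fin.cons y (fun i => e i 0 * CFC.abs y) : Fin (k + 1 + 1) → K →L[ℂ] K) i) *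
          (Fin.cons y (fun i => e i 0 * CFC.abs y) : Fin (k + 1 + 1) → K →L[ℂ] K) i =
          star y * y := by
        intro i
        refine Fin.cases ?_ (fun i => ?_) i
        · rfl
        · simp only [Fin.cons_succ]
          rw [hprod, if_pos rfl]
      refine hNF (Fin.cons y (fun i => e i 0 * CFC.abs y)) (fun i => ?_) (fun i => ?_)
        (fun i j => ?_) (fun i j => by rw [hsq, hsq]) 0
      · refine Fin.cases ?_ (fun i => ?_) i
        · exact hy
        · exact mul_mem (heP i 0) (abs_mem_vn P hy)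
      · refine Fin.cases ?_ (fun i => ?_) i
        · exact h1
        · simp only [Fin.cons_succ]
          rw [← mul_assoc, hze]
      · refine Fin.cases ?_ (fun i => ?_) i <;> refine Fin.cases ?_ (fun j => ?_) j
        · intro h; exact absurd rfl h
        · intro _; exact hprod3 j
        · intro _; exact hprod2 i
        · intro h
          simp only [Fin.cons_succ]
          rw [hprod, if_neg (fun h' => h (by rw [h']))]
    have hezc : ∀ i j, e i j * (z - c) = 0 := fun i j => by rw [mul_sub, hez, hec, sub_self]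
    have h00 : ∀ y ∈ P, (z - c) * y * e 0 0 = 0 := by
      intro y hy
      refine ext _ (mul_mem (mul_mem (sub_mem hzP hcP) hy) (heP 0 0)) ?_ ?_ fun i => ?_
      · rw [← mul_assoc, ← mul_assoc, mul_sub, hzz, hzc']
      · rw [mul_assoc, he.mul_same]
      · rw [← mul_assoc (e 0 i), ← mul_assoc (e 0 i), hezc]; simp
    have hxc : ∀ x ∈ P, x * c = c * x * c := by
      intro x hx
      have h1 : (z - c) * x * c = 0 := by
        rw [hc, Finset.mul_sum]
        refine Finset.sum_eq_zero fun i _ => ?_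
        have := h00 _ (mul_mem hx (heP i 0))
        rw [← he.mul_same i 0 i, ← he.mul_same i 0 0]
        simp only [mul_assoc] at this ⊢
        simp only [← mul_assoc] at this ⊢
        rw [this, zero_mul]
      rw [sub_mul, sub_mul, hzc x hx, mul_assoc x, hzc', sub_eq_zero] at h1
      exact h1
    have hcc' : ∀ x ∈ P, c * x = x * c := by
      intro x hx
      have h1 := congrArg star (hxc _ (star_mem hx))
      rw [star_mul, star_mul, star_mul, star_star, hcs, ← mul_assoc] at h1
      rw [h1, ← hxc x hx]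
    have hCP : CP P (z - c) := by
      refine ⟨sub_mem hzP hcP, by rw [star_sub, hzs, hcs], ?_, fun x hx => ?_⟩
      · rw [mul_sub, sub_mul, sub_mul, hzz, hcz, hzc', hcc, sub_self, sub_zero]
      · rw [mul_sub, sub_mul, hzc x hx, hcc' x hx]
    have hNF' : NF P (k + 1) (z - c) := by
      intro u huP hzu huo hue
      refine hemax u huP (fun i => ?_) huo hue fun i j l => ?_
      · rw [← hzu i, ← mul_assoc, mul_sub, hzz, hzc']
      · rw [← hzu l, ← mul_assoc, hezc, zero_mul]
    have hcomm := comm_of_no_nilpotent P (he.1 0 0) (fun y hy h1 h2 h3 => by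
      refine ext y hy (by rw [← h1, ← mul_assoc, hze]) h2 fun i => ?_
      have h4 : e 0 i * y = if i = 0 then y else 0 := by
        conv_lhs => rw [← h1, ← mul_assoc, he.2]
        split_ifs
        · exact h1
        · simp
      rw [abs_mul_eq_zero_iff, h4]
      split_ifs
      · exact h3
      · simp)
    -- the central coefficients
    let hat : (K →L[ℂ] K) → Fin (k + 1) → Fin (k + 1) → (K →L[ℂ] K) := fun x i j =>
      ∑ l, e l 0 * (e 0 i * x * e j 0) * e 0 l
    have hatP : ∀ x ∈ P, ∀ i j, hat x i j ∈ P := fun x hx i j =>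
      sum_mem fun l _ => mul_mem (mul_mem (heP l 0) (mul_mem (mul_mem (heP 0 i) hx) (heP j 0)))
        (heP 0 l)
    have cor1 : ∀ x i j, e 0 0 * (e 0 i * x * e j 0) = e 0 i * x * e j 0 := fun x i j => by
      rw [← mul_assoc, ← mul_assoc, he.mul_same]
    have cor2 : ∀ x i j, (e 0 i * x * e j 0) * e 0 0 = e 0 i * x * e j 0 := fun x i j => by
      rw [mul_assoc, he.mul_same]
    have hatc : ∀ x ∈ P, ∀ i j, ∀ w ∈ P, hat x i j * w = w * hat x i j := by
      intro x hx i j w hw
      set q := e 0 i * x * e j 0 with hq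
      have hqP : q ∈ P := mul_mem (mul_mem (heP 0 i) hx) (heP j 0)
      have e1 : ∀ l m, e l 0 * q * e 0 l * w * e m m = e l l * w * (e m 0 * q * e 0 m) := by
        intro l m
        have h1 := hcomm q hqP (e 0 l * w * e m 0) (mul_mem (mul_mem (heP 0 l) hw) (heP m 0))
          (cor1 x i j) (cor2 x i j) (cor1 w l m) (cor2 w l m)
        calc e l 0 * q * e 0 l * w * e m m = e l 0 * (q * (e 0 l * w * e m 0)) * e 0 m := by
              rw [← he.mul_same m 0 m]; simp only [mul_assoc]
          _ = e l l * w * (e m 0 * q * e 0 m) := by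
              rw [h1, ← he.mul_same l 0 l]; simp only [mul_assoc]
      have e2 : hat x i j * c = hat x i j := by
        simp only [hat]
        rw [Finset.sum_mul]
        exact Finset.sum_congr rfl fun l _ => by rw [mul_assoc, hec]
      have e3 : c * hat x i j = hat x i j := by
        simp only [hat]
        rw [Finset.mul_sum]
        exact Finset.sum_congr rfl fun l _ => by rw [← mul_assoc, ← mul_assoc, hce]
      calc hat x i j * w = hat x i j * w * c := by
            rw [mul_assoc, ← hcc' w hw, ← mul_assoc, e2]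
        _ = ∑ l, ∑ m, e l 0 * q * e 0 l * w * e m m := by
            simp only [hat]
            rw [Finset.sum_mul, Finset.sum_mul]
            exact Finset.sum_congr rfl fun l _ => by rw [hc, Finset.mul_sum]
        _ = c * w * hat x i j := by
            simp only [hat, e1]
            rw [hc, Finset.sum_mul, Finset.sum_mul]
            exact Finset.sum_congr rfl fun l _ => by rw [Finset.mul_sum]
        _ = w * hat x i j := by rw [hcc' w hw, mul_assoc, e3]
    have hexp : ∀ x ∈ P, c * x = ∑ i, ∑ j, hat x i j * e i j := by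
      intro x hx
      have e1 : ∀ i j, hat x i j * e i j = e i i * x * e j j := by
        intro i j
        simp only [hat]
        rw [Finset.sum_mul, Finset.sum_eq_single i]
        · rw [mul_assoc, he.mul_same, ← he.mul_same i 0 i, ← he.mul_same j 0 j]
          simp only [mul_assoc]
        · intro l _ hl
          rw [mul_assoc, he.2, if_neg hl, mul_zero]
        · simp
      simp only [e1]
      calc c * x = c * x * c := by rw [← hxc x hx, hcc' x hx]
        _ = _ := by
          rw [hc, Finset.sum_mul, Finset.sum_mul]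
          exact Finset.sum_congr rfl fun i _ => by rw [Finset.mul_sum]
    have hen : ∀ i j, ‖e i j‖ ≤ 1 := by
      intro i j
      have h1 : ‖e j j‖ ≤ 1 := by
        have h := CStarRing.norm_star_mul_self (x := e j j)
        rw [he.1, he.mul_same] at h
        by_contra hlt
        push Not at hlt
        nlinarith
      have h := CStarRing.norm_star_mul_self (x := e i j)
      rw [he.1, he.mul_same] at h
      have := norm_nonneg (e i j)
      nlinarith
    obtain ⟨Y1, hY1, h1⟩ := ih (z - c) hCP hNF' C hC Y hY F hF (ε / 2) (half_pos hε)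
    obtain ⟨Y2, hY2, h2, h2'⟩ := avgMU K P (k + 1) e he heP C hC Y1 hY1
    have hδ : 0 < ε / 2 / ((k + 1 : ℝ) * (k + 1)) := by positivity
    obtain ⟨Y3, hY3, h3, h3'⟩ := avg_finset P (C := C)
      (F ×ˢ (Finset.univ : Finset (Fin (k + 1) × Fin (k + 1))))
      (fun a => hat a.1 a.2.1 a.2.2) (fun a ha => hatP _ (hF _ (Finset.mem_product.1 ha).1) _ _)
      (δ := ε / 2 / ((k + 1 : ℝ) * (k + 1))) (fun a ha Y hY =>
        centAvg P hC (hatP _ (hF _ (Finset.mem_product.1 ha).1) _ _)
          (hatc _ (hF _ (Finset.mem_product.1 ha).1) _ _) hδ hY) hY2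
    refine ⟨Y3, hY3, fun x hx => ?_⟩
    have hxP := hF x hx
    have hY3e : ∀ i j, Y3 * e i j = e i j * Y3 := by
      intro i j
      have := h3' _ (heP i j)
      rwa [h2, sub_self, norm_zero, norm_le_zero_iff, sub_eq_zero] at this
    have b1 : ‖Y3 * ((z - c) * x) - (z - c) * x * Y3‖ ≤ ε / 2 := by
      refine (h3' _ (mul_mem hCP.1 hxP)).trans ((h2' _ fun i j => ?_).trans (h1 x hx))
      rw [← mul_assoc, hezc, zero_mul, hCP.2.2.2 x hxP, mul_assoc, hCP.2.2.2 _ (heP i j), hezc,
        mul_zero]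
    have b2 : ‖Y3 * (c * x) - c * x * Y3‖ ≤ ε / 2 := by
      have e1 : Y3 * (c * x) - c * x * Y3 =
          ∑ i, ∑ j, (Y3 * hat x i j - hat x i j * Y3) * e i j := by
        rw [hexp x hxP, Finset.mul_sum, Finset.sum_mul, ← Finset.sum_sub_distrib]
        refine Finset.sum_congr rfl fun i _ => ?_
        rw [Finset.mul_sum, Finset.sum_mul, ← Finset.sum_sub_distrib]
        refine Finset.sum_congr rfl fun j _ => ?_
        rw [sub_mul, mul_assoc (hat x i j), ← hY3e]
        simp only [mul_assoc]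
      have e2 : ∀ i j, ‖(Y3 * hat x i j - hat x i j * Y3) * e i j‖ ≤
          ε / 2 / ((k + 1 : ℝ) * (k + 1)) := by
        intro i j
        refine (norm_mul_le _ _).trans
          ((mul_le_of_le_one_right (norm_nonneg _) (hen i j)).trans ?_)
        exact h3 (x, i, j) (Finset.mem_product.2 ⟨hx, Finset.mem_univ _⟩)
      rw [e1]
      refine (norm_sum_le _ _).trans ((Finset.sum_le_sum fun i _ => (norm_sum_le _ _).trans
        (Finset.sum_le_sum fun j _ => e2 i j)).trans (le_of_eq ?_))
      simp only [Finset.sum_const, Finset.card_univ, Fintype.card_fin, nsmul_eq_mul]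
      push_cast
      field_simp
    have e4 : Y3 * (z * x) - z * x * Y3 =
        (Y3 * ((z - c) * x) - (z - c) * x * Y3) + (Y3 * (c * x) - c * x * Y3) := by
      noncomm_ring
    rw [e4]
    refine (norm_add_le _ _).trans ?_
    linarith

end Crest.Agent.H0164
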