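import Mathlib
import Crest.Agent.H0164.A1Max

set_option autoImplicit false
set_option linter.deprecated false
set_option linter.unusedSectionVars false
universe u

namespace Crest.Agent.H0164

namespace A3

open scoped InnerProductSpace BigOperators

variable {K : Type*} [NormedAddCommGroup K] [InnerProductSpace ℂ K] [CompleteSpace K]
variable {ι : Type} [Fintype ι] [DecidableEq ι]

omit [CompleteSpace K] [DecidableEq ι] in
lemma dg_mul (a b : K →L[ℂ] K) : mxDiag ι (a * b) = mxDiag ι a * mxDiag ι b := by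
  ext x i; rfl

omit [CompleteSpace K] [DecidableEq ι] in
lemma dg_one : mxDiag ι (1 : K →L[ℂ] K) = 1 := by
  ext x i; rfl

omit [CompleteSpace K] [DecidableEq ι] in
lemma dg_add (a b : K →L[ℂ] K) : mxDiag ι (a + b) = mxDiag ι a + mxDiag ι b := by
  ext x i; rfl

omit [CompleteSpace K] [DecidableEq ι] in
lemma dg_sub (a b : K →L[ℂ] K) : mxDiag ι (a - b) = mxDiag ι a - mxDiag ι b := by
  ext x i; rfl

omit [DecidableEq ι] in
lemma star_dg (b : K →L[ℂ] K) : star (mxDiag ι b) = mxDiag ι (star b) := by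
  rw [ContinuousLinearMap.star_eq_adjoint]
  symm
  rw [ContinuousLinearMap.eq_adjoint_iff]
  intro x y
  rw [inner_mxDiag_left, star_star]

omit [CompleteSpace K] [DecidableEq ι] in
lemma norm_le_of_sq (T : PiLp 2 (fun _ : ι => K) →L[ℂ] PiLp 2 (fun _ : ι => K)) {c : ℝ}
    (hc : 0 ≤ c) (h : ∀ v, ∑ i, ‖T v i‖ ^ 2 ≤ c ^ 2 * ∑ i, ‖v i‖ ^ 2) : ‖T‖ ≤ c := by
  refine ContinuousLinearMap.opNorm_le_bound _ hc fun v => ?_
  have h1 := h v
  rw [← PiLp.norm_sq_eq_of_L2, ← PiLp.norm_sq_eq_of_L2, ← mul_pow] at h1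
  exact (abs_le_of_sq_le_sq' h1 (by positivity)).2

omit [CompleteSpace K] [DecidableEq ι] in
lemma norm_dg_le (b : K →L[ℂ] K) : ‖mxDiag ι b‖ ≤ ‖b‖ := by
  refine norm_le_of_sq _ (norm_nonneg _) fun v => ?_
  rw [Finset.mul_sum]
  refine Finset.sum_le_sum fun i _ => ?_
  rw [mxDiag_apply, ← mul_pow]
  exact pow_le_pow_left₀ (norm_nonneg _) (b.le_opNorm _) 2

/-- Matrix entry of an operator on the `ℓ²`-sum. -/
noncomputable def ent (T : PiLp 2 (fun _ : ι => K) →L[ℂ] PiLp 2 (fun _ : ι => K)) (i j : ι) :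
    K →L[ℂ] K := PiLp.proj 2 (fun _ : ι => K) i ∘L T ∘L mxInc j

omit [CompleteSpace K] in
lemma ent_apply (T : PiLp 2 (fun _ : ι => K) →L[ℂ] PiLp 2 (fun _ : ι => K)) (i j : ι) (ξ : K) :
    ent T i j ξ = T (mxInc j ξ) i := rfl

omit [CompleteSpace K] in
lemma apply_eq_sum (T : PiLp 2 (fun _ : ι => K) →L[ℂ] PiLp 2 (fun _ : ι => K))
    (v : PiLp 2 (fun _ : ι => K)) (i : ι) : T v i = ∑ j, ent T i j (v j) := by
  conv_lhs => rw [← sum_mxInc v, map_sum]
  rw [WithLp.ofLp_sum, Finset.sum_apply]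
  rfl

omit [CompleteSpace K] in
lemma ent_mul (S T : PiLp 2 (fun _ : ι => K) →L[ℂ] PiLp 2 (fun _ : ι => K)) (i j : ι) :
    ent (S * T) i j = ∑ k, ent S i k * ent T k j := by
  ext ξ
  rw [ent_apply, ContinuousLinearMap.mul_apply, apply_eq_sum, ContinuousLinearMap.sum_apply]
  rfl

omit [CompleteSpace K] in
lemma ent_one (i j : ι) :
    ent (1 : PiLp 2 (fun _ : ι => K) →L[ℂ] PiLp 2 (fun _ : ι => K)) i j =
      if i = j then 1 else 0 := by
  ext ξ
  rw [ent_apply, ContinuousLinearMap.one_apply, mxInc_apply]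
  split_ifs <;> simp

lemma star_ent (T : PiLp 2 (fun _ : ι => K) →L[ℂ] PiLp 2 (fun _ : ι => K)) (i j : ι) :
    star (ent T i j) = ent (star T) j i := by
  rw [ContinuousLinearMap.star_eq_adjoint]
  symm
  rw [ContinuousLinearMap.eq_adjoint_iff]
  intro x y
  rw [ent_apply, ent_apply, ← inner_mxInc_right, ← inner_mxInc_left,
    ContinuousLinearMap.star_eq_adjoint, ContinuousLinearMap.adjoint_inner_left]

omit [CompleteSpace K] in
lemma ent_comm {T : PiLp 2 (fun _ : ι => K) →L[ℂ] PiLp 2 (fun _ : ι => K)} {b : K →L[ℂ] K}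
    (h : mxDiag ι b * T = T * mxDiag ι b) (i j : ι) : b * ent T i j = ent T i j * b := by
  ext ξ
  rw [ContinuousLinearMap.mul_apply, ContinuousLinearMap.mul_apply, ent_apply, ent_apply,
    ← mxDiag_mxInc, ← ContinuousLinearMap.mul_apply T, ← h]
  rfl

lemma ent_mem (P : VonNeumannAlgebra K)
    {T : PiLp 2 (fun _ : ι => K) →L[ℂ] PiLp 2 (fun _ : ι => K)}
    (h : ∀ b ∈ P.commutant, mxDiag ι b * T = T * mxDiag ι b) (i j : ι) : ent T i j ∈ P := by
  rw [← P.commutant_commutant, VonNeumannAlgebra.mem_commutant_iff]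
  intro b hb
  exact ent_comm (h b hb) i j

omit [CompleteSpace K] in
lemma ent_comm_dg (Y : K →L[ℂ] K) (T : PiLp 2 (fun _ : ι => K) →L[ℂ] PiLp 2 (fun _ : ι => K))
    (i j : ι) : ent (mxDiag ι Y * T - T * mxDiag ι Y) i j = Y * ent T i j - ent T i j * Y := by
  ext ξ
  simp only [ContinuousLinearMap.sub_apply, ContinuousLinearMap.mul_apply, ent_apply,
    PiLp.sub_apply, mxDiag_apply, mxDiag_mxInc]

section mu
variable {e : ι → ι → (K →L[ℂ] K)}

lemma mu_f_mul (he : MU e) (i j : ι) : (∑ k, e k k) * e i j = e i j := by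
  rw [Finset.sum_mul, Finset.sum_eq_single i]
  · rw [he.2, if_pos rfl]
  · intro k _ hk
    rw [he.2, if_neg hk]
  · simp

lemma mu_mul_f (he : MU e) (i j : ι) : e i j * (∑ k, e k k) = e i j := by
  rw [Finset.mul_sum, Finset.sum_eq_single j]
  · rw [he.2, if_pos rfl]
  · intro k _ hk
    rw [he.2, if_neg (Ne.symm hk)]
  · simp

lemma mu_star_f (he : MU e) : star (∑ k, e k k) = ∑ k, e k k := by
  rw [star_sum]
  exact Finset.sum_congr rfl fun k _ => he.1 k k

lemma mu_f_f (he : MU e) : (∑ k, e k k) * (∑ k, e k k) = ∑ k, e k k := by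
  conv_lhs => rw [Finset.mul_sum]
  exact Finset.sum_congr rfl fun k _ => mu_f_mul he k k

lemma norm_sq_eq (a : K →L[ℂ] K) (w : K) : ‖a w‖ ^ 2 = (⟪w, (star a * a) w⟫_ℂ).re := by
  rw [ContinuousLinearMap.mul_apply, ContinuousLinearMap.star_eq_adjoint,
    ContinuousLinearMap.adjoint_inner_right, inner_self_eq_norm_sq_to_K]
  norm_cast

lemma norm_le_one_of_proj {p : K →L[ℂ] K} (h1 : star p = p) (h2 : p * p = p) : ‖p‖ ≤ 1 :=
  IsStarProjection.norm_le _ ⟨h2, h1⟩

lemma proj_apply_le {p : K →L[ℂ] K} (h1 : star p = p) (h2 : p * p = p) (w : K) :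
    ‖p w‖ ^ 2 ≤ ‖w‖ ^ 2 := by
  refine pow_le_pow_left₀ (norm_nonneg _) ((p.le_opNorm w).trans ?_) 2
  exact mul_le_of_le_one_left (norm_nonneg _) (norm_le_one_of_proj h1 h2)

lemma mu_norm_sq (he : MU e) (i0 : ι) (w : K) :
    ∑ i, ‖e i0 i w‖ ^ 2 = ‖(∑ k, e k k) w‖ ^ 2 := by
  rw [norm_sq_eq, mu_star_f he, mu_f_f he, ContinuousLinearMap.sum_apply, inner_sum,
    Complex.re_sum]
  refine Finset.sum_congr rfl fun i _ => ?_
  rw [norm_sq_eq, he.1, he.2, if_pos rfl]

lemma mu_norm_sq_le (he : MU e) (i0 : ι) (w : K) : ∑ i, ‖e i0 i w‖ ^ 2 ≤ ‖w‖ ^ 2 := by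
  rw [mu_norm_sq he]
  exact proj_apply_le (mu_star_f he) (mu_f_f he) w

lemma mu_sum_le (he : MU e) (i0 : ι) (ξ : ι → K) :
    ‖∑ j, e j i0 (ξ j)‖ ^ 2 ≤ ∑ j, ‖ξ j‖ ^ 2 := by
  have h1 : (∑ k, e k k) (∑ j, e j i0 (ξ j)) = ∑ j, e j i0 (ξ j) := by
    rw [map_sum]
    refine Finset.sum_congr rfl fun j _ => ?_
    rw [← ContinuousLinearMap.mul_apply, mu_f_mul he]
  rw [← h1, ← mu_norm_sq he i0]
  refine Finset.sum_le_sum fun i _ => ?_
  have h2 : e i0 i (∑ j, e j i0 (ξ j)) = e i0 i0 (ξ i) := by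
    rw [map_sum, Finset.sum_eq_single i]
    · rw [← ContinuousLinearMap.mul_apply, he.2, if_pos rfl]
    · intro j _ hj
      rw [← ContinuousLinearMap.mul_apply, he.2, if_neg (Ne.symm hj)]
      rfl
    · simp
  rw [h2]
  exact proj_apply_le (he.1 i0 i0) (by rw [he.2, if_pos rfl]) _

/-- The commutator estimate at level `d` for the corner. -/
lemma level_hyp (P : VonNeumannAlgebra K) (he : MU e) (heP : ∀ i j, e i j ∈ P) (i0 : ι)
    (Y : K →L[ℂ] K) (hY : ∀ i j, Y * e i j = e i j * Y) (g : ℝ) (hg : 0 ≤ g)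
    (hyp : ∀ a ∈ P, ‖Y * a - a * Y‖ ≤ g * ‖a‖)
    (z : ι → ι → (K →L[ℂ] K)) (hzP : ∀ i j, z i j ∈ P)
    (hz0 : ∀ i j, e i0 i0 * z i j = z i j * e i0 i0) (hz : Ctr z 1) :
    Ctr (fun i j => (Y * e i0 i0) * z i j - z i j * (Y * e i0 i0)) g := by
  set Z : K →L[ℂ] K := ∑ i, ∑ j, e i i0 * z i j * e i0 j with hZ
  have hZP : Z ∈ P := sum_mem fun i _ => sum_mem fun j _ =>
    mul_mem (mul_mem (heP _ _) (hzP _ _)) (heP _ _)
  have hZn : ‖Z‖ ≤ 1 := by
    refine ContinuousLinearMap.opNorm_le_bound _ zero_le_one fun ξ => ?_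
    have h1 : Z ξ = ∑ i, e i i0 (∑ j, z i j (e i0 j ξ)) := by
      rw [hZ, ContinuousLinearMap.sum_apply]
      refine Finset.sum_congr rfl fun i _ => ?_
      rw [ContinuousLinearMap.sum_apply, map_sum]
      rfl
    have h2 : ‖Z ξ‖ ^ 2 ≤ ‖ξ‖ ^ 2 := by
      rw [h1]
      refine (mu_sum_le he i0 _).trans ((hz _).trans ?_)
      rw [one_pow, one_mul]
      exact mu_norm_sq_le he i0 ξ
    rw [one_mul]
    exact (abs_le_of_sq_le_sq' h2 (norm_nonneg _)).2
  have hW : ‖Y * Z - Z * Y‖ ≤ g := (hyp Z hZP).trans (mul_le_of_le_one_right hg hZn)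
  have he00 : e i0 i0 * e i0 i0 = e i0 i0 := by rw [he.2, if_pos rfl]
  have hent : ∀ i j, e i0 i * Z * e j i0 = e i0 i0 * z i j := by
    intro i j
    rw [hZ, Finset.mul_sum, Finset.sum_mul, Finset.sum_eq_single i]
    · rw [Finset.mul_sum, Finset.sum_mul, Finset.sum_eq_single j]
      · calc e i0 i * (e i i0 * z i j * e i0 j) * e j i0
            = (e i0 i * e i i0) * z i j * (e i0 j * e j i0) := by simp only [mul_assoc]
          _ = e i0 i0 * z i j := by
            rw [he.2, he.2, if_pos rfl, if_pos rfl, mul_assoc, ← hz0, ← mul_assoc, he00]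
      · intro l _ hl
        calc e i0 i * (e i i0 * z i l * e i0 l) * e j i0
            = (e i0 i * e i i0) * z i l * (e i0 l * e j i0) := by simp only [mul_assoc]
          _ = 0 := by rw [he.2 i0 l, if_neg hl, mul_zero]
      · simp
    · intro k _ hk
      rw [Finset.mul_sum, Finset.sum_mul]
      refine Finset.sum_eq_zero fun l _ => ?_
      calc e i0 i * (e k i0 * z k l * e i0 l) * e j i0
          = (e i0 i * e k i0) * z k l * (e i0 l * e j i0) := by simp only [mul_assoc]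
        _ = 0 := by rw [he.2 i0 i, if_neg (Ne.symm hk), zero_mul, zero_mul]
    · simp
  have hkey : ∀ i j, (Y * e i0 i0) * z i j - z i j * (Y * e i0 i0) =
      e i0 i * (Y * Z - Z * Y) * e j i0 := by
    intro i j
    have h1 : e i0 i * (Y * Z) * e j i0 = Y * (e i0 i * Z * e j i0) := by
      rw [← mul_assoc, ← hY]; simp only [mul_assoc]
    have h2 : e i0 i * (Z * Y) * e j i0 = (e i0 i * Z * e j i0) * Y := by
      simp only [mul_assoc]; rw [hY]
    rw [mul_sub, sub_mul, h1, h2, hent, hY i0 i0, ← mul_assoc (z i j), ← hz0, ← hY i0 i0,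
      mul_assoc Y]
  intro ξ
  have h3 : ∀ i, ∑ j, ((Y * e i0 i0) * z i j - z i j * (Y * e i0 i0)) (ξ j) =
      e i0 i ((Y * Z - Z * Y) (∑ j, e j i0 (ξ j))) := by
    intro i
    rw [map_sum, map_sum]
    refine Finset.sum_congr rfl fun j _ => ?_
    rw [hkey]; rfl
  simp only [h3]
  refine (mu_norm_sq_le he i0 _).trans ?_
  calc ‖(Y * Z - Z * Y) (∑ j, e j i0 (ξ j))‖ ^ 2 ≤ (g * ‖∑ j, e j i0 (ξ j)‖) ^ 2 :=
        pow_le_pow_left₀ (norm_nonneg _) (((Y * Z - Z * Y).le_opNorm _).trans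
          (mul_le_mul_of_nonneg_right hW (norm_nonneg _))) 2
    _ = g ^ 2 * ‖∑ j, e j i0 (ξ j)‖ ^ 2 := mul_pow _ _ _
    _ ≤ _ := mul_le_mul_of_nonneg_left (mu_sum_le he i0 ξ) (sq_nonneg _)


lemma isClosed_vn (P : VonNeumannAlgebra K) : IsClosed (P : Set (K →L[ℂ] K)) := by
  rw [← P.centralizer_centralizer]
  exact Set.isClosed_centralizer _

/-- The estimate for unitaries of `M_h(P)` commuting with `f`. -/
lemma corner_unitary {κ : Type} [Fintype κ] [DecidableEq κ] (P : VonNeumannAlgebra K)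
    (he : MU e) (heP : ∀ i j, e i j ∈ P) (i0 : ι)
    (Y : K →L[ℂ] K) (hY : ∀ i j, Y * e i j = e i j * Y) (g : ℝ) (hg : 0 ≤ g)
    (hyp : ∀ a ∈ P, ‖Y * a - a * Y‖ ≤ g * ‖a‖) (ε : ℝ) (hε : 0 ≤ ε)
    (hMT : ∀ (Q : StarSubalgebra ℂ (K →L[ℂ] K)), IsClosed (Q : Set (K →L[ℂ] K)) →
      ∀ (Y : K →L[ℂ] K) (g : ℝ), 0 ≤ g →
      (∀ z : ι → ι → (K →L[ℂ] K), (∀ i j, z i j ∈ Q) → Ctr z 1 →
        Ctr (fun i j => Y * z i j - z i j * Y) g) →
      ∀ x : κ × ι → κ × ι → (K →L[ℂ] K), (∀ i j, x i j ∈ Q) →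
        (∀ i j, ∑ k, star (x k i) * x k j = if i = j then 1 else 0) →
        (∀ i j, ∑ k, x i k * star (x j k) = if i = j then 1 else 0) →
        Ctr (fun i j => Y * x i j - x i j * Y) (4 * g + ε * ‖Y‖))
    (U : PiLp 2 (fun _ : κ => K) →L[ℂ] PiLp 2 (fun _ : κ => K))
    (hU1 : star U * U = 1) (hU2 : U * star U = 1)
    (hUP : ∀ b ∈ P.commutant, mxDiag κ b * U = U * mxDiag κ b)
    (hUf : mxDiag κ (∑ k, e k k) * U = U * mxDiag κ (∑ k, e k k)) :
    ‖mxDiag κ (∑ k, e k k) * (mxDiag κ Y * U - U * mxDiag κ Y) * mxDiag κ (∑ k, e k k)‖ ≤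
      4 * g + ε * ‖Y‖ := by
  set f : K →L[ℂ] K := ∑ k, e k k with hf
  set p := e i0 i0 with hp
  have hpp : p * p = p := by rw [hp, he.2, if_pos rfl]
  have hps : star p = p := he.1 _ _
  have hpl : ∀ i, p * e i0 i = e i0 i := fun i => by rw [hp, he.2, if_pos rfl]
  have hpr : ∀ i, e i i0 * p = e i i0 := fun i => by rw [hp, he.2, if_pos rfl]
  let Q : StarSubalgebra ℂ (K →L[ℂ] K) :=
    P.toStarSubalgebra ⊓ StarSubalgebra.centralizer ℂ {p}
  have hQ : ∀ z, z ∈ Q ↔ z ∈ P ∧ p * z = z * p := by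
    intro z
    simp only [Q, StarSubalgebra.mem_inf, StarSubalgebra.mem_centralizer_iff,
      Set.mem_singleton_iff, forall_eq, hps, and_self]
    rfl
  have hQc : IsClosed (Q : Set (K →L[ℂ] K)) := by
    have : (Q : Set (K →L[ℂ] K)) = (P : Set (K →L[ℂ] K)) ∩ {z | p * z = z * p} := by
      ext z; exact hQ z
    rw [this]
    exact (isClosed_vn P).inter (isClosed_eq (by fun_prop) (by fun_prop))
  have hlev := fun z (hz : ∀ i j, z i j ∈ Q) =>
    level_hyp P he heP i0 Y hY g hg hyp z (fun i j => ((hQ _).1 (hz i j)).1)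
      (fun i j => ((hQ _).1 (hz i j)).2)
  -- a general construction of the amplified matrix
  let amp : (PiLp 2 (fun _ : κ => K) →L[ℂ] PiLp 2 (fun _ : κ => K)) →
      κ × ι → κ × ι → (K →L[ℂ] K) := fun T a b =>
    e i0 a.2 * ent T a.1 b.1 * e b.2 i0 + if a = b then 1 - p else 0
  have hamp_star : ∀ T a b, star (amp T a b) = amp (star T) b a := by
    intro T a b
    simp only [amp, star_add, star_mul, he.1, star_ent, mul_assoc]
    congr 1
    by_cases hab : a = b
    · subst hab; simp [hps]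
    · rw [if_neg hab, if_neg (Ne.symm hab), star_zero]
  have hamp_mul : ∀ S T : PiLp 2 (fun _ : κ => K) →L[ℂ] PiLp 2 (fun _ : κ => K),
      mxDiag κ f * T = T * mxDiag κ f → ∀ a b, ∑ c, amp S a c * amp T c b = amp (S * T) a b := by
    intro S T hT a b
    have hterm : ∀ c, amp S a c * amp T c b =
        e i0 a.2 * ent S a.1 c.1 * e c.2 c.2 * ent T c.1 b.1 * e b.2 i0 +
          if a = c then (if c = b then 1 - p else 0) else 0 := by
      intro c
      have h1 : e c.2 i0 * e i0 c.2 = e c.2 c.2 := by rw [he.2, if_pos rfl]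
      have h2 : e c.2 i0 * (1 - p) = 0 := by rw [mul_sub, hpr, mul_one, sub_self]
      have h3 : (1 - p) * e i0 c.2 = 0 := by rw [sub_mul, hpl, one_mul, sub_self]
      have h4 : (1 - p) * (1 - p) = 1 - p := by
        rw [mul_sub, sub_mul, sub_mul, hpp]; simp
      have h5 : e i0 a.2 * ent S a.1 c.1 * e c.2 i0 * (e i0 c.2 * ent T c.1 b.1 * e b.2 i0) =
          e i0 a.2 * ent S a.1 c.1 * e c.2 c.2 * ent T c.1 b.1 * e b.2 i0 := by
        rw [← h1]; simp only [mul_assoc]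
      have h6 : e i0 a.2 * ent S a.1 c.1 * e c.2 i0 * (if c = b then 1 - p else 0) = 0 := by
        split_ifs
        · rw [mul_assoc, h2, mul_zero]
        · rw [mul_zero]
      have h7 : (if a = c then 1 - p else 0) * (e i0 c.2 * ent T c.1 b.1 * e b.2 i0) = 0 := by
        split_ifs
        · rw [← mul_assoc, ← mul_assoc, h3, zero_mul, zero_mul]
        · rw [zero_mul]
      have h8 : (if a = c then 1 - p else 0) * (if c = b then 1 - p else 0) =
          if a = c then (if c = b then 1 - p else 0) else 0 := by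
        split_ifs <;> simp [h4]
      simp only [amp]
      rw [add_mul, mul_add, mul_add, h5, h6, h7, h8, add_zero, zero_add]
    simp only [hterm]
    rw [Finset.sum_add_distrib, Finset.sum_ite_eq, if_pos (Finset.mem_univ _),
      Fintype.sum_prod_type]
    simp only [amp]
    congr 1
    rw [ent_mul, Finset.mul_sum, Finset.sum_mul]
    refine Finset.sum_congr rfl fun m _ => ?_
    rw [← Finset.sum_mul, ← Finset.sum_mul, ← Finset.mul_sum, ← hf]
    have h9 := ent_comm hT m b.1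
    have h10 : f * e b.2 i0 = e b.2 i0 := mu_f_mul he _ _
    calc e i0 a.2 * ent S a.1 m * f * ent T m b.1 * e b.2 i0
        = e i0 a.2 * ent S a.1 m * (f * ent T m b.1) * e b.2 i0 := by simp only [mul_assoc]
      _ = e i0 a.2 * ent S a.1 m * ent T m b.1 * (f * e b.2 i0) := by
        rw [h9]; simp only [mul_assoc]
      _ = _ := by rw [h10]; simp only [mul_assoc]
  have hamp_one : ∀ a b, amp 1 a b = if a = b then 1 else 0 := by
    rintro ⟨k, i⟩ ⟨l, j⟩
    simp only [amp, ent_one, Prod.mk.injEq]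
    by_cases hkl : k = l
    · by_cases hij : i = j
      · subst hkl hij
        simp only [if_true, and_self, mul_one]
        rw [he.2, if_pos rfl, ← hp]; simp
      · simp only [hkl, hij, if_true, and_false, if_false, mul_one, add_zero]
        rw [he.2, if_neg hij]
    · simp [hkl]
  have hfs : star (mxDiag κ f) = mxDiag κ f := by rw [star_dg, hf, mu_star_f he]
  have hUf' : mxDiag κ f * star U = star U * mxDiag κ f := by
    have := congrArg star hUf
    rw [star_mul, star_mul, hfs] at this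
    exact this.symm
  have hmain := hMT Q hQc (Y * p) g hg hlev (amp U) ?_ ?_ ?_
  rotate_left
  · intro a b
    rw [hQ]
    refine ⟨add_mem (mul_mem (mul_mem (heP _ _) (ent_mem P hUP _ _)) (heP _ _)) ?_, ?_⟩
    · split_ifs
      · exact sub_mem (one_mem _) (heP _ _)
      · exact zero_mem _
    · simp only [amp]
      rw [mul_add, add_mul, ← mul_assoc, ← mul_assoc, hpl, mul_assoc _ _ p, hpr]
      congr 1
      split_ifs
      · rw [mul_sub, sub_mul, mul_one, one_mul]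
      · simp
  · intro a b
    simp only [hamp_star]
    rw [hamp_mul _ _ hUf, hU1, hamp_one]
  · intro a b
    simp only [hamp_star]
    rw [hamp_mul _ _ hUf', hU2, hamp_one]
  set W := mxDiag κ Y * U - U * mxDiag κ Y with hW
  have hkey : ∀ a b, Y * p * amp U a b - amp U a b * (Y * p) =
      e i0 a.2 * ent W a.1 b.1 * e b.2 i0 := by
    intro a b
    have h1 : Y * p * (if a = b then 1 - p else 0) = 0 := by
      split_ifs
      · rw [mul_assoc, mul_sub, hpp, mul_one, sub_self, mul_zero]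
      · simp
    have h2 : (if a = b then 1 - p else 0) * (Y * p) = 0 := by
      split_ifs
      · rw [hY i0 i0, ← hp, ← mul_assoc, sub_mul, hpp, one_mul, sub_self, zero_mul]
      · simp
    have h3 : Y * p * (e i0 a.2 * ent U a.1 b.1 * e b.2 i0) =
        e i0 a.2 * (Y * ent U a.1 b.1) * e b.2 i0 := by
      rw [mul_assoc Y, ← mul_assoc p, ← mul_assoc p, hpl, ← mul_assoc, ← mul_assoc, hY]
      simp only [mul_assoc]
    have h4 : e i0 a.2 * ent U a.1 b.1 * e b.2 i0 * (Y * p) =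
        e i0 a.2 * (ent U a.1 b.1 * Y) * e b.2 i0 := by
      rw [hY i0 i0, ← hp, mul_assoc, ← mul_assoc (e b.2 i0), hpr, ← hY]
      simp only [mul_assoc]
    simp only [amp]
    rw [mul_add, add_mul, h1, h2, h3, h4, add_zero, add_zero, hW, ent_comm_dg, mul_sub, sub_mul]
  have hc0 : 0 ≤ 4 * g + ε * ‖Y * p‖ := by positivity
  have hc1 : 4 * g + ε * ‖Y * p‖ ≤ 4 * g + ε * ‖Y‖ := by
    have : ‖Y * p‖ ≤ ‖Y‖ := (norm_mul_le _ _).trans
      (mul_le_of_le_one_right (norm_nonneg _) (norm_le_one_of_proj hps hpp))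
    gcongr
  refine (norm_le_of_sq _ hc0 fun v => ?_).trans hc1
  have h1 := hmain (fun b => e i0 b.2 (v b.1))
  simp only [hkey] at h1
  have h2 : ∀ a : κ × ι, ∑ b : κ × ι, (e i0 a.2 * ent W a.1 b.1 * e b.2 i0) (e i0 b.2 (v b.1)) =
      e i0 a.2 (W (mxDiag κ f v) a.1) := by
    intro a
    rw [Fintype.sum_prod_type, apply_eq_sum, map_sum]
    refine Finset.sum_congr rfl fun l _ => ?_
    rw [mxDiag_apply, hf, ContinuousLinearMap.sum_apply, map_sum, map_sum]
    refine Finset.sum_congr rfl fun j _ => ?_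
    have : e j j = e j i0 * e i0 j := by rw [he.2, if_pos rfl]
    rw [this]; rfl
  simp only [h2] at h1
  rw [Fintype.sum_prod_type, Fintype.sum_prod_type] at h1
  simp only [mu_norm_sq he i0] at h1
  refine h1.trans (mul_le_mul_of_nonneg_left (Finset.sum_le_sum fun l _ => ?_) (sq_nonneg _))
  exact proj_apply_le (mu_star_f he) (mu_f_f he) _

end mu

/-- From unitaries to arbitrary elements of the corner. -/
lemma corner (P : VonNeumannAlgebra K) (f Y : K →L[ℂ] K) (hfs : star f = f)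
    (hYf : Y * f = f * Y) (M : ℝ) (hM : 0 ≤ M)
    (hU : ∀ U : PiLp 2 (fun _ : ι => K) →L[ℂ] PiLp 2 (fun _ : ι => K),
      star U * U = 1 → U * star U = 1 →
      (∀ b ∈ P.commutant, mxDiag ι b * U = U * mxDiag ι b) →
      mxDiag ι f * U = U * mxDiag ι f →
      ‖mxDiag ι f * (mxDiag ι Y * U - U * mxDiag ι Y) * mxDiag ι f‖ ≤ M)
    (Z : PiLp 2 (fun _ : ι => K) →L[ℂ] PiLp 2 (fun _ : ι => K))
    (hZP : ∀ b ∈ P.commutant, mxDiag ι b * Z = Z * mxDiag ι b)
    (hZ1 : mxDiag ι f * Z = Z) (hZ2 : Z * mxDiag ι f = Z) :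
    ‖mxDiag ι Y * Z - Z * mxDiag ι Y‖ ≤ 2 * M * ‖Z‖ := by
  let s : Set (PiLp 2 (fun _ : ι => K) →L[ℂ] PiLp 2 (fun _ : ι => K)) :=
    insert (mxDiag ι f) (mxDiag ι '' (P.commutant : Set (K →L[ℂ] K)))
  let S := StarSubalgebra.centralizer ℂ s
  have hS : ∀ T, T ∈ S ↔ (mxDiag ι f * T = T * mxDiag ι f ∧
      ∀ b ∈ P.commutant, mxDiag ι b * T = T * mxDiag ι b) := by
    intro T
    rw [StarSubalgebra.mem_centralizer_iff]
    constructor
    · intro h
      exact ⟨(h _ (Set.mem_insert _ _)).1, fun b hb =>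
        (h _ (Set.mem_insert_of_mem _ ⟨b, hb, rfl⟩)).1⟩
    · rintro ⟨h1, h2⟩ g (rfl | ⟨b, hb, rfl⟩)
      · rw [star_dg, hfs]; exact ⟨h1, h1⟩
      · rw [star_dg]; exact ⟨h2 b hb, h2 _ (star_mem hb)⟩
  have hSc : IsClosed (S : Set (PiLp 2 (fun _ : ι => K) →L[ℂ] PiLp 2 (fun _ : ι => K))) :=
    Set.isClosed_centralizer _
  have hZS : Z ∈ S := (hS Z).2 ⟨hZ1.trans hZ2.symm, hZP⟩
  obtain ⟨w, c, hw, hc⟩ := CStarAlgebra.exists_sum_four_unitary (⟨Z, hZS⟩ : S)
  have hw' : Z = ∑ i, c i • ((w i : S) : PiLp 2 (fun _ : ι => K) →L[ℂ] PiLp 2 (fun _ : ι => K)) := by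
    have := congrArg S.subtype hw
    rw [map_sum] at this
    simpa using this
  have hYf' : mxDiag ι Y * mxDiag ι f = mxDiag ι f * mxDiag ι Y := by
    rw [← dg_mul, ← dg_mul, hYf]
  have h1 : mxDiag ι Y * Z - Z * mxDiag ι Y =
      mxDiag ι f * (mxDiag ι Y * Z - Z * mxDiag ι Y) * mxDiag ι f := by
    rw [mul_sub, sub_mul, ← mul_assoc, ← hYf', mul_assoc (mxDiag ι Y), hZ1, mul_assoc, hZ2,
      ← mul_assoc, hZ1, mul_assoc, hYf', ← mul_assoc, hZ2]
  have h2 : mxDiag ι Y * Z - Z * mxDiag ι Y = ∑ i, c i •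
      (mxDiag ι f * (mxDiag ι Y * ((w i : S) : _ →L[ℂ] _) - ((w i : S) : _ →L[ℂ] _) * mxDiag ι Y) *
        mxDiag ι f) := by
    rw [h1]
    conv_lhs => rw [hw']
    rw [Finset.mul_sum, Finset.sum_mul, ← Finset.sum_sub_distrib, Finset.mul_sum, Finset.sum_mul]
    refine Finset.sum_congr rfl fun i _ => ?_
    simp only [mul_smul_comm, smul_mul_assoc, mul_sub, sub_mul]
    exact (smul_sub _ _ _).symm
  rw [h2]
  refine (norm_sum_le _ _).trans ?_
  have h3 : ∀ i ∈ (Finset.univ : Finset (Fin 4)), ‖c i •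
      (mxDiag ι f * (mxDiag ι Y * ((w i : S) : _ →L[ℂ] _) - ((w i : S) : _ →L[ℂ] _) * mxDiag ι Y) *
        mxDiag ι f)‖ ≤ ‖Z‖ / 2 * M := by
    intro i _
    rw [norm_smul]
    have hi := (hS _).1 (w i : S).2
    refine mul_le_mul (hc i) (hU _ ?_ ?_ hi.2 hi.1) (norm_nonneg _) (by positivity)
    · exact congrArg Subtype.val (Unitary.coe_star_mul_self (w i))
    · exact congrArg Subtype.val (Unitary.coe_mul_star_self (w i))
  refine (Finset.sum_le_sum h3).trans ?_
  simp only [Finset.sum_const, Finset.card_univ, Fintype.card_fin, nsmul_eq_mul]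
  push_cast
  linarith

omit [CompleteSpace K] in
lemma norm_le_of_ent (T : PiLp 2 (fun _ : ι => K) →L[ℂ] PiLp 2 (fun _ : ι => K)) {ε : ℝ}
    (hε : 0 ≤ ε) (h : ∀ i j, ‖ent T i j‖ ≤ ε) : ‖T‖ ≤ Fintype.card ι * ε := by
  refine norm_le_of_sq _ (by positivity) fun v => ?_
  have h1 : ∀ i, ‖T v i‖ ^ 2 ≤ ε ^ 2 * (Fintype.card ι * ∑ j, ‖v j‖ ^ 2) := by
    intro i
    have h2 : ‖T v i‖ ≤ ε * ∑ j, ‖v j‖ := by
      rw [apply_eq_sum, Finset.mul_sum]
      refine (norm_sum_le _ _).trans (Finset.sum_le_sum fun j _ => ?_)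
      exact ((ent T i j).le_opNorm _).trans (mul_le_mul_of_nonneg_right (h i j) (norm_nonneg _))
    refine (pow_le_pow_left₀ (norm_nonneg _) h2 2).trans ?_
    rw [mul_pow]
    refine mul_le_mul_of_nonneg_left ?_ (sq_nonneg _)
    simpa using sq_sum_le_card_mul_sum_sq (s := Finset.univ) (f := fun j => ‖v j‖)
  refine (Finset.sum_le_sum fun i _ => h1 i).trans (le_of_eq ?_)
  rw [Finset.sum_const, Finset.card_univ, nsmul_eq_mul]
  ring

lemma comm3 {R : Type*} [NormedRing R] (Y a Z b : R) (g M n : ℝ)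
    (ha : ‖a‖ ≤ 1) (hb : ‖b‖ ≤ 1) (hZ : ‖Z‖ ≤ n) (hg : 0 ≤ g)
    (h1 : ‖Y * a - a * Y‖ ≤ g) (h2 : ‖Y * Z - Z * Y‖ ≤ M) (h3 : ‖Y * b - b * Y‖ ≤ g) :
    ‖Y * (a * Z * b) - (a * Z * b) * Y‖ ≤ 2 * g * n + M := by
  have e1 : Y * (a * Z * b) - (a * Z * b) * Y =
      (Y * a - a * Y) * Z * b + a * (Y * Z - Z * Y) * b + a * Z * (Y * b - b * Y) := by
    noncomm_ring
  have hn : 0 ≤ n := (norm_nonneg _).trans hZ
  have hM : 0 ≤ M := (norm_nonneg _).trans h2
  have t1 : ‖(Y * a - a * Y) * Z * b‖ ≤ g * n * 1 :=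
    norm_mul₃_le.trans (by gcongr)
  have t2 : ‖a * (Y * Z - Z * Y) * b‖ ≤ 1 * M * 1 :=
    norm_mul₃_le.trans (by gcongr)
  have t3 : ‖a * Z * (Y * b - b * Y)‖ ≤ 1 * n * g :=
    norm_mul₃_le.trans (by gcongr)
  rw [e1]
  refine norm_add₃_le.trans ?_
  linarith

/-- The convex set of admissible perturbations of `Y`. -/
def Adm (P : VonNeumannAlgebra K) (Y : K →L[ℂ] K) (g : ℝ) : Set (K →L[ℂ] K) :=
  {Y' | (∀ w ∈ P, star w * w = 1 → w * star w = 1 → ‖w * Y' * star w - Y‖ ≤ g) ∧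
    ‖Y'‖ ≤ ‖Y‖ ∧ ∀ a ∈ P, ‖Y' * a - a * Y'‖ ≤ g * ‖a‖}

lemma norm_le_one_of_unitary {w : K →L[ℂ] K} (h : star w * w = 1) : ‖w‖ ≤ 1 := by
  have h1 : ‖w‖ * ‖w‖ ≤ 1 := by
    rw [← CStarRing.norm_star_mul_self, h]
    exact ContinuousLinearMap.norm_id_le
  nlinarith [norm_nonneg w]

lemma norm_conj_le {w : K →L[ℂ] K} (h : star w * w = 1) (T : K →L[ℂ] K) :
    ‖w * T * star w‖ ≤ ‖T‖ := by
  have h1 := norm_le_one_of_unitary h
  have h2 : ‖star w‖ ≤ 1 := by rwa [norm_star]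
  calc ‖w * T * star w‖ ≤ ‖w‖ * ‖T‖ * ‖star w‖ := norm_mul₃_le
    _ ≤ 1 * ‖T‖ * 1 := by gcongr
    _ = ‖T‖ := by ring

lemma adm_avgClosed (P : VonNeumannAlgebra K) (Y : K →L[ℂ] K) (g : ℝ) (hg : 0 ≤ g) :
    AvgClosed P (Adm P Y g) := by
  constructor
  · rintro Y1 ⟨h1, h2, h3⟩ Y2 ⟨k1, k2, k3⟩ a b ha hb hab
    refine ⟨fun w hw hw1 hw2 => ?_, ?_, fun x hx => ?_⟩
    · have : w * (a • Y1 + b • Y2) * star w - Y =
          a • (w * Y1 * star w - Y) + b • (w * Y2 * star w - Y) := by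
        rw [mul_add, add_mul, mul_smul_comm, mul_smul_comm, smul_mul_assoc, smul_mul_assoc,
          smul_sub, smul_sub]
        conv_lhs => rw [← one_smul ℝ Y, ← hab, add_smul]
        abel
      rw [this]
      refine (norm_add_le _ _).trans ?_
      rw [norm_smul, norm_smul, Real.norm_of_nonneg ha, Real.norm_of_nonneg hb]
      calc _ ≤ a * g + b * g := by
            gcongr
            exacts [h1 w hw hw1 hw2, k1 w hw hw1 hw2]
        _ = g := by rw [← add_mul, hab, one_mul]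
    · refine (norm_add_le _ _).trans ?_
      rw [norm_smul, norm_smul, Real.norm_of_nonneg ha, Real.norm_of_nonneg hb]
      calc _ ≤ a * ‖Y‖ + b * ‖Y‖ := by gcongr
        _ = ‖Y‖ := by rw [← add_mul, hab, one_mul]
    · have : (a • Y1 + b • Y2) * x - x * (a • Y1 + b • Y2) =
          a • (Y1 * x - x * Y1) + b • (Y2 * x - x * Y2) := by
        rw [mul_add, add_mul, mul_smul_comm, mul_smul_comm, smul_mul_assoc, smul_mul_assoc,
          smul_sub, smul_sub]
        abel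
      rw [this]
      refine (norm_add_le _ _).trans ?_
      rw [norm_smul, norm_smul, Real.norm_of_nonneg ha, Real.norm_of_nonneg hb]
      calc _ ≤ a * (g * ‖x‖) + b * (g * ‖x‖) := by
            gcongr
            exacts [h3 x hx, k3 x hx]
        _ = g * ‖x‖ := by rw [← add_mul, hab, one_mul]
  · rintro Y1 ⟨h1, h2, h3⟩ w hw hw1 hw2
    refine ⟨fun w' hw' hw1' hw2' => ?_, (norm_conj_le hw1 _).trans h2, fun x hx => ?_⟩
    · have := h1 (w' * w) (mul_mem hw' hw)
        (by rw [star_mul, mul_assoc, ← mul_assoc (star w'), hw1', one_mul, hw1])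
        (by rw [star_mul, mul_assoc, ← mul_assoc w, hw2, one_mul, hw2'])
      rw [star_mul] at this
      simpa only [mul_assoc] using this
    · have e1 : w * Y1 * star w * x - x * (w * Y1 * star w) =
          w * (Y1 * (star w * x * w) - (star w * x * w) * Y1) * star w := by
        calc w * Y1 * star w * x - x * (w * Y1 * star w)
            = w * Y1 * star w * x * (w * star w) - (w * star w) * x * (w * Y1 * star w) := by
              rw [hw2, mul_one, one_mul]
          _ = _ := by noncomm_ring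
      rw [e1]
      refine (norm_conj_le hw1 _).trans ((h3 _ (mul_mem (mul_mem (star_mem hw) hx) hw)).trans ?_)
      refine mul_le_mul_of_nonneg_left ?_ hg
      have := norm_conj_le (w := star w) (by rwa [star_star]) x
      rwa [star_star] at this

lemma mem_adm (P : VonNeumannAlgebra K) (Y : K →L[ℂ] K) (g : ℝ) (hg : 0 ≤ g)
    (hyp : ∀ a ∈ P, ‖Y * a - a * Y‖ ≤ g * ‖a‖) : Y ∈ Adm P Y g := by
  refine ⟨fun w hw hw1 hw2 => ?_, le_rfl, hyp⟩
  have e1 : w * Y * star w - Y = -((Y * w - w * Y) * star w) := by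
    rw [sub_mul, mul_assoc Y, hw2, mul_one, neg_sub]
  have h1 := norm_le_one_of_unitary hw1
  rw [e1, norm_neg]
  calc _ ≤ ‖Y * w - w * Y‖ * ‖star w‖ := norm_mul_le _ _
    _ ≤ (g * ‖w‖) * ‖w‖ := by rw [norm_star]; gcongr; exact hyp w hw
    _ ≤ g * 1 * 1 := by gcongr
    _ = g := by ring

end A3

open A3 in
theorem s165 (hMT : MT.{u}) (hTop : Top.{u}) (hAvg : AvgMU.{u}) (hI : TypeI.{u}) :
    S165.{u} := by
  refine ⟨42, ?_⟩
  intro K _ _ _ P Y g hyp h _ Yh X x hYh hxP hX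
  rcases subsingleton_or_nontrivial K with hK | hK
  · have : X = 0 := by
      ext v i
      exact Subsingleton.elim _ _
    simp [this]
  have hg : 0 ≤ g := by simpa using hyp 1 (one_mem _)
  obtain rfl : Yh = mxDiag (Fin h) Y := by
    ext v i
    rw [hYh, mxDiag_apply]
  have hx : ∀ i j, ent X i j = x i j := by
    intro i j
    ext ξ
    rw [ent_apply, hX, Finset.sum_eq_single j]
    · rw [mxInc_apply, if_pos rfl]
    · intro l _ hl
      rw [mxInc_apply, if_neg hl, map_zero]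
    · simp
  have hXP : ∀ b ∈ P.commutant, mxDiag (Fin h) b * X = X * mxDiag (Fin h) b := by
    intro b hb
    ext v i
    rw [ContinuousLinearMap.mul_apply, ContinuousLinearMap.mul_apply, mxDiag_apply, hX, hX,
      map_sum]
    refine Finset.sum_congr rfl fun j _ => ?_
    rw [mxDiag_apply, ← ContinuousLinearMap.mul_apply, ← ContinuousLinearMap.mul_apply,
      (VonNeumannAlgebra.mem_commutant_iff.1 hb) _ (hxP i j)]
  have key : ∀ ε : ℝ, 0 < ε → ‖mxDiag (Fin h) Y * X - X * mxDiag (Fin h) Y‖ ≤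
      42 * g * ‖X‖ + ε * (8 * ‖Y‖ * ‖X‖ + h) := by
    intro ε hε
    obtain ⟨d, hd, hMTd⟩ := hMT h ε hε
    obtain ⟨e, v, z, he, heP, hvP, hfv, hvf, hvv, hsum, hz, hNF⟩ := hTop K P d hd
    classical
    obtain ⟨Y1, hY1, hY1x⟩ := hI K P d hd z hz hNF _ (adm_avgClosed P Y g hg) Y
      (mem_adm P Y g hg hyp) (Finset.univ.image fun ij : Fin h × Fin h => x ij.1 ij.2)
      (by
        intro y hy
        obtain ⟨ij, -, rfl⟩ := Finset.mem_image.1 hy
        exact hxP _ _) ε hε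
    obtain ⟨Y2, hY2, hY2e, hY2x⟩ := hAvg K P d e he heP _ (adm_avgClosed P Y g hg) Y1 hY1
    set f : K →L[ℂ] K := ∑ k, e k k with hf
    have hfs : star f = f := mu_star_f he
    have hff : f * f = f := mu_f_f he
    have hfP : f ∈ P := sum_mem fun k _ => heP k k
    obtain ⟨hzP, hzs, hzz, hzc⟩ := hz
    have hze : ∀ i j, z * e i j = 0 := by
      intro i j
      have h1 := congrArg (· * e i j) hsum
      simp only [add_mul, one_mul] at h1
      have h2 : f * e i j = e i j := mu_f_mul he i j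
      have h3 : star v * v * e i j = 0 := by
        rw [← h2, mul_assoc, ← mul_assoc v, hvf, zero_mul, mul_zero]
      rw [h2, h3, add_zero] at h1
      exact left_eq_add.1 h1.symm
    have hzx : ∀ i j, ‖Y2 * (z * x i j) - (z * x i j) * Y2‖ ≤ ε := by
      intro i j
      refine (hY2x _ fun k l => ?_).trans
        (hY1x _ (Finset.mem_image.2 ⟨(i, j), Finset.mem_univ _, rfl⟩))
      rw [← mul_assoc, ← hzc _ (heP k l), hze, zero_mul, hzc _ (hxP i j), mul_assoc, hze,
        mul_zero]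
    obtain ⟨hY2a, hY2n, hyp2⟩ := hY2
    have hY2f : Y2 * f = f * Y2 := by
      rw [hf, Finset.mul_sum, Finset.sum_mul]
      exact Finset.sum_congr rfl fun k _ => hY2e k k
    have hcorner := corner (ι := Fin h) P f Y2 hfs hY2f (4 * g + ε * ‖Y2‖) (by positivity)
      (corner_unitary P he heP ⟨0, hd⟩ Y2 hY2e g hg hyp2 ε hε.le (hMTd K))
    -- the four corners
    have hv1 : ‖v‖ ≤ 1 := by
      have h1 : ‖star v * v‖ ≤ 1 := norm_le_one_of_proj (by simp)
        (by rw [mul_assoc, ← mul_assoc v, hvv])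
      rw [CStarRing.norm_star_mul_self] at h1
      nlinarith [norm_nonneg v]
    have hf1 : ‖f‖ ≤ 1 := norm_le_one_of_proj hfs hff
    have hpiece : ∀ a b : K →L[ℂ] K, a ∈ P → b ∈ P → ‖a‖ ≤ 1 → ‖b‖ ≤ 1 → f * a = a → f * b = b →
        ‖mxDiag (Fin h) Y2 * (mxDiag (Fin h) (star a * a) * X * mxDiag (Fin h) (star b * b)) -
          (mxDiag (Fin h) (star a * a) * X * mxDiag (Fin h) (star b * b)) * mxDiag (Fin h) Y2‖ ≤
          2 * g * ‖X‖ + 2 * (4 * g + ε * ‖Y‖) * ‖X‖ := by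
      intro a b haP hbP ha1 hb1 hfa hfb
      set Z := mxDiag (Fin h) a * X * mxDiag (Fin h) (star b) with hZ
      have hZn : ‖Z‖ ≤ ‖X‖ := by
        have h1 : ‖mxDiag (Fin h) a‖ ≤ 1 := (norm_dg_le a).trans ha1
        have h2 : ‖mxDiag (Fin h) (star b)‖ ≤ 1 := (norm_dg_le _).trans (by rwa [norm_star])
        calc ‖Z‖ ≤ _ := norm_mul₃_le
          _ ≤ 1 * ‖X‖ * 1 := by gcongr
          _ = ‖X‖ := by ring
      have e1 : mxDiag (Fin h) (star a * a) * X * mxDiag (Fin h) (star b * b) =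
          mxDiag (Fin h) (star a) * Z * mxDiag (Fin h) b := by
        rw [hZ, dg_mul, dg_mul]; simp only [mul_assoc]
      have hcm : ∀ c ∈ P, ‖c‖ ≤ 1 →
          ‖mxDiag (Fin h) Y2 * mxDiag (Fin h) c - mxDiag (Fin h) c * mxDiag (Fin h) Y2‖ ≤ g := by
        intro c hc hc1
        rw [← dg_mul, ← dg_mul, ← dg_sub]
        exact (norm_dg_le _).trans ((hyp2 c hc).trans (mul_le_of_le_one_right hg hc1))
      have hZc := hcorner Z ?_ ?_ ?_
      · rw [e1]
        refine comm3 _ _ _ _ g _ ‖X‖ ((norm_dg_le _).trans (by rwa [norm_star]))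
          ((norm_dg_le _).trans hb1) hZn hg (hcm _ (star_mem haP) (by rwa [norm_star]))
          (hZc.trans ?_) (hcm _ hbP hb1)
        gcongr
      · intro c hc
        have h1 := (VonNeumannAlgebra.mem_commutant_iff.1 hc) _ haP
        have h2 := (VonNeumannAlgebra.mem_commutant_iff.1 hc) _ (star_mem hbP)
        rw [hZ, ← mul_assoc, ← mul_assoc, ← dg_mul, ← h1, dg_mul, mul_assoc (mxDiag (Fin h) a),
          hXP c hc, mul_assoc, mul_assoc, ← dg_mul, ← h2, dg_mul]
        simp only [mul_assoc]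
      · rw [hZ, ← mul_assoc, ← mul_assoc, ← dg_mul, hfa]
      · have : star b * f = star b := by
          have := congrArg star hfb
          rwa [star_mul, hfs] at this
        rw [hZ, mul_assoc, ← dg_mul, this]
    have hdec : X = mxDiag (Fin h) z * X +
        (mxDiag (Fin h) (star f * f) * X * mxDiag (Fin h) (star f * f) +
        mxDiag (Fin h) (star f * f) * X * mxDiag (Fin h) (star v * v) +
        mxDiag (Fin h) (star v * v) * X * mxDiag (Fin h) (star f * f) +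
        mxDiag (Fin h) (star v * v) * X * mxDiag (Fin h) (star v * v)) := by
      have h1 : star f * f + star v * v = 1 - z := by
        rw [hfs, hff, ← hsum]; abel
      have hzX : mxDiag (Fin h) z * X = X * mxDiag (Fin h) z := by
        ext w i
        rw [ContinuousLinearMap.mul_apply, ContinuousLinearMap.mul_apply, mxDiag_apply, hX, hX,
          map_sum]
        refine Finset.sum_congr rfl fun j _ => ?_
        rw [mxDiag_apply, ← ContinuousLinearMap.mul_apply, ← ContinuousLinearMap.mul_apply,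
          hzc _ (hxP i j)]
      have h2 : mxDiag (Fin h) (star f * f) * X * mxDiag (Fin h) (star f * f) +
          mxDiag (Fin h) (star f * f) * X * mxDiag (Fin h) (star v * v) +
          mxDiag (Fin h) (star v * v) * X * mxDiag (Fin h) (star f * f) +
          mxDiag (Fin h) (star v * v) * X * mxDiag (Fin h) (star v * v) =
          mxDiag (Fin h) (1 - z) * X * mxDiag (Fin h) (1 - z) := by
        rw [← h1, dg_add]; noncomm_ring
      have hZZ : mxDiag (Fin h) z * mxDiag (Fin h) z = mxDiag (Fin h) z := by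
        rw [← dg_mul, hzz]
      rw [h2, dg_sub, dg_one, sub_mul, one_mul, mul_sub, mul_one, sub_mul, mul_assoc, ← hzX,
        ← mul_assoc, hZZ]
      abel
    have hzpart : ‖mxDiag (Fin h) Y2 * (mxDiag (Fin h) z * X) -
        (mxDiag (Fin h) z * X) * mxDiag (Fin h) Y2‖ ≤ h * ε := by
      have := norm_le_of_ent (mxDiag (Fin h) Y2 * (mxDiag (Fin h) z * X) -
        (mxDiag (Fin h) z * X) * mxDiag (Fin h) Y2) hε.le (by
          intro i j
          have : ent (mxDiag (Fin h) z * X) i j = z * x i j := by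
            rw [← hx]; rfl
          rw [ent_comm_dg, this]
          exact hzx i j)
      simpa using this
    have hY2X : ‖mxDiag (Fin h) Y2 * X - X * mxDiag (Fin h) Y2‖ ≤
        h * ε + 4 * (2 * g * ‖X‖ + 2 * (4 * g + ε * ‖Y‖) * ‖X‖) := by
      have t1 := hpiece f f hfP hfP hf1 hf1 hff hff
      have t2 := hpiece f v hfP hvP hf1 hv1 hff hfv
      have t3 := hpiece v f hvP hfP hv1 hf1 hfv hff
      have t4 := hpiece v v hvP hvP hv1 hv1 hfv hfv
      generalize mxDiag (Fin h) (star f * f) * X * mxDiag (Fin h) (star f * f) = A1 at *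
      generalize mxDiag (Fin h) (star f * f) * X * mxDiag (Fin h) (star v * v) = A2 at *
      generalize mxDiag (Fin h) (star v * v) * X * mxDiag (Fin h) (star f * f) = A3 at *
      generalize mxDiag (Fin h) (star v * v) * X * mxDiag (Fin h) (star v * v) = A4 at *
      generalize mxDiag (Fin h) z * X = A0 at *
      generalize mxDiag (Fin h) Y2 = W at *
      have e1 : W * X - X * W = (W * A0 - A0 * W) + ((W * A1 - A1 * W) + (W * A2 - A2 * W) +
          (W * A3 - A3 * W) + (W * A4 - A4 * W)) := by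
        conv_lhs => rw [hdec]
        noncomm_ring
      rw [e1]
      refine (norm_add_le _ _).trans (add_le_add hzpart ((norm_add_le _ _).trans ?_))
      have := norm_add₃_le (a := W * A1 - A1 * W) (b := W * A2 - A2 * W) (c := W * A3 - A3 * W)
      linarith
    have hYY : ‖mxDiag (Fin h) (Y2 - Y)‖ ≤ g := by
      have := hY2a 1 (one_mem _) (by simp) (by simp)
      rw [star_one, mul_one, one_mul] at this
      exact (norm_dg_le _).trans this
    have e2 : mxDiag (Fin h) Y * X - X * mxDiag (Fin h) Y =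
        (mxDiag (Fin h) Y2 * X - X * mxDiag (Fin h) Y2) + X * mxDiag (Fin h) (Y2 - Y) -
          mxDiag (Fin h) (Y2 - Y) * X := by
      rw [dg_sub, mul_sub, sub_mul]; abel
    rw [e2]
    have t5 : ‖X * mxDiag (Fin h) (Y2 - Y)‖ ≤ ‖X‖ * g := (norm_mul_le _ _).trans (by gcongr)
    have t6 : ‖mxDiag (Fin h) (Y2 - Y) * X‖ ≤ g * ‖X‖ := (norm_mul_le _ _).trans (by gcongr)
    refine (norm_sub_le _ _).trans ((add_le_add_left (norm_add_le _ _) _).trans ?_)
    linarith
  refine le_of_forall_pos_le_add fun δ hδ => ?_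
  have hpos : 0 < 8 * ‖Y‖ * ‖X‖ + h + 1 := by positivity
  refine (key (δ / (8 * ‖Y‖ * ‖X‖ + h + 1)) (by positivity)).trans ?_
  gcongr
  rw [div_mul_eq_mul_div, div_le_iff₀ hpos]
  exact mul_le_mul_of_nonneg_left (by linarith) hδ.le

end Crest.Agent.H0164
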