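import Crest.Agent.H0164.Defs

set_option autoImplicit false

namespace Crest.Agent.H0164

open scoped InnerProductSpace BigOperators

/-- `ℓ²`-sum of copies of `K`. -/
def HH (I : Type) (K : Type*) := PiLp 2 (fun _ : I => K)

section basic
variable {K : Type*} [NormedAddCommGroup K] [InnerProductSpace ℂ K]
variable {I : Type} [Fintype I] [DecidableEq I]

noncomputable instance : NormedAddCommGroup (HH I K) :=
  inferInstanceAs (NormedAddCommGroup (PiLp 2 (fun _ : I => K)))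
noncomputable instance : InnerProductSpace ℂ (HH I K) :=
  inferInstanceAs (InnerProductSpace ℂ (PiLp 2 (fun _ : I => K)))
instance [CompleteSpace K] : CompleteSpace (HH I K) :=
  inferInstanceAs (CompleteSpace (PiLp 2 (fun _ : I => K)))

/-- coordinates -/
def HH.co {I : Type} {K : Type*} (v : HH I K) (a : I) : K := WithLp.ofLp v a

instance {I : Type} {K : Type*} : CoeFun (HH I K) (fun _ => I → K) := ⟨HH.co⟩

/-- constructor -/
def HH.mk {I : Type} {K : Type*} (f : I → K) : HH I K := WithLp.toLp 2 f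

@[simp] lemma HH.mk_apply {I : Type} {K : Type*} (f : I → K) (a : I) : HH.mk f a = f a := rfl

@[ext] lemma HH.ext {I : Type} {K : Type*} {v w : HH I K} (h : ∀ a, v a = w a) : v = w :=
  PiLp.ext h

section
omit [DecidableEq I]
@[simp] lemma HH.smul_apply (c : ℂ) (v : HH I K) (a : I) : (c • v) a = c • v a := rfl
lemma HH.inner_apply (v w : HH I K) : ⟪v, w⟫_ℂ = ∑ a, ⟪v a, w a⟫_ℂ := PiLp.inner_apply _ _
omit [InnerProductSpace ℂ K]
@[simp] lemma HH.add_apply (v w : HH I K) (a : I) : (v + w) a = v a + w a := rfl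
@[simp] lemma HH.sub_apply (v w : HH I K) (a : I) : (v - w) a = v a - w a := rfl
@[simp] lemma HH.neg_apply (v : HH I K) (a : I) : (-v) a = -v a := rfl
@[simp] lemma HH.zero_apply (a : I) : (0 : HH I K) a = 0 := rfl
end

/-- inclusion of a coordinate -/
noncomputable def sg (a : I) : K →L[ℂ] HH I K :=
  LinearMap.mkContinuous
    { toFun := fun ξ => (PiLp.single 2 a ξ : PiLp 2 (fun _ : I => K))
      map_add' := fun x y => PiLp.single_add 2 a
      map_smul' := fun c x => by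
        apply HH.ext
        intro b
        change (PiLp.single 2 a (c • x) : PiLp 2 (fun _ : I => K)) b =
          c • (PiLp.single 2 a x : PiLp 2 (fun _ : I => K)) b
        by_cases h : b = a
        · subst h; simp
        · simp [h] } 1 (fun ξ => by
          change ‖(PiLp.single 2 a ξ : PiLp 2 (fun _ : I => K))‖ ≤ _
          simp)

/-- projection to a coordinate -/
noncomputable def pr (a : I) : HH I K →L[ℂ] K :=
  LinearMap.mkContinuous
    { toFun := fun v => v a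
      map_add' := fun _ _ => rfl
      map_smul' := fun _ _ => rfl } 1 (fun v => by
        rw [one_mul]
        exact PiLp.norm_apply_le (β := fun _ : I => K) v a)

omit [DecidableEq I] in
@[simp] lemma pr_apply (a : I) (v : HH I K) : pr a v = v a := rfl

lemma sg_apply (a b : I) (ξ : K) : (sg a ξ : HH I K) b = if b = a then ξ else 0 := by
  change (PiLp.single 2 a ξ : PiLp 2 (fun _ : I => K)) b = _
  by_cases h : b = a
  · subst h; simp
  · simp [h]

@[simp] lemma sg_same (a : I) (ξ : K) : (sg a ξ : HH I K) a = ξ := by simp [sg_apply]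

lemma sg_ne {a b : I} (h : b ≠ a) (ξ : K) : (sg a ξ : HH I K) b = 0 := by simp [sg_apply, h]

@[simp] lemma norm_sg (a : I) (ξ : K) : ‖(sg a ξ : HH I K)‖ = ‖ξ‖ := by
  change ‖(PiLp.single 2 a ξ : PiLp 2 (fun _ : I => K))‖ = _
  simp

lemma inner_sg_right (a : I) (ξ : K) (v : HH I K) : ⟪v, sg a ξ⟫_ℂ = ⟪v a, ξ⟫_ℂ := by
  rw [HH.inner_apply, Finset.sum_eq_single a]
  · simp
  · intro b _ hb; simp [sg_ne hb]
  · simp

lemma inner_sg_left (a : I) (ξ : K) (v : HH I K) : ⟪sg a ξ, v⟫_ℂ = ⟪ξ, v a⟫_ℂ := by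
  rw [← inner_conj_symm, inner_sg_right, inner_conj_symm]

omit [DecidableEq I] [InnerProductSpace ℂ K] in
lemma nsq (v : HH I K) : ‖v‖ ^ 2 = ∑ a, ‖v a‖ ^ 2 := PiLp.norm_sq_eq_of_L2 (fun _ : I => K) v

omit [DecidableEq I] [InnerProductSpace ℂ K] in
lemma HH_sum_apply {ι : Type*} (s : Finset ι) (v : ι → HH I K) (a : I) :
    (∑ i ∈ s, v i) a = ∑ i ∈ s, v i a := by
  classical
  induction s using Finset.induction_on with
  | empty => simp
  | insert i s hi ih => rw [Finset.sum_insert hi, Finset.sum_insert hi, HH.add_apply, ih]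

lemma sum_sg (v : HH I K) : ∑ a, sg a (v a) = v := by
  ext b
  rw [HH_sum_apply, Finset.sum_eq_single b]
  · simp
  · intro a _ ha; exact sg_ne (Ne.symm ha) _
  · simp

/-- elementary operator matrix -/
noncomputable def El (a : I) (x : K →L[ℂ] K) (b : I) : HH I K →L[ℂ] HH I K :=
  (sg a) ∘L x ∘L pr b

@[simp] lemma El_apply (a : I) (x : K →L[ℂ] K) (b : I) (v : HH I K) :
    El a x b v = sg a (x (v b)) := rfl

/-- entries of an operator -/
noncomputable def ent (Z : HH I K →L[ℂ] HH I K) (a b : I) : K →L[ℂ] K :=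
  pr a ∘L Z ∘L sg b

@[simp] lemma ent_apply (Z : HH I K →L[ℂ] HH I K) (a b : I) (ξ : K) :
    ent Z a b ξ = Z (sg b ξ) a := rfl

lemma apply_eq_sum (Z : HH I K →L[ℂ] HH I K) (v : HH I K) (a : I) :
    Z v a = ∑ b, Z (sg b (v b)) a := by
  conv_lhs => rw [← sum_sg v]
  rw [map_sum, HH_sum_apply]

omit [DecidableEq I] [InnerProductSpace ℂ K] in
lemma sum_sub_le (s : Finset I) (v : HH I K) : ∑ a ∈ s, ‖v a‖ ^ 2 ≤ ‖v‖ ^ 2 := by
  rw [nsq]
  exact Finset.sum_le_sum_of_subset_of_nonneg (Finset.subset_univ _) (fun _ _ _ => by positivity)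

/-- coordinate projection -/
noncomputable def qD (K : Type*) [NormedAddCommGroup K] [InnerProductSpace ℂ K]
    (D : Finset I) : HH I K →L[ℂ] HH I K := ∑ c ∈ D, El c 1 c

lemma qD_apply (D : Finset I) (v : HH I K) (a : I) : qD K D v a = if a ∈ D then v a else 0 := by
  simp only [qD, ContinuousLinearMap.sum_apply, HH_sum_apply, El_apply,
    ContinuousLinearMap.one_apply, sg_apply]
  rw [Finset.sum_ite_eq]

lemma qD_sg {D : Finset I} {c : I} (hc : c ∈ D) (ξ : K) : qD K D (sg c ξ) = sg c ξ := by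
  ext a
  rw [qD_apply]
  split_ifs with h
  · rfl
  · rw [sg_ne]; rintro rfl; exact h hc

lemma norm_qD (D : Finset I) (v : HH I K) : ‖qD K D v‖ ^ 2 = ∑ c ∈ D, ‖v c‖ ^ 2 := by
  rw [nsq, ← Finset.sum_filter_add_sum_filter_not Finset.univ (· ∈ D)]
  have h2 : ∑ x ∈ Finset.univ.filter (fun x => ¬ x ∈ D), ‖qD K D v x‖ ^ 2 = 0 := by
    apply Finset.sum_eq_zero
    intro x hx
    rw [Finset.mem_filter] at hx
    simp [qD_apply, hx.2]
  rw [h2, add_zero]
  apply Finset.sum_congr (by ext; simp)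
  intro x hx
  simp [qD_apply, hx]

lemma inner_qD (D : Finset I) (v w : HH I K) :
    ⟪v, qD K D w⟫_ℂ = ∑ c ∈ D, ⟪v c, w c⟫_ℂ := by
  simp only [qD, ContinuousLinearMap.sum_apply, inner_sum, El_apply, inner_sg_right,
    ContinuousLinearMap.one_apply]

lemma inner_qD' (D : Finset I) (v w : HH I K) :
    ⟪qD K D v, w⟫_ℂ = ∑ c ∈ D, ⟪v c, w c⟫_ℂ := by
  simp only [qD, ContinuousLinearMap.sum_apply, sum_inner, El_apply, inner_sg_left,
    ContinuousLinearMap.one_apply]

lemma qD_qD (D : Finset I) (v : HH I K) : qD K D (qD K D v) = qD K D v := by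
  ext a; simp only [qD_apply]; split_ifs <;> rfl

lemma qD_add (D : Finset I) (v : HH I K) : qD K D v + qD K Dᶜ v = v := by
  ext a; simp only [HH.add_apply, qD_apply, Finset.mem_compl]; split_ifs <;> simp

lemma inner_split (D : Finset I) (v w : HH I K) :
    ⟪v, w⟫_ℂ = ⟪qD K D v, qD K D w⟫_ℂ + ⟪qD K Dᶜ v, qD K Dᶜ w⟫_ℂ := by
  rw [inner_qD', inner_qD', HH.inner_apply, ← Finset.sum_add_sum_compl D]
  congr 1
  · apply Finset.sum_congr rfl; intro c hc; rw [qD_apply, if_pos hc]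
  · apply Finset.sum_congr rfl; intro c hc; rw [qD_apply, if_pos hc]

lemma inner_qD_qD (D : Finset I) (v w : HH I K) :
    ⟪qD K D v, qD K D w⟫_ℂ = ⟪v, qD K D w⟫_ℂ := by
  rw [inner_qD', inner_qD]
  apply Finset.sum_congr rfl; intro c hc; rw [qD_apply, if_pos hc]

lemma inner_qD_move (D : Finset I) (v w : HH I K) :
    ⟪qD K D v, w⟫_ℂ = ⟪v, qD K D w⟫_ℂ := by
  rw [inner_qD', inner_qD]

lemma norm_qD_le (D : Finset I) (v : HH I K) : ‖qD K D v‖ ≤ ‖v‖ := by
  apply le_of_sq_le_sq _ (norm_nonneg _) |>.trans le_rfl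
  rw [norm_qD]; exact sum_sub_le D v

end basic

/-- An abstract expectation: a space of mean zero functions. -/
structure Ex (Ω : Type*) where
  Z : Submodule ℂ (Ω → ℂ)
  pos : ∀ z ∈ Z, ∀ c : ℝ, (∀ V, c ≤ (z V).re) → c ≤ 0

namespace Ex
variable {Ω : Type*} (E : Ex Ω)

/-- `E β ≤ E γ` -/
def le (β γ : Ω → ℝ) : Prop := ∃ z ∈ E.Z, ∀ V, β V ≤ γ V + (z V).re

variable {E}

lemma of_le {β γ : Ω → ℝ} (h : ∀ V, β V ≤ γ V) : E.le β γ :=
  ⟨0, E.Z.zero_mem, fun V => by simpa using h V⟩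

lemma le.trans {α β γ : Ω → ℝ} (h1 : E.le α β) (h2 : E.le β γ) : E.le α γ := by
  obtain ⟨z, hz, h⟩ := h1
  obtain ⟨w, hw, h'⟩ := h2
  refine ⟨z + w, E.Z.add_mem hz hw, fun V => ?_⟩
  have := h V; have := h' V
  simp only [Pi.add_apply, Complex.add_re]; linarith

lemma le.add {α β γ δ : Ω → ℝ} (h1 : E.le α β) (h2 : E.le γ δ) :
    E.le (fun V => α V + γ V) (fun V => β V + δ V) := by
  obtain ⟨z, hz, h⟩ := h1
  obtain ⟨w, hw, h'⟩ := h2
  refine ⟨z + w, E.Z.add_mem hz hw, fun V => ?_⟩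
  have := h V; have := h' V
  simp only [Pi.add_apply, Complex.add_re]; linarith

lemma le.smul {α β : Ω → ℝ} (h1 : E.le α β) {c : ℝ} (hc : 0 ≤ c) :
    E.le (fun V => c * α V) (fun V => c * β V) := by
  obtain ⟨z, hz, h⟩ := h1
  refine ⟨(c : ℂ) • z, E.Z.smul_mem _ hz, fun V => ?_⟩
  have := mul_le_mul_of_nonneg_left (h V) hc
  simp only [Pi.smul_apply, smul_eq_mul, Complex.re_ofReal_mul]; linarith

lemma le_sum {ι : Type*} (s : Finset ι) {α β : ι → Ω → ℝ} (h : ∀ i ∈ s, E.le (α i) (β i)) :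
    E.le (fun V => ∑ i ∈ s, α i V) (fun V => ∑ i ∈ s, β i V) := by
  classical
  induction s using Finset.induction_on with
  | empty => exact of_le (by simp)
  | insert i s hi ih =>
    simp only [Finset.sum_insert hi]
    exact (h i (Finset.mem_insert_self _ _)).add
      (ih fun j hj => h j (Finset.mem_insert_of_mem hj))

lemma le.mono {α β α' β' : Ω → ℝ} (h : E.le α β) (h1 : ∀ V, α' V ≤ α V) (h2 : ∀ V, β V ≤ β' V) :
    E.le α' β' := ((of_le h1).trans h).trans (of_le h2)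

lemma of_mem {f g : Ω → ℂ} {z : Ω → ℂ} (hz : z ∈ E.Z) (h : ∀ V, f V - g V = z V) :
    E.le (fun V => (f V).re) (fun V => (g V).re) :=
  ⟨z, hz, fun V => by rw [← h V]; simp⟩

lemma of_mem' {f g : Ω → ℂ} {z : Ω → ℂ} (hz : z ∈ E.Z) (h : ∀ V, g V - f V = z V) :
    E.le (fun V => (f V).re) (fun V => (g V).re) :=
  of_mem (E.Z.neg_mem hz) (fun V => by rw [Pi.neg_apply, ← h V]; ring)

lemma le.const {a b : ℝ} (h : E.le (fun _ => a) (fun _ => b)) : a ≤ b := by
  obtain ⟨z, hz, h⟩ := h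
  have := E.pos z hz (a - b) (fun V => by have := h V; linarith)
  linarith

end Ex

/-- An abstract infinitesimal symmetry of an expectation. -/
structure Calc {Ω : Type*} (E : Ex Ω) (H : Type*) [NormedAddCommGroup H]
    [InnerProductSpace ℂ H] where
  D : (Ω → (H →L[ℂ] H)) → (Ω → (H →L[ℂ] H)) → Prop
  const : ∀ C, D (fun _ => C) (fun _ => 0)
  add : ∀ {Φ Φ' Ψ Ψ'}, D Φ Φ' → D Ψ Ψ' → D (fun V => Φ V + Ψ V) (fun V => Φ' V + Ψ' V)
  mul : ∀ {Φ Φ' Ψ Ψ'}, D Φ Φ' → D Ψ Ψ' →
    D (fun V => Φ V * Ψ V) (fun V => Φ' V * Ψ V + Φ V * Ψ' V)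
  integ : ∀ {Φ Φ'}, D Φ Φ' → ∀ θ₁ θ₂ : H, (fun V => ⟪θ₁, Φ' V θ₂⟫_ℂ) ∈ E.Z

/-- reversed direction -/
def Calc.neg {Ω : Type*} {E : Ex Ω} {H : Type*} [NormedAddCommGroup H]
    [InnerProductSpace ℂ H] (c : Calc E H) : Calc E H where
  D := fun Φ Φ' => c.D Φ (fun V => - Φ' V)
  const := fun C => by simpa using c.const C
  add := fun h1 h2 => by
    convert c.add h1 h2 using 2
    exact neg_add _ _
  mul := fun h1 h2 => by
    convert c.mul h1 h2 using 2
    simp only [neg_add, neg_mul, mul_neg]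
  integ := fun h θ₁ θ₂ => by
    have := E.Z.neg_mem (c.integ h θ₁ θ₂)
    convert this using 1
    ext V; simp

/-- The Schwinger–Dyson system of a random colligation. -/
structure Sys {Ω : Type*} (E : Ex Ω) (K : Type*) [NormedAddCommGroup K] [InnerProductSpace ℂ K]
    [CompleteSpace K] {I : Type} [Fintype I] [DecidableEq I] (D : Finset I) (n r : ℝ) where
  X : HH I K →L[ℂ] HH I K
  F : Ω → (HH I K →L[ℂ] HH I K)
  hX1 : star X * X = ((r ^ 2 : ℝ) : ℂ) • qD K Dᶜ
  hX2 : X * star X = ((r ^ 2 : ℝ) : ℂ) • qD K Dᶜ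
  nF : ∀ V, ‖F V‖ ≤ n
  q1 : ∀ V, star (F V) * F V = star (1 + X * F V) * (1 + X * F V)
  q2 : ∀ V, F V * star (F V) = (1 + F V * X) * star (1 + F V * X)
  R : I → I → Calc E (HH I K)
  L : I → I → Calc E (HH I K)
  RF : ∀ a b, (R a b).D F (fun V => F V * El a 1 b * (1 + X * F V))
  RFs : ∀ a b, (R a b).D (fun V => star (F V))
    (fun V => -(star (1 + X * F V) * El a 1 b * star (F V)))
  LF : ∀ a b, (L a b).D F (fun V => (1 + F V * X) * El a 1 b * F V)
  LFs : ∀ a b, (L a b).D (fun V => star (F V))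
    (fun V => -(star (F V) * El a 1 b * star (1 + F V * X)))

/-- The adjoint system. -/
noncomputable def Sys.swap {Ω : Type*} {E : Ex Ω} {K : Type*} [NormedAddCommGroup K]
    [InnerProductSpace ℂ K] [CompleteSpace K] {I : Type} [Fintype I] [DecidableEq I]
    {D : Finset I} {n r : ℝ} (S : Sys E K D n r) : Sys E K D n r where
  X := star S.X
  F := fun V => star (S.F V)
  hX1 := by rw [star_star]; exact S.hX2
  hX2 := by rw [star_star]; exact S.hX1
  nF := fun V => by rw [norm_star]; exact S.nF V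
  q1 := fun V => by simpa using S.q2 V
  q2 := fun V => by simpa using S.q1 V
  R := fun a b => (S.L a b).neg
  L := fun a b => (S.R a b).neg
  RF := fun a b => by simpa [Calc.neg] using S.LFs a b
  RFs := fun a b => by simpa [Calc.neg] using S.LF a b
  LF := fun a b => by simpa [Calc.neg] using S.RFs a b
  LFs := fun a b => by simpa [Calc.neg] using S.RF a b

end Crest.Agent.H0164
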