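import Crest.Agent.H0164.B1

set_option autoImplicit false

namespace Crest.Agent.H0164

open scoped InnerProductSpace BigOperators

section aux
variable {H : Type*} [NormedAddCommGroup H] [InnerProductSpace ℂ H]

lemma inner_star_right [CompleteSpace H] (A : H →L[ℂ] H) (v w : H) :
    ⟪v, star A w⟫_ℂ = ⟪A v, w⟫_ℂ := by
  rw [ContinuousLinearMap.star_eq_adjoint, ContinuousLinearMap.adjoint_inner_right]

lemma inner_star_left [CompleteSpace H] (A : H →L[ℂ] H) (v w : H) :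
    ⟪star A v, w⟫_ℂ = ⟪v, A w⟫_ℂ := by
  rw [ContinuousLinearMap.star_eq_adjoint, ContinuousLinearMap.adjoint_inner_left]

lemma re_inner_self (v : H) : (⟪v, v⟫_ℂ).re = ‖v‖ ^ 2 := by
  rw [← inner_self_eq_norm_sq (𝕜 := ℂ)]; rfl

lemma re_inner_comm (v w : H) : (⟪v, w⟫_ℂ).re = (⟪w, v⟫_ℂ).re := by
  rw [← inner_conj_symm, Complex.conj_re]

lemma re_inner_le (v w : H) : (⟪v, w⟫_ℂ).re ≤ ‖v‖ * ‖w‖ :=
  (Complex.re_le_norm _).trans (norm_inner_le_norm _ _)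

lemma re_inner_amgm (v w : H) {t : ℝ} (ht : 0 < t) :
    (⟪v, w⟫_ℂ).re ≤ (‖v‖ ^ 2 / t + t * ‖w‖ ^ 2) / 2 := by
  have h1 := re_inner_le v w
  have h2 : ‖v‖ * ‖w‖ ≤ (‖v‖ ^ 2 / t + t * ‖w‖ ^ 2) / 2 := by
    have : (‖v‖ ^ 2 / t + t * ‖w‖ ^ 2) / 2 - ‖v‖ * ‖w‖ = (‖v‖ - t * ‖w‖) ^ 2 / (2 * t) := by
      field_simp; ring
    have h3 : 0 ≤ (‖v‖ - t * ‖w‖) ^ 2 / (2 * t) := by positivity
    linarith
  linarith

lemma norm_eq_of_star_mul [CompleteSpace H] {A B : H →L[ℂ] H} (h : star A * A = star B * B)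
    (v : H) : ‖A v‖ = ‖B v‖ := by
  have : ‖A v‖ ^ 2 = ‖B v‖ ^ 2 := by
    rw [← re_inner_self, ← re_inner_self, ← inner_star_right A, ← inner_star_right B,
      ← ContinuousLinearMap.mul_apply, h, ContinuousLinearMap.mul_apply]
  exact (pow_left_inj₀ (norm_nonneg _) (norm_nonneg _) two_ne_zero).1 this

lemma sq_le_of_op {A : H →L[ℂ] H} {n : ℝ} (h : ‖A‖ ≤ n) (v : H) :
    ‖A v‖ ^ 2 ≤ n ^ 2 * ‖v‖ ^ 2 := by
  rw [← mul_pow]
  exact pow_le_pow_left₀ (norm_nonneg _)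
    ((A.le_opNorm v).trans (mul_le_mul_of_nonneg_right h (norm_nonneg _))) 2

end aux

lemma inner_star_co {K : Type*} [NormedAddCommGroup K] [InnerProductSpace ℂ K]
    [CompleteSpace K] {I : Type} [Fintype I] [DecidableEq I] (A : HH I K →L[ℂ] HH I K)
    (ξ : K) (w : HH I K) (c : I) : ⟪ξ, star A w c⟫_ℂ = ⟪A (sg c ξ), w⟫_ℂ := by
  rw [← inner_sg_left, inner_star_right]

namespace Sys
variable {Ω : Type*} {E : Ex Ω} {K : Type*} [NormedAddCommGroup K] [InnerProductSpace ℂ K]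
  [CompleteSpace K] {I : Type} [Fintype I] [DecidableEq I] {D : Finset I} {n r : ℝ}
  (S : Sys E K D n r)

lemma inner_X (v w : HH I K) :
    ⟪S.X v, S.X w⟫_ℂ = ((r ^ 2 : ℝ) : ℂ) * ⟪qD K Dᶜ v, qD K Dᶜ w⟫_ℂ := by
  rw [← inner_star_right, ← ContinuousLinearMap.mul_apply, S.hX1, inner_qD_qD]
  simp [inner_smul_right]

lemma norm_X (v : HH I K) : ‖S.X v‖ ^ 2 = r ^ 2 * ‖qD K Dᶜ v‖ ^ 2 := by
  rw [← re_inner_self, inner_X, Complex.re_ofReal_mul, re_inner_self]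

lemma X_sg {c : I} (hc : c ∈ D) (ξ : K) : S.X (sg c ξ) = 0 := by
  have h : qD K Dᶜ (sg c ξ) = 0 := by
    ext a
    rw [qD_apply]
    split_ifs with h
    · rw [sg_ne]; · rfl
      rintro rfl; exact (Finset.mem_compl.1 h) hc
    · rfl
  have := S.norm_X (sg c ξ)
  rw [h] at this
  simpa using this

lemma X_D {c : I} (hc : c ∈ D) (v : HH I K) : S.X v c = 0 := by
  apply ext_inner_left ℂ
  intro ξ
  rw [← inner_sg_left, ← inner_star_left]
  have := S.swap.X_sg hc ξ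
  change star S.X (sg c ξ) = 0 at this
  rw [this]; simp

lemma X_qD (v : HH I K) : S.X (qD K D v) = 0 := by
  simp only [qD, ContinuousLinearMap.sum_apply, map_sum, El_apply]
  exact Finset.sum_eq_zero fun c hc => S.X_sg hc _

lemma qD_X (v : HH I K) : qD K D (S.X v) = 0 := by
  ext a; rw [qD_apply]; split_ifs with h
  · exact S.X_D h v
  · rfl

lemma nX (hr : r ^ 2 ≤ 1) (v : HH I K) : ‖S.X v‖ ^ 2 ≤ ‖v‖ ^ 2 := by
  rw [S.norm_X]
  have h1 : ‖qD K Dᶜ v‖ ^ 2 ≤ ‖v‖ ^ 2 := pow_le_pow_left₀ (norm_nonneg _) (norm_qD_le _ _) 2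
  nlinarith [sq_nonneg ‖qD K Dᶜ v‖]

lemma nG (V : Ω) (v : HH I K) : ‖(1 + S.X * S.F V) v‖ ^ 2 ≤ n ^ 2 * ‖v‖ ^ 2 := by
  rw [← norm_eq_of_star_mul (S.q1 V)]; exact sq_le_of_op (S.nF V) v

lemma nG' (V : Ω) (v : HH I K) : ‖(1 + S.F V * S.X) v‖ ^ 2 ≤ n ^ 2 * ‖v‖ ^ 2 := by
  apply sq_le_of_op
  have h0 : 0 ≤ n := (norm_nonneg _).trans (S.nF V)
  rw [← norm_star]
  apply ContinuousLinearMap.opNorm_le_bound _ h0
  intro w
  have h : star (star (1 + S.F V * S.X)) * star (1 + S.F V * S.X) =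
      star (star (S.F V)) * star (S.F V) := by rw [star_star, star_star, S.q2]
  rw [norm_eq_of_star_mul h]
  exact ((star (S.F V)).le_opNorm w).trans
    (mul_le_mul_of_nonneg_right (by rw [norm_star]; exact S.nF V) (norm_nonneg _))

lemma G_D (V : Ω) {c : I} (hc : c ∈ D) (v : HH I K) : (1 + S.X * S.F V) v c = v c := by
  simp [S.X_D hc]

lemma G'_sg (V : Ω) {c : I} (hc : c ∈ D) (ξ : K) : (1 + S.F V * S.X) (sg c ξ) = sg c ξ := by
  simp [S.X_sg hc]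

/-- polarised energy identity -/
lemma energy (V : Ω) (v w : HH I K) :
    ⟪qD K D (S.F V v), qD K D (S.F V w)⟫_ℂ +
      ((1 - r ^ 2 : ℝ) : ℂ) * ⟪qD K Dᶜ (S.F V v), qD K Dᶜ (S.F V w)⟫_ℂ =
      ⟪v, w⟫_ℂ + ⟪v, S.X (S.F V w)⟫_ℂ + ⟪S.X (S.F V v), w⟫_ℂ := by
  have h1 : ⟪S.F V v, S.F V w⟫_ℂ = ⟪(1 + S.X * S.F V) v, (1 + S.X * S.F V) w⟫_ℂ := by
    rw [← inner_star_right, ← inner_star_right (1 + S.X * S.F V),
      ← ContinuousLinearMap.mul_apply, S.q1, ContinuousLinearMap.mul_apply]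
  rw [inner_split D] at h1
  simp only [ContinuousLinearMap.add_apply, ContinuousLinearMap.one_apply,
    ContinuousLinearMap.mul_apply, inner_add_left, inner_add_right, S.inner_X] at h1
  push_cast at h1 ⊢
  linear_combination h1

lemma energy_sq (V : Ω) (v : HH I K) :
    ‖qD K D (S.F V v)‖ ^ 2 + (1 - r ^ 2) * ‖qD K Dᶜ (S.F V v)‖ ^ 2 =
      ‖v‖ ^ 2 + 2 * (⟪v, S.X (S.F V v)⟫_ℂ).re := by
  have h := congrArg Complex.re (S.energy V v v)
  simp only [Complex.add_re, Complex.re_ofReal_mul, re_inner_self] at h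
  rw [re_inner_comm (S.X _)] at h
  linarith

lemma energy_q (V : Ω) (v : HH I K) :
    ‖qD K D (S.F V (qD K D v))‖ ^ 2 + (1 - r ^ 2) * ‖qD K Dᶜ (S.F V (qD K D v))‖ ^ 2 =
      ‖qD K D v‖ ^ 2 := by
  rw [S.energy_sq, inner_qD_move, S.qD_X]; simp

lemma f_sg (hr : r ^ 2 ≤ 1) (V : Ω) {c : I} (hc : c ∈ D) (ξ : K) :
    ∑ o ∈ D, ‖S.F V (sg c ξ) o‖ ^ 2 ≤ ‖ξ‖ ^ 2 := by
  have h := S.energy_q V (sg c ξ)
  rw [qD_sg hc, norm_qD, norm_sg] at h
  have : 0 ≤ (1 - r ^ 2) * ‖qD K Dᶜ (S.F V (sg c ξ))‖ ^ 2 :=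
    mul_nonneg (by linarith) (by positivity)
  linarith

lemma mean_F (hD : D.Nonempty) (v w : HH I K) : (fun V => ⟪v, S.F V w⟫_ℂ) ∈ E.Z := by
  obtain ⟨c, hc⟩ := hD
  have h : ∀ b, (fun V => ⟪v, S.F V (sg b (w b))⟫_ℂ) ∈ E.Z := by
    intro b
    have := (S.R b c).integ (S.RF b c) v (sg c (w b))
    convert this using 3 with V
    rw [ContinuousLinearMap.mul_apply, ContinuousLinearMap.mul_apply, El_apply, S.G_D V hc]
    simp
  have h2 := E.Z.sum_mem (t := Finset.univ) (fun b _ => h b)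
  convert h2 using 1
  ext V
  rw [Finset.sum_apply, ← inner_sum, ← map_sum, sum_sg]

lemma mean_energy (hD : D.Nonempty) (v : HH I K) :
    E.le (fun V => ‖qD K D (S.F V v)‖ ^ 2 + (1 - r ^ 2) * ‖qD K Dᶜ (S.F V v)‖ ^ 2)
      (fun _ => ‖v‖ ^ 2) := by
  refine ⟨_, E.Z.smul_mem 2 (S.mean_F hD (star S.X v) v), fun V => ?_⟩
  beta_reduce
  rw [S.energy_sq]
  simp [inner_star_left]

lemma mean_q (hr : r ^ 2 ≤ 1) (hD : D.Nonempty) (v : HH I K) :
    E.le (fun V => ‖qD K D (S.F V v)‖ ^ 2) (fun _ => ‖v‖ ^ 2) := by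
  refine (S.mean_energy hD v).mono (fun V => ?_) (fun _ => le_rfl)
  have : 0 ≤ (1 - r ^ 2) * ‖qD K Dᶜ (S.F V v)‖ ^ 2 :=
    mul_nonneg (by linarith) (by positivity)
  linarith

/-- step R -/
lemma stepR (θ₁ θ₂ : HH I K) (a b o c : I) (hc : c ∈ D) (h0 : θ₂ c = 0) (x : K →L[ℂ] K) :
    E.le (fun V => (⟪S.F V θ₁ o, S.F V (sg b (x (S.F V θ₂ o))) a⟫_ℂ).re)
      (fun V => (⟪S.F V (sg c ((1 + S.X * S.F V) θ₁ b)) o,
        S.F V (sg c (x (S.F V θ₂ o))) a⟫_ℂ).re) := by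
  have h := (S.R b c).integ ((((((S.R b c).mul (S.RFs b c) ((S.R b c).const (El o 1 a)))
    |> ((S.R b c).mul · (S.RF b c))) |> ((S.R b c).mul · ((S.R b c).const (El c x o)))))
    |> ((S.R b c).mul · (S.RF b c))) θ₁ θ₂
  refine Ex.of_mem h (fun V => ?_)
  simp only [mul_zero, add_zero, ContinuousLinearMap.mul_apply, ContinuousLinearMap.add_apply (f := _ * _),
    El_apply, ContinuousLinearMap.neg_apply, S.G_D V hc, h0, map_zero,
    ContinuousLinearMap.one_apply, inner_add_right, inner_neg_right, inner_star_right,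
    inner_sg_right, sg_same, inner_zero_right]
  rw [← inner_sg_left c, inner_star_right, inner_sg_right]
  ring

/-- step L -/
lemma stepL (θ₁ θ₂ : HH I K) (a b o o' c : I) (ho' : o' ∈ D) (hne : o ≠ o') (x : K →L[ℂ] K) :
    E.le (fun V => (⟪S.F V (sg c ((1 + S.X * S.F V) θ₁ b)) o,
        S.F V (sg c (x (S.F V θ₂ o))) a⟫_ℂ).re)
      (fun V => (⟪S.F V (sg c (S.X ((1 + S.F V * S.X) (sg a (S.F V θ₁ o'))) b)) o,
          S.F V (sg c (x (S.F V θ₂ o))) o'⟫_ℂ +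
        ⟪(1 + S.F V * S.X) (sg a (S.F V (sg c ((1 + S.X * S.F V) θ₁ b)) o')) o,
          S.F V (sg c (x (S.F V θ₂ o))) o'⟫_ℂ).re) := by
  set C := S.L o' a
  have hG : C.D (fun V => star (1 + S.X * S.F V))
      (fun V => -(star (S.F V) * El o' 1 a * star (1 + S.F V * S.X)) * star S.X) := by
    have := C.add (C.const 1) (C.mul (S.LFs o' a) (C.const (star S.X)))
    simpa using this
  have h := C.integ (C.mul (C.mul (C.mul (C.mul (C.mul (C.mul hG (C.const (El b 1 c)))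
    (S.LFs o' a)) (C.const (El o 1 o'))) (S.LF o' a)) (C.const (El c x o))) (S.LF o' a)) θ₁ θ₂
  refine Ex.of_mem h (fun V => ?_)
  simp only [mul_zero, add_zero, ContinuousLinearMap.mul_apply, ContinuousLinearMap.add_apply (f := _ * _),
    El_apply, ContinuousLinearMap.neg_apply, S.G'_sg V ho', sg_ne hne, map_zero,
    ContinuousLinearMap.one_apply, inner_add_right, inner_neg_right, inner_star_right,
    inner_sg_right, sg_same, inner_zero_right, HH.neg_apply, map_neg]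
  simp only [inner_star_co, inner_star_right, inner_sg_right]
  ring

lemma bound2 (hr : r ^ 2 ≤ 1) (V : Ω) (θ₂ : HH I K) (a' c₀ : I) :
    ∑ o ∈ D, ∑ b, ∑ c ∈ D.erase c₀, ∑ o' ∈ D.erase o,
      ‖S.F V (sg c (ent S.X b a' (S.F V θ₂ o))) o'‖ ^ 2 ≤ D.card * (n ^ 2 * ‖θ₂‖ ^ 2) := by
  calc _ ≤ ∑ o ∈ D, ∑ b, ∑ c ∈ D.erase c₀, ‖ent S.X b a' (S.F V θ₂ o)‖ ^ 2 := by
        refine Finset.sum_le_sum fun o _ => Finset.sum_le_sum fun b _ =>
          Finset.sum_le_sum fun c hc => ?_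
        refine le_trans ?_ (S.f_sg hr V (Finset.mem_of_mem_erase hc) _)
        exact Finset.sum_le_sum_of_subset_of_nonneg (Finset.erase_subset _ _)
          (fun _ _ _ => by positivity)
    _ ≤ ∑ o ∈ D, ∑ b, D.card * ‖ent S.X b a' (S.F V θ₂ o)‖ ^ 2 := by
        refine Finset.sum_le_sum fun o _ => Finset.sum_le_sum fun b _ => ?_
        rw [Finset.sum_const, nsmul_eq_mul]
        gcongr
        exact Finset.erase_subset _ _
    _ ≤ ∑ o ∈ D, D.card * ‖S.F V θ₂ o‖ ^ 2 := by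
        refine Finset.sum_le_sum fun o _ => ?_
        rw [← Finset.mul_sum]
        gcongr
        simp only [ent_apply]
        rw [← nsq]
        exact (S.nX hr _).trans (by rw [norm_sg])
    _ ≤ _ := by
        rw [← Finset.mul_sum]
        gcongr
        exact (sum_sub_le D _).trans (sq_le_of_op (S.nF V) _)

lemma bound1a (hr : r ^ 2 ≤ 1) (V : Ω) (θ₁ : HH I K) (a c₀ : I) :
    ∑ o ∈ D, ∑ b, ∑ c ∈ D.erase c₀, ∑ o' ∈ D.erase o,
      ‖S.F V (sg c (S.X ((1 + S.F V * S.X) (sg a (S.F V θ₁ o'))) b)) o‖ ^ 2 ≤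
      D.card * (n ^ 2 * (n ^ 2 * ‖θ₁‖ ^ 2)) := by
  calc _ ≤ ∑ o ∈ D, ∑ b, ∑ c ∈ D.erase c₀, ∑ o' ∈ D,
        ‖S.F V (sg c (S.X ((1 + S.F V * S.X) (sg a (S.F V θ₁ o'))) b)) o‖ ^ 2 := by
        refine Finset.sum_le_sum fun o _ => Finset.sum_le_sum fun b _ =>
          Finset.sum_le_sum fun c hc => ?_
        exact Finset.sum_le_sum_of_subset_of_nonneg (Finset.erase_subset _ _)
          (fun _ _ _ => by positivity)
    _ = ∑ c ∈ D.erase c₀, ∑ o' ∈ D, ∑ b, ∑ o ∈ D,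
        ‖S.F V (sg c (S.X ((1 + S.F V * S.X) (sg a (S.F V θ₁ o'))) b)) o‖ ^ 2 := by
        rw [Finset.sum_comm]
        simp_rw [Finset.sum_comm (s := D) (t := D.erase c₀)]
        rw [Finset.sum_comm]
        refine Finset.sum_congr rfl fun c _ => ?_
        rw [Finset.sum_comm (s := D)]
        refine Finset.sum_congr rfl fun b _ => ?_
        rw [Finset.sum_comm]
    _ ≤ ∑ c ∈ D.erase c₀, ∑ o' ∈ D, n ^ 2 * ‖S.F V θ₁ o'‖ ^ 2 := by
        refine Finset.sum_le_sum fun c hc => Finset.sum_le_sum fun o' _ => ?_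
        refine (Finset.sum_le_sum fun b _ => S.f_sg hr V (Finset.mem_of_mem_erase hc) _).trans ?_
        rw [← nsq]
        refine (S.nX hr _).trans ((S.nG' V _).trans ?_)
        rw [norm_sg]
    _ ≤ _ := by
        rw [Finset.sum_const, nsmul_eq_mul, ← Finset.mul_sum]
        gcongr
        · exact Finset.erase_subset _ _
        · exact (sum_sub_le D _).trans (sq_le_of_op (S.nF V) _)

lemma bound1b (hr : r ^ 2 ≤ 1) (V : Ω) (θ₁ : HH I K) (a c₀ : I) :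
    ∑ o ∈ D, ∑ b, ∑ c ∈ D.erase c₀, ∑ o' ∈ D.erase o,
      ‖(1 + S.F V * S.X) (sg a (S.F V (sg c ((1 + S.X * S.F V) θ₁ b)) o')) o‖ ^ 2 ≤
      D.card * (n ^ 2 * (n ^ 2 * ‖θ₁‖ ^ 2)) := by
  calc _ ≤ ∑ o ∈ D, ∑ b, ∑ c ∈ D.erase c₀, ∑ o' ∈ D,
        ‖(1 + S.F V * S.X) (sg a (S.F V (sg c ((1 + S.X * S.F V) θ₁ b)) o')) o‖ ^ 2 := by
        refine Finset.sum_le_sum fun o _ => Finset.sum_le_sum fun b _ =>
          Finset.sum_le_sum fun c hc => ?_
        exact Finset.sum_le_sum_of_subset_of_nonneg (Finset.erase_subset _ _)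
          (fun _ _ _ => by positivity)
    _ = ∑ c ∈ D.erase c₀, ∑ b, ∑ o' ∈ D, ∑ o ∈ D,
        ‖(1 + S.F V * S.X) (sg a (S.F V (sg c ((1 + S.X * S.F V) θ₁ b)) o')) o‖ ^ 2 := by
        rw [Finset.sum_comm]
        simp_rw [Finset.sum_comm (s := D) (t := D.erase c₀)]
        rw [Finset.sum_comm]
        refine Finset.sum_congr rfl fun c _ => Finset.sum_congr rfl fun b _ => ?_
        rw [Finset.sum_comm]
    _ ≤ ∑ c ∈ D.erase c₀, ∑ b, n ^ 2 * ‖(1 + S.X * S.F V) θ₁ b‖ ^ 2 := by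
        refine Finset.sum_le_sum fun c hc => Finset.sum_le_sum fun b _ => ?_
        refine (Finset.sum_le_sum fun o' _ => (sum_sub_le D _).trans (S.nG' V _)).trans ?_
        rw [← Finset.mul_sum]
        simp only [norm_sg]
        gcongr
        exact S.f_sg hr V (Finset.mem_of_mem_erase hc) _
    _ ≤ _ := by
        rw [Finset.sum_const, nsmul_eq_mul, ← Finset.mul_sum, ← nsq]
        gcongr
        · exact Finset.erase_subset _ _
        · exact S.nG V _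

/-- the decoupling estimate -/
lemma Lnu (hr : r ^ 2 ≤ 1) (hn : 0 < n) (θ₁ θ₂ : HH I K) (a a' c₀ : I) (hc₀ : c₀ ∈ D)
    (h0 : ∀ c ∈ D, c ≠ c₀ → θ₂ c = 0) :
    E.le (fun V => ((D.card : ℝ) - 1) ^ 2 *
        ∑ o ∈ D, (⟪S.F V θ₁ o, S.F V (S.X (sg a' (S.F V θ₂ o))) a⟫_ℂ).re)
      (fun _ => D.card * n ^ 3 * (‖θ₁‖ ^ 2 + ‖θ₂‖ ^ 2)) := by
  have h := Ex.le_sum (E := E) D fun o (_ : o ∈ D) => Ex.le_sum Finset.univ fun b _ =>
    Ex.le_sum (D.erase c₀) fun c hc => Ex.le_sum (D.erase o) fun o' ho' =>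
      (S.stepR θ₁ θ₂ a b o c (Finset.mem_of_mem_erase hc)
        (h0 c (Finset.mem_of_mem_erase hc) (Finset.ne_of_mem_erase hc)) (ent S.X b a')).trans
      (S.stepL θ₁ θ₂ a b o o' c (Finset.mem_of_mem_erase ho')
        (Finset.ne_of_mem_erase ho').symm (ent S.X b a'))
  refine h.mono (fun V => le_of_eq ?_) (fun V => ?_)
  · rw [Finset.mul_sum]
    refine Finset.sum_congr rfl fun o ho => ?_
    have h1 : (1 : ℕ) ≤ D.card := Finset.card_pos.2 ⟨o, ho⟩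
    simp only [Finset.sum_const, nsmul_eq_mul, Finset.card_erase_of_mem ho,
      Finset.card_erase_of_mem hc₀, Nat.cast_sub h1, Nat.cast_one, ← Finset.mul_sum]
    rw [apply_eq_sum (S.F V) (S.X _), inner_sum, Complex.re_sum]
    simp only [ent_apply]
    ring
  · have b2 := S.bound2 hr V θ₂ a' c₀
    have b1a := S.bound1a hr V θ₁ a c₀
    have b1b := S.bound1b hr V θ₁ a c₀
    refine le_trans (Finset.sum_le_sum fun o _ => Finset.sum_le_sum fun b _ =>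
      Finset.sum_le_sum fun c _ => Finset.sum_le_sum fun o' _ =>
        (le_of_eq (Complex.add_re _ _)).trans
        (add_le_add (re_inner_amgm _ _ hn) (re_inner_amgm _ _ hn))) ?_
    simp only [Finset.sum_add_distrib, ← Finset.sum_div, ← Finset.mul_sum]
    have e1 := div_le_div_of_nonneg_right b1a hn.le
    have e2 := div_le_div_of_nonneg_right b1b hn.le
    have e3 := mul_le_mul_of_nonneg_left b2 hn.le
    have e4 : (D.card : ℝ) * (n ^ 2 * (n ^ 2 * ‖θ₁‖ ^ 2)) / n = D.card * n ^ 3 * ‖θ₁‖ ^ 2 := by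
      field_simp
    rw [e4] at e1 e2
    nlinarith

/-- left quadratic identity -/
lemma quadL (θ₁ θ₂ : HH I K) (e a o : I) (ho : o ∈ D) :
    E.le (fun V => (⟪S.F V θ₁ e, S.F V θ₂ a⟫_ℂ).re)
      (fun V => (⟪(1 + S.F V * S.X) (sg a (S.F V θ₁ o)) e, S.F V θ₂ o⟫_ℂ).re) := by
  set C := S.L o a
  have h := C.integ (C.mul (C.mul (S.LFs o a) (C.const (El e 1 o))) (S.LF o a)) θ₁ θ₂
  refine Ex.of_mem h (fun V => ?_)
  simp only [mul_zero, add_zero, ContinuousLinearMap.mul_apply, ContinuousLinearMap.add_apply (f := _ * _),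
    El_apply, ContinuousLinearMap.neg_apply, S.G'_sg V ho, map_zero,
    ContinuousLinearMap.one_apply, inner_add_right, inner_neg_right, inner_star_right,
    inner_sg_right, sg_same, inner_zero_right, HH.neg_apply, map_neg, inner_star_co]
  ring

/-- second moments -/
lemma Qest (hr : r ^ 2 ≤ 1) (hn : 0 < n) {κ : ℝ} (hd : 2 ≤ D.card)
    (hκ : 2 * D.card * n ^ 3 ≤ κ * ((D.card : ℝ) - 1) ^ 2)
    (θ₁ θ₂ : HH I K) (e a c₀ : I) (hc₀ : c₀ ∈ D) (h0 : ∀ c ∈ D, c ≠ c₀ → θ₁ c = 0) :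
    E.le (fun V => D.card * (⟪S.F V θ₁ e, S.F V θ₂ a⟫_ℂ).re)
      (fun _ => ((if e = a then 1 else 0) + κ) * ((‖θ₁‖ ^ 2 + ‖θ₂‖ ^ 2) / 2)) := by
  have hD : D.Nonempty := ⟨c₀, hc₀⟩
  have hd' : (0 : ℝ) < ((D.card : ℝ) - 1) ^ 2 := by
    have : (2 : ℝ) ≤ D.card := by exact_mod_cast hd
    have : (0 : ℝ) < (D.card : ℝ) - 1 := by linarith
    positivity
  have h1 := Ex.le_sum (E := E) D fun o (ho : o ∈ D) => S.quadL θ₁ θ₂ e a o ho
  have h2 := (S.Lnu hr hn θ₂ θ₁ e a c₀ hc₀ h0).smul (c := (((D.card : ℝ) - 1) ^ 2)⁻¹)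
    (by positivity)
  have h3 := (((S.mean_q hr hD θ₁).add (S.mean_q hr hD θ₂)).smul
    (c := (if e = a then 1 else 0) / 2) (by split_ifs <;> norm_num)).add h2
  refine (h1.mono (fun V => le_of_eq (by simp)) (fun V => ?_)).trans
    (h3.mono (fun _ => le_rfl) fun V => ?_)
  · rw [← mul_assoc, inv_mul_cancel₀ hd'.ne', one_mul]
    simp only [ContinuousLinearMap.add_apply, ContinuousLinearMap.one_apply,
      ContinuousLinearMap.mul_apply, HH.add_apply, inner_add_left, Complex.add_re,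
      Finset.sum_add_distrib]
    refine add_le_add ?_ (le_of_eq (Finset.sum_congr rfl fun o _ => re_inner_comm _ _))
    by_cases hea : e = a
    · subst hea
      simp only [sg_same, if_true]
      rw [← Complex.re_sum, ← inner_qD, ← inner_qD_qD]
      have := re_inner_amgm (qD K D (S.F V θ₁)) (qD K D (S.F V θ₂)) one_pos
      linarith
    · simp [sg_ne hea, hea]
  · have : (((D.card : ℝ) - 1) ^ 2)⁻¹ * (D.card * n ^ 3 * (‖θ₂‖ ^ 2 + ‖θ₁‖ ^ 2)) ≤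
        κ * ((‖θ₁‖ ^ 2 + ‖θ₂‖ ^ 2) / 2) := by
      rw [inv_mul_le_iff₀ hd']
      have : 0 ≤ ‖θ₁‖ ^ 2 + ‖θ₂‖ ^ 2 := by positivity
      nlinarith
    linarith

end Sys

end Crest.Agent.H0164
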