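import Crest.Agent.H0164.B2

set_option autoImplicit false

namespace Crest.Agent.H0164

open scoped InnerProductSpace BigOperators

section emb
variable {K : Type*} [NormedAddCommGroup K] [InnerProductSpace ℂ K]
variable {I : Type} [Fintype I] [DecidableEq I] {J : Type} [Fintype J]

/-- diagonal operator -/
noncomputable def dg (I : Type) [Fintype I] [DecidableEq I] (Y : K →L[ℂ] K) :
    HH I K →L[ℂ] HH I K := ∑ a, El a Y a

@[simp] lemma dg_apply (Y : K →L[ℂ] K) (v : HH I K) (a : I) : dg I Y v a = Y (v a) := by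
  simp only [dg, ContinuousLinearMap.sum_apply, HH_sum_apply, El_apply, sg_apply]
  simp

lemma dg_sg (Y : K →L[ℂ] K) (c : I) (ξ : K) : dg I Y (sg c ξ) = sg c (Y ξ) := by
  ext a; simp only [dg_apply, sg_apply]; split_ifs <;> simp

lemma dg_qD (Y : K →L[ℂ] K) (D : Finset I) (v : HH I K) :
    dg I Y (qD K D v) = qD K D (dg I Y v) := by
  ext a; simp only [dg_apply, qD_apply]; split_ifs <;> simp

lemma norm_dg {Y : K →L[ℂ] K} (hY : ‖Y‖ ≤ 1) (v : HH I K) : ‖dg I Y v‖ ^ 2 ≤ ‖v‖ ^ 2 := by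
  rw [nsq, nsq]
  refine Finset.sum_le_sum fun a _ => ?_
  simpa using sq_le_of_op hY (v a)

lemma inner_dg [CompleteSpace K] (Y : K →L[ℂ] K) (v w : HH I K) :
    ⟪v, dg I Y w⟫_ℂ = ⟪dg I (star Y) v, w⟫_ℂ := by
  simp only [HH.inner_apply, dg_apply, inner_star_left]

/-- embedding of a block -/
noncomputable def emb (ι : J → I) : HH J K →L[ℂ] HH I K := ∑ j, (sg (ι j)) ∘L pr j

lemma emb_def (ι : J → I) (ζ : HH J K) : emb ι ζ = ∑ j, sg (ι j) (ζ j) := by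
  simp [emb]

lemma inner_emb (ι : J → I) (η : HH J K) (v : HH I K) :
    ⟪emb ι η, v⟫_ℂ = ∑ j, ⟪η j, v (ι j)⟫_ℂ := by
  simp only [emb_def, sum_inner, inner_sg_left]

lemma emb_apply {ι : J → I} (hι : Function.Injective ι) (ζ : HH J K) (j : J) :
    emb ι ζ (ι j) = ζ j := by
  rw [emb_def, HH_sum_apply, Finset.sum_eq_single j]
  · simp
  · intro k _ hk; exact sg_ne (fun h => hk (hι h).symm) _
  · simp

lemma emb_out {ι : J → I} (ζ : HH J K) {c : I} (hc : ∀ j, ι j ≠ c) : emb ι ζ c = 0 := by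
  rw [emb_def, HH_sum_apply]
  exact Finset.sum_eq_zero fun j _ => sg_ne (hc j).symm _

lemma norm_emb {ι : J → I} (hι : Function.Injective ι) (ζ : HH J K) :
    ‖emb ι ζ‖ ^ 2 = ‖ζ‖ ^ 2 := by
  rw [← re_inner_self, inner_emb, ← re_inner_self, HH.inner_apply]
  simp only [emb_apply hι]

end emb

namespace Sys
variable {Ω : Type*} {E : Ex Ω} {K : Type*} [NormedAddCommGroup K] [InnerProductSpace ℂ K]
  [CompleteSpace K] {I : Type} [Fintype I] [DecidableEq I] {D : Finset I} {n r : ℝ}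
  (S : Sys E K D n r)

lemma H2 (hr : r ^ 2 ≤ 1) (hn : 0 < n) {κ δ : ℝ} (hd : 2 ≤ D.card)
    (hκ : 2 * D.card * n ^ 3 ≤ κ * ((D.card : ℝ) - 1) ^ 2)
    (h1 : (1 - r ^ 2) * (Dᶜ.card * (1 + κ)) ≤ δ ^ 2 * D.card)
    (θ : HH I K) (c₀ : I) (hc₀ : c₀ ∈ D) (h0 : ∀ c ∈ D, c ≠ c₀ → θ c = 0) :
    E.le (fun V => (1 - r ^ 2) * ‖qD K Dᶜ (S.F V θ)‖ ^ 2) (fun _ => δ ^ 2 * ‖θ‖ ^ 2) := by
  have hd' : (0 : ℝ) < D.card := by exact_mod_cast (by omega : 0 < D.card)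
  have h := (Ex.le_sum (E := E) Dᶜ fun a _ =>
    S.Qest hr hn hd hκ θ θ a a c₀ hc₀ h0).smul (c := (1 - r ^ 2) / D.card)
    (div_nonneg (by linarith) hd'.le)
  refine h.mono (fun V => le_of_eq ?_) (fun V => ?_)
  · rw [← Finset.mul_sum, norm_qD]
    simp only [re_inner_self]
    field_simp
  · simp only [if_true, Finset.sum_const, nsmul_eq_mul]
    rw [div_mul_eq_mul_div, div_le_iff₀ hd']
    have : 0 ≤ ‖θ‖ ^ 2 := by positivity
    nlinarith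

variable {T J : Type} [Fintype T] [Fintype J]

lemma Lam (hr : r ^ 2 ≤ 1) (hn : 0 < n) {κ δ : ℝ} (hd : 2 ≤ D.card)
    (hκ : 2 * D.card * n ^ 3 ≤ κ * ((D.card : ℝ) - 1) ^ 2)
    (idx : T → J → I) (hinj : ∀ s j s' j', idx s j = idx s' j' → s = s' ∧ j = j')
    (hout : ∀ s j, idx s j ∉ D)
    (h2 : Fintype.card J * (Fintype.card T + (Fintype.card T) ^ 2 * κ) ≤
      (Fintype.card T) ^ 2 * δ ^ 2 * D.card)
    (ζ : HH J K) :
    E.le (fun V => ∑ j, ‖∑ s, S.F V (emb (idx s) ζ) (idx s j)‖ ^ 2)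
      (fun _ => (Fintype.card T) ^ 2 * δ ^ 2 * ‖ζ‖ ^ 2) := by
  classical
  have hd' : (0 : ℝ) < D.card := by exact_mod_cast (by omega : 0 < D.card)
  obtain ⟨c₀, hc₀⟩ : D.Nonempty := Finset.card_pos.1 (by omega)
  have hi : ∀ s, Function.Injective (idx s) := fun s j j' h => (hinj _ _ _ _ h).2
  have h := (Ex.le_sum (E := E) Finset.univ fun j _ => Ex.le_sum Finset.univ fun s _ =>
    Ex.le_sum Finset.univ fun s' _ =>
    S.Qest hr hn hd hκ (emb (idx s) ζ) (emb (idx s') ζ) (idx s j) (idx s' j) c₀ hc₀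
      (fun c hc _ => emb_out ζ (fun j h => hout s j (h ▸ hc)))).smul (c := 1 / D.card)
    (by positivity)
  refine h.mono (fun V => le_of_eq ?_) (fun V => ?_)
  · simp only [← Finset.mul_sum]
    rw [← mul_assoc, one_div, inv_mul_cancel₀ hd'.ne', one_mul]
    refine Finset.sum_congr rfl fun j _ => ?_
    rw [← re_inner_self, sum_inner, Complex.re_sum]
    refine Finset.sum_congr rfl fun s _ => ?_
    rw [inner_sum, Complex.re_sum]
  · have hiff : ∀ s s' j, (idx s j = idx s' j) = (s = s') := fun s s' j =>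
      propext ⟨fun h => (hinj _ _ _ _ h).1, fun h => h ▸ rfl⟩
    simp only [hiff, norm_emb (hi _), ← Finset.sum_mul, Finset.sum_add_distrib,
      Finset.sum_ite_eq, Finset.mem_univ, if_true, Finset.sum_const, nsmul_eq_mul,
      Finset.card_univ]
    rw [div_mul_eq_mul_div, div_le_iff₀ hd']
    have : 0 ≤ ‖ζ‖ ^ 2 := by positivity
    nlinarith

lemma SD1 (C : HH I K →L[ℂ] HH I K) (η : K) (θ : HH I K) (b c : I) (hc : c ∈ D) :
    E.le (fun V => (⟪S.F V (sg c η), C (S.F V (sg c ((1 + S.X * S.F V) θ b)))⟫_ℂ).re)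
      (fun V => (⟪S.F V (sg b η), C (S.F V θ)⟫_ℂ).re) := by
  set R := S.R c b
  have h := R.integ (R.mul (R.mul (S.RFs c b) (R.const C)) (S.RF c b)) (sg c η) θ
  refine Ex.of_mem h (fun V => ?_)
  simp only [mul_zero, add_zero, ContinuousLinearMap.mul_apply, ContinuousLinearMap.add_apply (f := _ * _),
    El_apply, ContinuousLinearMap.neg_apply, S.G_D V hc, map_zero,
    ContinuousLinearMap.one_apply, inner_add_right, inner_neg_right, inner_star_right,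
    inner_sg_right, sg_same, inner_zero_right, HH.neg_apply, map_neg, inner_star_co]
  ring

lemma termA (hr : r ^ 2 ≤ 1) {Y : K →L[ℂ] K} (hY : ‖Y‖ ≤ 1) {g δ : ℝ} (hg : 0 ≤ g) (hδ : 0 < δ)
    (V : Ω)
    (hf : ∀ v, ‖dg I Y (qD K D (S.F V (qD K D v))) - qD K D (S.F V (qD K D (dg I Y v)))‖
      ≤ g * ‖v‖) {c : I} (hc : c ∈ D) (η ζ : K) :
    (⟪η, Y ζ⟫_ℂ).re ≤ (⟪qD K D (S.F V (sg c η)), dg I Y (qD K D (S.F V (sg c ζ)))⟫_ℂ).re +
      g * ((‖η‖ ^ 2 + ‖ζ‖ ^ 2) / 2) +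
      ((1 - r ^ 2) * ‖qD K Dᶜ (S.F V (sg c η))‖ ^ 2 / δ + δ * ‖ζ‖ ^ 2) / 2 := by
  have e1 := congrArg Complex.re (S.energy V (sg c η) (sg c (Y ζ)))
  rw [inner_sg_left c η (S.X _), inner_sg_right c (Y ζ) (S.X _), S.X_D hc, S.X_D hc,
    inner_sg_left, sg_same] at e1
  simp only [inner_zero_right, inner_zero_left, add_zero, Complex.add_re,
    Complex.re_ofReal_mul] at e1
  have e2 := hf (sg c ζ)
  rw [dg_sg, qD_sg hc, qD_sg hc, norm_sg] at e2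
  set A := qD K D (S.F V (sg c η))
  set B := qD K D (S.F V (sg c ζ))
  set B' := qD K D (S.F V (sg c (Y ζ)))
  set P := qD K Dᶜ (S.F V (sg c η))
  set P' := qD K Dᶜ (S.F V (sg c (Y ζ)))
  have hA : ‖A‖ ^ 2 ≤ ‖η‖ ^ 2 := by rw [norm_qD]; exact S.f_sg hr V hc η
  have hA' : ‖A‖ ≤ ‖η‖ := le_of_sq_le_sq hA (norm_nonneg _)
  have e3 : (⟪A, B'⟫_ℂ).re ≤ (⟪A, dg I Y B⟫_ℂ).re + g * ((‖η‖ ^ 2 + ‖ζ‖ ^ 2) / 2) := by
    have h1 := re_inner_le A (B' - dg I Y B)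
    rw [inner_sub_right, Complex.sub_re, norm_sub_rev] at h1
    have h2 : ‖A‖ * ‖dg I Y B - B'‖ ≤ ‖η‖ * (g * ‖ζ‖) :=
      mul_le_mul hA' e2 (norm_nonneg _) (norm_nonneg _)
    have h3 : ‖η‖ * ‖ζ‖ ≤ (‖η‖ ^ 2 + ‖ζ‖ ^ 2) / 2 := by nlinarith [sq_nonneg (‖η‖ - ‖ζ‖)]
    nlinarith
  have e4 : (1 - r ^ 2) * ‖P'‖ ^ 2 ≤ ‖ζ‖ ^ 2 := by
    have h := S.energy_q V (sg c (Y ζ))
    rw [qD_sg hc, norm_sg] at h
    have h2 := sq_le_of_op hY ζ
    nlinarith [sq_nonneg ‖B'‖]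
  have e5 := mul_le_mul_of_nonneg_left (re_inner_amgm P P' hδ) (by linarith : 0 ≤ 1 - r ^ 2)
  have e6 : (1 - r ^ 2) * ((‖P‖ ^ 2 / δ + δ * ‖P'‖ ^ 2) / 2) =
      ((1 - r ^ 2) * ‖P‖ ^ 2 / δ + δ * ((1 - r ^ 2) * ‖P'‖ ^ 2)) / 2 := by ring
  have e7 := mul_le_mul_of_nonneg_left e4 hδ.le
  linarith

lemma termB (hr : r ^ 2 ≤ 1) {Y : K →L[ℂ] K} (hY : ‖Y‖ ≤ 1) {t : ℝ} (ht : 0 < t)
    (V : Ω) {c : I} (hc : c ∈ D) (η w : K) :
    0 ≤ (⟪qD K D (S.F V (sg c η)), dg I Y (qD K D (S.F V (sg c w)))⟫_ℂ).re +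
      (‖w‖ ^ 2 / t + t * ‖η‖ ^ 2) / 2 := by
  set A := qD K D (S.F V (sg c η))
  set B := qD K D (S.F V (sg c w))
  have hA : ‖A‖ ^ 2 ≤ ‖η‖ ^ 2 := by rw [norm_qD]; exact S.f_sg hr V hc η
  have hB : ‖B‖ ^ 2 ≤ ‖w‖ ^ 2 := by rw [norm_qD]; exact S.f_sg hr V hc w
  have h := re_inner_amgm (-(dg I Y B)) A ht
  rw [inner_neg_left, Complex.neg_re, re_inner_comm, norm_neg] at h
  have h2 := div_le_div_of_nonneg_right ((norm_dg hY B).trans hB) ht.le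
  have h3 := mul_le_mul_of_nonneg_left hA ht.le
  linarith

lemma H3 (hr : r ^ 2 ≤ 1) (hn : 0 < n) {κ δ g : ℝ} (hd : 2 ≤ D.card) (hg : 0 ≤ g) (hδ : 0 < δ)
    (hκ : 2 * D.card * n ^ 3 ≤ κ * ((D.card : ℝ) - 1) ^ 2)
    (idx : T → J → I) (hinj : ∀ s j s' j', idx s j = idx s' j' → s = s' ∧ j = j')
    (hout : ∀ s j, idx s j ∉ D) (hT : 0 < Fintype.card T)
    (h1 : (1 - r ^ 2) * (Dᶜ.card * (1 + κ)) ≤ δ ^ 2 * D.card)
    (h2 : Fintype.card J * (Fintype.card T + (Fintype.card T) ^ 2 * κ) ≤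
      (Fintype.card T) ^ 2 * δ ^ 2 * D.card)
    [DecidableEq J] {Y : K →L[ℂ] K} (hY : ‖Y‖ ≤ 1)
    (hf : ∀ V v, ‖dg I Y (qD K D (S.F V (qD K D v))) - qD K D (S.F V (qD K D (dg I Y v)))‖
      ≤ g * ‖v‖)
    (W : HH J K →L[ℂ] HH J K) (hW : ‖W‖ ≤ 1)
    (hXW : ∀ s η, star S.X (emb (idx s) η) = emb (idx s) (star W η))
    (η ζ : HH J K) :
    E.le (fun _ => Fintype.card T * (⟪η, dg J Y ζ⟫_ℂ).re)
      (fun V => ∑ s, (⟪qD K D (S.F V (emb (idx s) η)),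
        dg I Y (qD K D (S.F V (emb (idx s) ζ)))⟫_ℂ).re +
        Fintype.card T * ((g + 2 * δ) * ((‖η‖ ^ 2 + ‖ζ‖ ^ 2) / 2))) := by
  have hd' : (0 : ℝ) < D.card := by exact_mod_cast (by omega : 0 < D.card)
  have hN : (0 : ℝ) < Fintype.card T := by exact_mod_cast hT
  set N : ℝ := (Fintype.card T : ℝ) with hNdef
  have hi : ∀ s, Function.Injective (idx s) := fun s j j' h => (hinj _ _ _ _ h).2
  set C := qD K D * dg I Y * qD K D with hC
  have hCi : ∀ v w, ⟪v, C w⟫_ℂ = ⟪qD K D v, dg I Y (qD K D w)⟫_ℂ := fun v w => by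
    rw [inner_qD_move]; rfl
  have a1 := Ex.le_sum (E := E) D fun c (hc : c ∈ D) => Ex.le_sum Finset.univ fun j _ =>
    Ex.le_sum Finset.univ fun s _ => S.SD1 C (η j) (emb (idx s) ζ) (idx s j) c hc
  have a2 := (Ex.le_sum (E := E) D fun c (hc : c ∈ D) => Ex.le_sum Finset.univ fun j _ =>
    S.H2 hr hn hd hκ h1 (sg c (η j)) c hc (fun c' _ h => sg_ne h _)).smul (c := N / δ / 2)
    (by positivity)
  have a3 := (S.Lam hr hn hd hκ idx hinj hout h2 ζ).smul (c := D.card / (N * δ) / 2)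
    (by positivity)
  have a4 := (((a1.add a2).add a3).add (Ex.of_le (E := E) (β := fun _ =>
    D.card * (N * (g * ((‖η‖ ^ 2 + ‖ζ‖ ^ 2) / 2) + δ * ((‖η‖ ^ 2 + ‖ζ‖ ^ 2) / 2))))
    (fun _ => le_rfl))).smul (c := 1 / D.card) (by positivity)
  refine a4.mono (fun V => ?_) (fun V => le_of_eq ?_)
  · rw [div_mul_eq_mul_div, le_div_iff₀ hd', one_mul]
    -- the block structure
    set Λ : HH J K := HH.mk fun j => ∑ s, S.F V (emb (idx s) ζ) (idx s j) with hΛ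
    have hw : ∀ j, ∑ s, S.X (S.F V (emb (idx s) ζ)) (idx s j) = W Λ j := by
      intro j
      apply ext_inner_left ℂ
      intro ξ
      have e : ∀ s (v : HH I K), ⟪ξ, v (idx s j)⟫_ℂ = ⟪emb (idx s) (sg j ξ), v⟫_ℂ := by
        intro s v
        rw [inner_emb, Finset.sum_eq_single j]
        · simp
        · intro k _ hk; simp [sg_ne hk]
        · simp
      rw [inner_sum, ← inner_sg_left, ← inner_star_left, HH.inner_apply]
      simp only [e, ← inner_star_left S.X, hXW]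
      simp only [inner_emb, hΛ, HH.mk_apply, inner_sum]
      rw [Finset.sum_comm]
    have hWΛ : ∑ j, ‖W Λ j‖ ^ 2 ≤ ∑ j, ‖∑ s, S.F V (emb (idx s) ζ) (idx s j)‖ ^ 2 := by
      rw [← nsq]
      refine (sq_le_of_op hW Λ).trans (le_of_eq ?_)
      rw [nsq]; simp [hΛ]
    have key : ∀ c ∈ D, ∀ j, N * (⟪η j, Y (ζ j)⟫_ℂ).re ≤
        ∑ s, (⟪S.F V (sg c (η j)),
          C (S.F V (sg c ((1 + S.X * S.F V) (emb (idx s) ζ) (idx s j))))⟫_ℂ).re +
        N / δ / 2 * ((1 - r ^ 2) * ‖qD K Dᶜ (S.F V (sg c (η j)))‖ ^ 2) +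
        1 / (N * δ) / 2 * ‖W Λ j‖ ^ 2 +
        N * (g * ((‖η j‖ ^ 2 + ‖ζ j‖ ^ 2) / 2) + δ * ((‖η j‖ ^ 2 + ‖ζ j‖ ^ 2) / 2)) := by
      intro c hc j
      have e : ∑ s, (⟪S.F V (sg c (η j)),
          C (S.F V (sg c ((1 + S.X * S.F V) (emb (idx s) ζ) (idx s j))))⟫_ℂ).re =
          N * (⟪S.F V (sg c (η j)), C (S.F V (sg c (ζ j)))⟫_ℂ).re +
          (⟪S.F V (sg c (η j)), C (S.F V (sg c (W Λ j)))⟫_ℂ).re := by
        rw [← hw]
        simp only [ContinuousLinearMap.add_apply, ContinuousLinearMap.one_apply,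
          ContinuousLinearMap.mul_apply (f := S.X), HH.add_apply, emb_apply (hi _), map_add,
          inner_add_right,
          Complex.add_re, Finset.sum_add_distrib, Finset.sum_const, Finset.card_univ,
          nsmul_eq_mul, map_sum, inner_sum, Complex.re_sum, hNdef]
      rw [e, hCi, hCi]
      have t1 := mul_le_mul_of_nonneg_left (S.termA hr hY hg hδ V (hf V) hc (η j) (ζ j)) hN.le
      have t2 := S.termB hr hY (mul_pos hN hδ) V hc (η j) (W Λ j)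
      have : N * (((1 - r ^ 2) * ‖qD K Dᶜ (S.F V (sg c (η j)))‖ ^ 2 / δ + δ * ‖ζ j‖ ^ 2) / 2) +
          (‖W Λ j‖ ^ 2 / (N * δ) + N * δ * ‖η j‖ ^ 2) / 2 =
          N / δ / 2 * ((1 - r ^ 2) * ‖qD K Dᶜ (S.F V (sg c (η j)))‖ ^ 2) +
          1 / (N * δ) / 2 * ‖W Λ j‖ ^ 2 + N * (δ * ((‖η j‖ ^ 2 + ‖ζ j‖ ^ 2) / 2)) := by ring
      linarith
    have key2 := Finset.sum_le_sum fun c hc => Finset.sum_le_sum fun j (_ : j ∈ Finset.univ) =>
      key c hc j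
    simp only [Finset.sum_add_distrib, ← Finset.mul_sum, ← Finset.sum_div, ← nsq,
      Finset.sum_const, nsmul_eq_mul] at key2
    rw [HH.inner_apply, Complex.re_sum]
    simp only [dg_apply, ← Finset.mul_sum]
    rw [← nsq] at hWΛ
    have h5 := mul_le_mul_of_nonneg_left hWΛ (by positivity : (0:ℝ) ≤ D.card / (N * δ) / 2)
    have h6 : (D.card : ℝ) * (1 / (N * δ) / 2 * ‖W Λ‖ ^ 2) = D.card / (N * δ) / 2 * ‖W Λ‖ ^ 2 := by
      ring
    linarith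
  · have e : ∀ s, ∑ j, (⟪S.F V (sg (idx s j) (η j)), C (S.F V (emb (idx s) ζ))⟫_ℂ).re =
        (⟪qD K D (S.F V (emb (idx s) η)), dg I Y (qD K D (S.F V (emb (idx s) ζ)))⟫_ℂ).re := by
      intro s
      rw [← hCi, emb_def (idx s) η, map_sum, sum_inner, Complex.re_sum]
    rw [Finset.sum_const, Finset.sum_comm]
    simp only [e, norm_sg, ← Finset.mul_sum, ← nsq, Finset.sum_const, nsmul_eq_mul]
    field_simp
    ring

end Sys

end Crest.Agent.H0164
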