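import Crest.Agent.H0164.B3

set_option autoImplicit false

namespace Crest.Agent.H0164

open scoped InnerProductSpace BigOperators

namespace Sys
variable {Ω : Type*} {E : Ex Ω} {K : Type*} [NormedAddCommGroup K] [InnerProductSpace ℂ K]
  [CompleteSpace K] {I : Type} [Fintype I] [DecidableEq I] {D : Finset I} {n r : ℝ}
  (S : Sys E K D n r)

lemma swap_F (V : Ω) : S.swap.F V = star (S.F V) := rfl
lemma swap_X : S.swap.X = star S.X := rfl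

/-- the key pointwise inequality -/
lemma pointwise (hr : r ^ 2 ≤ 1) {Y : K →L[ℂ] K} (hY : ‖Y‖ ≤ 1) {g δ : ℝ} (hg : 0 ≤ g)
    (hδ : 0 < δ) (V : Ω)
    (hf : ∀ v, ‖dg I Y (qD K D (S.F V (qD K D v))) - qD K D (S.F V (qD K D (dg I Y v)))‖
      ≤ g * ‖v‖) (η ζ : HH I K) (hη : qD K D η = 0) (hζ : qD K D ζ = 0) :
    (⟪qD K D (S.F V η), dg I Y (qD K D (S.F V (S.X ζ)))⟫_ℂ).re +
      (⟪qD K D (star (S.F V) (-(star S.X η))), dg I Y (qD K D (star (S.F V) ζ))⟫_ℂ).re ≤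
      (g + δ) / 2 * (‖qD K D (S.F V η)‖ ^ 2 + ‖qD K D (star (S.F V) ζ)‖ ^ 2) +
      1 / δ / 2 * ((1 - r ^ 2) * ‖qD K Dᶜ (S.F V η)‖ ^ 2 +
        (1 - r ^ 2) * ‖qD K Dᶜ (star (S.F V) ζ)‖ ^ 2) := by
  set α := qD K D (S.F V η) with hα
  set β := qD K D (star (S.F V) ζ) with hβ
  set v := qD K D (dg I (star Y) α) with hv
  set w := qD K D (dg I Y β) with hw
  have hs : 0 ≤ 1 - r ^ 2 := by linarith
  have hβq : qD K D β = β := qD_qD _ _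
  have A := congrArg Complex.re (S.swap.energy V v ζ)
  have B := congrArg Complex.re (S.energy V η w)
  rw [swap_F, swap_X] at A
  have A1 : ⟪v, ζ⟫_ℂ = 0 := by rw [hv, inner_qD_move, hζ, inner_zero_right]
  have A2 : ⟪v, star S.X (star (S.F V) ζ)⟫_ℂ = 0 := by
    rw [inner_star_right, hv, S.X_qD, inner_zero_left]
  have A3 : ⟪star S.X (star (S.F V) v), ζ⟫_ℂ = ⟪α, dg I Y (qD K D (S.F V (S.X ζ)))⟫_ℂ := by
    rw [inner_star_left, inner_star_left, hv, inner_qD_move, inner_dg]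
  have A4 : ⟪qD K D (star (S.F V) v), qD K D (star (S.F V) ζ)⟫_ℂ =
      ⟪α, dg I Y (qD K D (S.F V (qD K D β)))⟫_ℂ := by
    rw [inner_qD_qD, inner_star_left, ← hβ, hβq, hv, inner_qD_move, inner_dg]
  rw [A1, A2, A3, A4] at A
  have B1 : ⟪η, w⟫_ℂ = 0 := by rw [hw, ← inner_qD_move, hη, inner_zero_left]
  have B2 : ⟪S.X (S.F V η), w⟫_ℂ = 0 := by rw [hw, ← inner_qD_move, S.qD_X, inner_zero_left]
  have B3 : ⟪η, S.X (S.F V w)⟫_ℂ = -⟪qD K D (star (S.F V) (-(star S.X η))), dg I Y β⟫_ℂ := by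
    rw [map_neg, map_neg, inner_neg_left, neg_neg, inner_qD_move, ← hw, inner_star_left,
      inner_star_left]
  rw [B1, B2, B3, ← hα] at B
  simp only [Complex.add_re, Complex.re_ofReal_mul, Complex.zero_re, Complex.neg_re] at A B
  have C1 := re_inner_le α (dg I Y (qD K D (S.F V (qD K D β))) - qD K D (S.F V w))
  rw [inner_sub_right, Complex.sub_re] at C1
  have C2 := mul_le_mul_of_nonneg_left (hf β) (norm_nonneg α)
  rw [← hw] at C2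
  have C3 : ‖α‖ * (g * ‖β‖) ≤ g / 2 * (‖α‖ ^ 2 + ‖β‖ ^ 2) := by
    nlinarith [mul_nonneg hg (sq_nonneg (‖α‖ - ‖β‖))]
  have D1 : (1 - r ^ 2) * ‖qD K Dᶜ (star (S.F V) v)‖ ^ 2 ≤ ‖α‖ ^ 2 := by
    have h := S.swap.energy_q V (dg I (star Y) α)
    rw [swap_F, ← hv] at h
    have h2 : ‖v‖ ^ 2 ≤ ‖α‖ ^ 2 :=
      (pow_le_pow_left₀ (norm_nonneg _) (norm_qD_le _ _) 2).trans
        (norm_dg (by rwa [norm_star]) α)
    nlinarith [sq_nonneg ‖qD K D (star (S.F V) v)‖]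
  have D2 : (1 - r ^ 2) * ‖qD K Dᶜ (S.F V w)‖ ^ 2 ≤ ‖β‖ ^ 2 := by
    have h := S.energy_q V (dg I Y β)
    rw [← hw] at h
    have h2 : ‖w‖ ^ 2 ≤ ‖β‖ ^ 2 :=
      (pow_le_pow_left₀ (norm_nonneg _) (norm_qD_le _ _) 2).trans (norm_dg hY β)
    nlinarith [sq_nonneg ‖qD K D (S.F V w)‖]
  have E1 := mul_le_mul_of_nonneg_left (re_inner_amgm (qD K Dᶜ (star (S.F V) ζ))
    (qD K Dᶜ (star (S.F V) v)) hδ) hs
  rw [re_inner_comm] at E1
  have E2 := mul_le_mul_of_nonneg_left (re_inner_amgm (-(qD K Dᶜ (S.F V η)))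
    (qD K Dᶜ (S.F V w)) hδ) hs
  rw [inner_neg_left, Complex.neg_re, norm_neg] at E2
  have E3 := mul_le_mul_of_nonneg_left D1 hδ.le
  have E4 := mul_le_mul_of_nonneg_left D2 hδ.le
  have e1 : ∀ a b : ℝ, (1 - r ^ 2) * ((a / δ + δ * b) / 2) =
      1 / δ / 2 * ((1 - r ^ 2) * a) + δ * ((1 - r ^ 2) * b) / 2 := fun a b => by ring
  rw [e1] at E1 E2
  nlinarith

variable {T J : Type} [Fintype T] [Fintype J]

theorem core (hr : r ^ 2 ≤ 1) (hn : 0 < n) {κ δ g : ℝ} (hd : 2 ≤ D.card) (hg : 0 ≤ g)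
    (hδ : 0 < δ) (hκ : 2 * D.card * n ^ 3 ≤ κ * ((D.card : ℝ) - 1) ^ 2)
    (idx : T → J → I) (hinj : ∀ s j s' j', idx s j = idx s' j' → s = s' ∧ j = j')
    (hout : ∀ s j, idx s j ∉ D) (hT : 0 < Fintype.card T)
    (h1 : (1 - r ^ 2) * (Dᶜ.card * (1 + κ)) ≤ δ ^ 2 * D.card)
    (h2 : Fintype.card J * (Fintype.card T + (Fintype.card T) ^ 2 * κ) ≤
      (Fintype.card T) ^ 2 * δ ^ 2 * D.card)
    [DecidableEq J] {Y : K →L[ℂ] K} (hY : ‖Y‖ ≤ 1)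
    (hf : ∀ V v, ‖dg I Y (qD K D (S.F V (qD K D v))) - qD K D (S.F V (qD K D (dg I Y v)))‖
      ≤ g * ‖v‖)
    (hf' : ∀ V v, ‖dg I Y (qD K D (star (S.F V) (qD K D v))) -
      qD K D (star (S.F V) (qD K D (dg I Y v)))‖ ≤ g * ‖v‖)
    (W : HH J K →L[ℂ] HH J K) (hW : ‖W‖ ≤ 1)
    (hXW : ∀ s η, star S.X (emb (idx s) η) = emb (idx s) (star W η))
    (hXW' : ∀ s η, S.X (emb (idx s) η) = emb (idx s) (W η))
    (η ζ : HH J K) :
    (⟪η, dg J Y (W ζ) - W (dg J Y ζ)⟫_ℂ).re ≤ (3 * g + 6 * δ) * ((‖η‖ ^ 2 + ‖ζ‖ ^ 2) / 2) := by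
  have hN : (0 : ℝ) < Fintype.card T := by exact_mod_cast hT
  have hi : ∀ s, Function.Injective (idx s) := fun s j j' h => (hinj _ _ _ _ h).2
  obtain ⟨c₀, hc₀⟩ : D.Nonempty := Finset.card_pos.1 (by omega)
  have hout' : ∀ s (ξ : HH J K), ∀ c ∈ D, emb (idx s) ξ c = 0 := fun s ξ c hc =>
    emb_out ξ (fun j h => hout s j (h ▸ hc))
  have hq : ∀ s (ξ : HH J K), qD K D (emb (idx s) ξ) = 0 := fun s ξ => by
    ext a; rw [qD_apply]; split_ifs with h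
    · exact hout' s ξ a h
    · rfl
  have a1 := S.H3 hr hn hd hg hδ hκ idx hinj hout hT h1 h2 hY hf W hW hXW η (W ζ)
  have a2 := S.swap.H3 hr hn hd hg hδ hκ idx hinj hout hT h1 h2 hY hf' (star W)
    (by rwa [norm_star]) (fun s η => by rw [swap_X, star_star, star_star, hXW']) (-(star W η)) ζ
  have a3 := Ex.le_sum (E := E) Finset.univ fun s (_ : s ∈ Finset.univ) =>
    (((S.mean_q hr ⟨c₀, hc₀⟩ (emb (idx s) η)).add
      (S.swap.mean_q hr ⟨c₀, hc₀⟩ (emb (idx s) ζ))).smul (c := (g + δ) / 2) (by positivity)).add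
    (((S.H2 hr hn hd hκ h1 (emb (idx s) η) c₀ hc₀ (fun c hc _ => hout' s η c hc)).add
      (S.swap.H2 hr hn hd hκ h1 (emb (idx s) ζ) c₀ hc₀ (fun c hc _ => hout' s ζ c hc))).smul
      (c := 1 / δ / 2) (by positivity))
  set M : ℝ := (Fintype.card T : ℝ) * ((g + 2 * δ) * ((‖η‖ ^ 2 + ‖ζ‖ ^ 2) / 2)) with hM
  have a4 := ((a1.add a2).trans ((a3.add (Ex.of_le (E := E) (β := fun _ => 2 * M)
    (fun _ => le_rfl))).mono (fun V => ?_) (fun _ => le_rfl))).const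
  · simp only [norm_emb (hi _), Finset.sum_const, Finset.card_univ, nsmul_eq_mul] at a4
    rw [inner_neg_left, inner_star_left, Complex.neg_re] at a4
    rw [inner_sub_right, Complex.sub_re]
    have e : (g + δ) / 2 * (‖η‖ ^ 2 + ‖ζ‖ ^ 2) + 1 / δ / 2 * (δ ^ 2 * ‖η‖ ^ 2 + δ ^ 2 * ‖ζ‖ ^ 2) =
        (g + 2 * δ) * ((‖η‖ ^ 2 + ‖ζ‖ ^ 2) / 2) := by field_simp; ring
    rw [e, hM] at a4
    apply le_of_mul_le_mul_left _ hN
    linarith
  · have b := Finset.sum_le_sum fun s (_ : s ∈ Finset.univ) =>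
      S.pointwise hr hY hg hδ V (hf V) (emb (idx s) η) (emb (idx s) ζ) (hq s η) (hq s ζ)
    simp only [hXW, hXW'] at b
    simp only [swap_F, map_neg (emb _), norm_neg]
    rw [Finset.sum_add_distrib] at b
    have c1 : ‖W ζ‖ ^ 2 ≤ ‖ζ‖ ^ 2 := by simpa using sq_le_of_op hW ζ
    have c2 : ‖star W η‖ ^ 2 ≤ ‖η‖ ^ 2 := by
      simpa using sq_le_of_op (A := star W) (n := 1) (by rwa [norm_star]) η
    have c3 : (Fintype.card T : ℝ) * ((g + 2 * δ) * ((‖η‖ ^ 2 + ‖W ζ‖ ^ 2) / 2)) ≤ M := by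
      rw [hM]; gcongr
    have c4 : (Fintype.card T : ℝ) * ((g + 2 * δ) * ((‖star W η‖ ^ 2 + ‖ζ‖ ^ 2) / 2)) ≤ M := by
      rw [hM]; gcongr
    linarith

end Sys

end Crest.Agent.H0164
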