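import Crest.Agent.H0164.B4

set_option autoImplicit false

namespace Crest.Agent.H0164

open scoped InnerProductSpace BigOperators
open MeasureTheory

section Haar
variable (G : Type*) [Group G] [TopologicalSpace G] [IsTopologicalGroup G] [CompactSpace G]

/-- a flow by left or right translations -/
structure Flow where
  a : ℝ → G → G
  zero : ∀ V, a 0 V = V
  add : ∀ t s V, a (s + t) V = a s (a t V)
  tr : ∀ t, (∃ γ, a t = fun V => V * γ) ∨ (∃ γ, a t = fun V => γ * V)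

theorem exists_ex : ∃ E : Ex G, ∀ (φ : Flow G) (f f' : G → ℂ), Continuous f → Continuous f' →
    (∀ V, HasDerivAt (fun t => f (φ.a t V)) (f' V) 0) → f' ∈ E.Z := by
  borelize G
  let μ : Measure G := Measure.haarMeasure ⊤
  haveI hμ : IsProbabilityMeasure μ := ⟨by
    have := Measure.haarMeasure_self (G := G) (K₀ := ⊤)
    simpa using this⟩
  have hint : ∀ f : G → ℂ, Continuous f → Integrable f μ := fun f hf =>
    hf.integrable_of_hasCompactSupport (HasCompactSupport.of_compactSpace f)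
  have hR : ∀ γ, Measure.map (· * γ) μ = μ := fun γ => by
    haveI : IsProbabilityMeasure (Measure.map (· * γ) μ) :=
      Measure.isProbabilityMeasure_map (measurable_mul_const γ).aemeasurable
    exact Measure.isHaarMeasure_eq_of_isProbabilityMeasure _ _
  haveI : μ.IsMulRightInvariant := ⟨hR⟩
  refine ⟨⟨⟨⟨⟨{f | Continuous f ∧ ∫ V, f V ∂μ = 0}, ?_⟩, ?_⟩, ?_⟩, ?_⟩, ?_⟩
  · rintro f g ⟨hf, hf'⟩ ⟨hg, hg'⟩
    refine ⟨hf.add hg, ?_⟩
    simp only [Pi.add_apply]
    rw [integral_add (hint f hf) (hint g hg), hf', hg', add_zero]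
  · exact ⟨continuous_const, by simp⟩
  · rintro c f ⟨hf, hf'⟩
    refine ⟨hf.const_smul c, ?_⟩
    simp only [Pi.smul_apply]
    rw [integral_smul, hf', smul_zero]
  · rintro z ⟨hz, hz'⟩ c hc
    have h1 : ∫ V, (z V).re ∂μ = 0 := by
      have := integral_re (hint z hz)
      simp only [RCLike.re_to_complex] at this
      rw [this, hz']; simp
    have h2 : ∫ _ : G, c ∂μ ≤ ∫ V, (z V).re ∂μ :=
      integral_mono (integrable_const c) (hint z hz).re hc
    simpa [h1] using h2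
  · intro φ f f' hf hf' hd
    refine ⟨hf', ?_⟩
    have hc : ∀ t, Continuous (φ.a t) := fun t => by
      rcases φ.tr t with ⟨γ, h⟩ | ⟨γ, h⟩ <;> rw [h] <;> fun_prop
    have hinv : ∀ t, ∫ V, f (φ.a t V) ∂μ = ∫ V, f V ∂μ := fun t => by
      rcases φ.tr t with ⟨γ, h⟩ | ⟨γ, h⟩ <;> rw [h]
      · exact integral_mul_right_eq_self f γ
      · exact integral_mul_left_eq_self f γ
    obtain ⟨C, hC⟩ := (isCompact_univ (X := G)).exists_bound_of_continuousOn hf'.continuousOn
    have key := (hasDerivAt_integral_of_dominated_loc_of_deriv_le (μ := μ) (x₀ := (0 : ℝ))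
      (F := fun t V => f (φ.a t V)) (F' := fun t V => f' (φ.a t V)) (bound := fun _ => C)
      (s := Set.univ) Filter.univ_mem
      (Filter.Eventually.of_forall fun t => (hint _ (hf.comp (hc t))).aestronglyMeasurable)
      (hint _ (hf.comp (hc 0))) (hint _ (hf'.comp (hc 0))).aestronglyMeasurable
      (Filter.Eventually.of_forall fun V t _ => hC _ (Set.mem_univ _)) (integrable_const C)
      (Filter.Eventually.of_forall fun V t _ => by
        have h := hd (φ.a t V)
        simp only [← φ.add] at h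
        have h2 : HasDerivAt (fun s => f (φ.a (s + t) V)) (f' (φ.a t V)) (t - t) := by
          rwa [sub_self]
        have h3 := h2.comp_sub_const t t
        simpa using h3)).2
    simp only [hinv, φ.zero] at key
    exact key.unique (hasDerivAt_const _ _)

variable {G}
variable {H : Type*} [NormedAddCommGroup H] [InnerProductSpace ℂ H]

/-- derivative along a flow -/
def Der (φ : Flow G) (Φ Φ' : G → (H →L[ℂ] H)) : Prop :=
  Continuous Φ ∧ Continuous Φ' ∧ ∀ V, HasDerivAt (fun t => Φ (φ.a t V)) (Φ' V) 0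

/-- complexified derivative -/
noncomputable def mkCalc (E : Ex G) (hE : ∀ (φ : Flow G) (f f' : G → ℂ), Continuous f →
    Continuous f' → (∀ V, HasDerivAt (fun t => f (φ.a t V)) (f' V) 0) → f' ∈ E.Z)
    (φ ψ : Flow G) : Calc E H where
  D := fun Φ Φ' => ∃ Φ₁ Φ₂, Der φ Φ Φ₁ ∧ Der ψ Φ Φ₂ ∧
    Φ' = fun V => (1 / 2 : ℂ) • (Φ₁ V - Complex.I • Φ₂ V)
  const := fun C => ⟨fun _ => 0, fun _ => 0,
    ⟨continuous_const, continuous_const, fun _ => hasDerivAt_const _ _⟩,
    ⟨continuous_const, continuous_const, fun _ => hasDerivAt_const _ _⟩, by ext; simp⟩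
  add := by
    rintro Φ _ Ψ _ ⟨Φ₁, Φ₂, h1, h2, rfl⟩ ⟨Ψ₁, Ψ₂, k1, k2, rfl⟩
    refine ⟨fun V => Φ₁ V + Ψ₁ V, fun V => Φ₂ V + Ψ₂ V,
      ⟨h1.1.add k1.1, h1.2.1.add k1.2.1, fun V => (h1.2.2 V).add (k1.2.2 V)⟩,
      ⟨h2.1.add k2.1, h2.2.1.add k2.2.1, fun V => (h2.2.2 V).add (k2.2.2 V)⟩, ?_⟩
    funext V
    module
  mul := by
    rintro Φ _ Ψ _ ⟨Φ₁, Φ₂, h1, h2, rfl⟩ ⟨Ψ₁, Ψ₂, k1, k2, rfl⟩
    refine ⟨fun V => Φ₁ V * Ψ V + Φ V * Ψ₁ V, fun V => Φ₂ V * Ψ V + Φ V * Ψ₂ V,
      ⟨h1.1.mul k1.1, (h1.2.1.mul k1.1).add (h1.1.mul k1.2.1), fun V => ?_⟩,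
      ⟨h2.1.mul k2.1, (h2.2.1.mul k2.1).add (h2.1.mul k2.2.1), fun V => ?_⟩, ?_⟩
    · have := (h1.2.2 V).mul (k1.2.2 V)
      simp only [φ.zero] at this
      exact this
    · have := (h2.2.2 V).mul (k2.2.2 V)
      simp only [ψ.zero] at this
      exact this
    · funext V
      simp only [smul_mul_assoc, mul_smul_comm, sub_mul, mul_sub]
      module
  integ := by
    rintro Φ _ ⟨Φ₁, Φ₂, h1, h2, rfl⟩ θ₁ θ₂
    let ℓ : (H →L[ℂ] H) →L[ℂ] ℂ := (innerSL ℂ θ₁).comp (ContinuousLinearMap.apply ℂ H θ₂)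
    have hℓ : ∀ (φ : Flow G) (Φ' : G → (H →L[ℂ] H)), Der φ Φ Φ' → (fun V => ℓ (Φ' V)) ∈ E.Z :=
      fun φ Φ' h => hE φ (fun V => ℓ (Φ V)) _ (ℓ.continuous.comp h.1) (ℓ.continuous.comp h.2.1)
        (fun V => (ℓ.restrictScalars ℝ).hasFDerivAt.comp_hasDerivAt (0 : ℝ) (h.2.2 V))
    have := E.Z.smul_mem (1 / 2 : ℂ) (E.Z.sub_mem (hℓ φ _ h1) (E.Z.smul_mem Complex.I (hℓ ψ _ h2)))
    convert this using 1
    funext V
    change ℓ ((1 / 2 : ℂ) • (Φ₁ V - Complex.I • Φ₂ V)) = _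
    simp

end Haar

section Grp
variable {H : Type*} [NormedAddCommGroup H] [InnerProductSpace ℂ H] [CompleteSpace H]

/-- unitaries of a subalgebra -/
def UG (M : StarSubalgebra ℂ (H →L[ℂ] H)) : Subgroup (unitary (H →L[ℂ] H)) where
  carrier := {U | (U : H →L[ℂ] H) ∈ M}
  mul_mem' := fun ha hb => M.mul_mem ha hb
  one_mem' := M.one_mem
  inv_mem' := fun ha => star_mem (s := M) ha

lemma UG_compact (M : StarSubalgebra ℂ (H →L[ℂ] H)) [FiniteDimensional ℂ M] :
    CompactSpace (UG M) := by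
  haveI : ProperSpace M := FiniteDimensional.proper ℂ M
  have h1 : IsCompact {x : M | (x : H →L[ℂ] H) ∈ unitary (H →L[ℂ] H)} := by
    apply Metric.isCompact_of_isClosed_isBounded
    · exact isClosed_unitary.preimage continuous_subtype_val
    · refine (Metric.isBounded_closedBall (x := (0 : M)) (r := 1)).subset fun x hx => ?_
      rw [mem_closedBall_zero_iff]
      change ‖(x : H →L[ℂ] H)‖ ≤ 1
      apply ContinuousLinearMap.opNorm_le_bound _ zero_le_one
      intro v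
      rw [one_mul, norm_eq_of_star_mul (B := 1) (by simpa using hx.1)]
      rfl
  have h2 := h1.image continuous_subtype_val
  have h3 : Topology.IsInducing (fun U : UG M => ((U : unitary (H →L[ℂ] H)) : H →L[ℂ] H)) :=
    Topology.IsInducing.subtypeVal.comp Topology.IsInducing.subtypeVal
  refine ⟨h3.isCompact_iff.2 ?_⟩
  convert h2 using 1
  ext x
  constructor
  · rintro ⟨U, -, rfl⟩
    exact ⟨⟨_, U.2⟩, U.1.2, rfl⟩
  · rintro ⟨y, hy, rfl⟩
    exact ⟨⟨⟨y, hy⟩, y.2⟩, trivial, rfl⟩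

/-- one parameter group -/
noncomputable def oneP (M : StarSubalgebra ℂ (H →L[ℂ] H)) (hM : IsClosed (M : Set (H →L[ℂ] H)))
    (B : H →L[ℂ] H) (hB : B ∈ M) (hs : star B = -B) (t : ℝ) : UG M :=
  ⟨⟨NormedSpace.exp (t • B), by
    letI : NormedAlgebra ℚ (H →L[ℂ] H) := .restrictScalars ℚ ℂ _
    apply NormedSpace.exp_mem_unitary_of_mem_skewAdjoint
    rw [skewAdjoint.mem_iff, star_smul, hs]; simp⟩, by
    letI : NormedAlgebra ℚ (H →L[ℂ] H) := .restrictScalars ℚ ℂ _
    exact NormedSpace.exp_mem (R := ℂ) hM (M.smul_mem hB (t : ℂ))⟩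

variable {M : StarSubalgebra ℂ (H →L[ℂ] H)} (hM : IsClosed (M : Set (H →L[ℂ] H)))
    (B : H →L[ℂ] H) (hB : B ∈ M) (hs : star B = -B)

lemma oneP_zero : oneP M hM B hB hs 0 = 1 := by
  apply Subtype.ext; apply Subtype.ext
  simp [oneP]

lemma oneP_add (s t : ℝ) : oneP M hM B hB hs (s + t) = oneP M hM B hB hs s * oneP M hM B hB hs t := by
  apply Subtype.ext; apply Subtype.ext
  letI : NormedAlgebra ℚ (H →L[ℂ] H) := .restrictScalars ℚ ℂ _
  change NormedSpace.exp ((s + t) • B) = NormedSpace.exp (s • B) * NormedSpace.exp (t • B)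
  rw [add_smul, NormedSpace.exp_add_of_commute]
  exact ((Commute.refl B).smul_left s).smul_right t

/-- right flow -/
noncomputable def flowR : Flow (UG M) where
  a := fun t V => V * oneP M hM B hB hs t
  zero := fun V => by rw [oneP_zero, mul_one]
  add := fun t s V => by rw [add_comm, oneP_add, mul_assoc]
  tr := fun t => Or.inl ⟨_, rfl⟩

/-- left flow -/
noncomputable def flowL : Flow (UG M) where
  a := fun t V => oneP M hM B hB hs t * V
  zero := fun V => by rw [oneP_zero, one_mul]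
  add := fun t s V => by rw [oneP_add, mul_assoc]
  tr := fun t => Or.inr ⟨_, rfl⟩

/-- underlying operator -/
def UG.op (V : UG M) : H →L[ℂ] H := ((V : unitary (H →L[ℂ] H)) : H →L[ℂ] H)

lemma UG.op1 (V : UG M) : star (UG.op V) * (UG.op V) = 1 := V.1.2.1
lemma UG.op2 (V : UG M) : (UG.op V) * star (UG.op V) = 1 := V.1.2.2
lemma UG.cont : Continuous (UG.op : UG M → _) :=
  continuous_subtype_val.comp continuous_subtype_val

lemma UG.norm_star (V : UG M) (v : H) : ‖star (UG.op V) v‖ = ‖v‖ := by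
  rw [norm_eq_of_star_mul (B := 1) (by simpa using (UG.op2 V))]; rfl

/-- the resolvent -/
noncomputable def res (X : H →L[ℂ] H) (V : UG M) : H →L[ℂ] H := Ring.inverse (star (UG.op V) - X)

variable {X : H →L[ℂ] H} {r : ℝ}

lemma res_unit (hX : ‖X‖ ≤ r) (hr : r < 1) (V : UG M) : IsUnit (star (UG.op V) - X) := by
  have h1 : ‖X * (UG.op V)‖ < 1 := by
    refine lt_of_le_of_lt ?_ (hX.trans_lt hr)
    apply ContinuousLinearMap.opNorm_le_bound _ (norm_nonneg _)
    intro v
    refine (X.le_opNorm _).trans (le_of_eq ?_)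
    congr 1
    exact norm_eq_of_star_mul (A := (UG.op V)) (B := 1) (by simpa using (UG.op1 V)) v
  have h2 : star (UG.op V) - X = (1 - X * (UG.op V)) * star (UG.op V) := by
    rw [sub_mul, mul_assoc, (UG.op2 V)]; simp
  rw [h2]
  exact (Units.oneSub _ h1).isUnit.mul ⟨⟨_, _, (UG.op1 V), (UG.op2 V)⟩, rfl⟩

lemma res_G (hX : ‖X‖ ≤ r) (hr : r < 1) (V : UG M) : star (UG.op V) * res X V = 1 + X * res X V := by
  have := Ring.mul_inverse_cancel _ (res_unit hX hr V)
  rw [sub_mul] at this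
  rw [← this]; simp [res]

lemma res_G' (hX : ‖X‖ ≤ r) (hr : r < 1) (V : UG M) : res X V * star (UG.op V) = 1 + res X V * X := by
  have := Ring.inverse_mul_cancel _ (res_unit hX hr V)
  rw [mul_sub] at this
  rw [← this]; simp [res]

lemma res_norm (hX : ‖X‖ ≤ r) (hr : r < 1) (V : UG M) : ‖res X V‖ ≤ 1 / (1 - r) := by
  have h0 : 0 < 1 - r := by linarith
  apply ContinuousLinearMap.opNorm_le_bound _ (by positivity)
  intro v
  have h1 := UG.norm_star V (res X V v)
  rw [← ContinuousLinearMap.mul_apply, res_G hX hr] at h1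
  have h2 : ‖(1 + X * res X V) v‖ ≤ ‖v‖ + r * ‖res X V v‖ :=
    (norm_add_le _ _).trans (add_le_add le_rfl
      ((X.le_opNorm _).trans (mul_le_mul_of_nonneg_right hX (norm_nonneg _))))
  rw [div_mul_eq_mul_div, le_div_iff₀ h0]
  nlinarith

lemma res_cont (hX : ‖X‖ ≤ r) (hr : r < 1) : Continuous (res X : UG M → _) := by
  rw [continuous_iff_continuousAt]
  intro V
  obtain ⟨u, hu⟩ := res_unit hX hr V
  have h := NormedRing.inverse_continuousAt u
  rw [hu] at h
  exact ContinuousAt.comp (f := fun V : UG M => star (UG.op V) - X) h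
    (UG.cont.star.sub continuous_const).continuousAt

lemma res_mem (hX : ‖X‖ ≤ r) (hr : r < 1) (Q : StarSubalgebra ℂ (H →L[ℂ] H))
    (hQ : IsClosed (Q : Set (H →L[ℂ] H))) (hMQ : M ≤ Q) (hXQ : X ∈ Q) (V : UG M) :
    res X V ∈ Q := by
  have h1 : star (UG.op V) - X ∈ Q := sub_mem (star_mem (hMQ V.2)) hXQ
  obtain ⟨u, hu⟩ := (StarSubalgebra.coe_isUnit Q (hS := hQ) (a := ⟨_, h1⟩)).1 (res_unit hX hr V)
  have h2 : (star (UG.op V) - X) * ((u⁻¹ : Qˣ) : Q) = 1 := by
    have := congrArg (fun x : Q => (x : H →L[ℂ] H)) u.mul_inv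
    rw [hu] at this
    exact this
  have h3 : res X V = ((u⁻¹ : Qˣ) : Q) := by
    have := Ring.inverse_mul_cancel _ (res_unit hX hr V)
    calc res X V = res X V * ((star (UG.op V) - X) * ((u⁻¹ : Qˣ) : Q)) := by rw [h2, mul_one]
      _ = _ := by rw [← mul_assoc, res, this, one_mul]
  rw [h3]; exact SetLike.coe_mem _

lemma res_deriv (hX : ‖X‖ ≤ r) (hr : r < 1) (γ : ℝ → UG M) (V : UG M) (h0 : γ 0 = V)
    {W : H →L[ℂ] H} (h : HasDerivAt (fun t => (UG.op (γ t))) W 0) :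
    HasDerivAt (fun t => res X (γ t)) (-(res X V * star W * res X V)) 0 := by
  obtain ⟨u, hu⟩ := res_unit hX hr V
  have h1 := hasFDerivAt_ringInverse (𝕜 := ℝ) u
  have h2 : HasDerivAt (fun t => star (UG.op (γ t)) - X) (star W) 0 := h.star.sub_const X
  rw [hu, ← h0] at h1
  have h3 := h1.comp_hasDerivAt (0 : ℝ) h2
  have h4 : ((u⁻¹ : (H →L[ℂ] H)ˣ) : H →L[ℂ] H) = res X V := by
    rw [res, ← hu, Ring.inverse_unit]
  rw [h4] at h3
  exact h3

lemma exp_deriv : HasDerivAt (fun t => UG.op (oneP M hM B hB hs t)) B 0 := by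
  have := hasDerivAt_exp_smul_const (𝕂 := ℝ) B 0
  rw [zero_smul, NormedSpace.exp_zero, one_mul] at this
  exact this

lemma derR (hX : ‖X‖ ≤ r) (hr : r < 1) :
    Der (flowR hM B hB hs) (res X) (fun V => res X V * B * (1 + X * res X V)) := by
  refine ⟨res_cont hX hr, by have := res_cont (M := M) hX hr; fun_prop, fun V => ?_⟩
  have h := res_deriv hX hr (fun t => (flowR hM B hB hs).a t V) V ((flowR hM B hB hs).zero V)
    ((exp_deriv hM B hB hs).const_mul (UG.op V))
  convert h using 1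
  beta_reduce
  rw [star_mul, hs, ← res_G hX hr]
  simp [mul_assoc]

lemma derL (hX : ‖X‖ ≤ r) (hr : r < 1) :
    Der (flowL hM B hB hs) (res X) (fun V => (1 + res X V * X) * B * res X V) := by
  refine ⟨res_cont hX hr, by have := res_cont (M := M) hX hr; fun_prop, fun V => ?_⟩
  have h := res_deriv hX hr (fun t => (flowL hM B hB hs).a t V) V ((flowL hM B hB hs).zero V)
    ((exp_deriv hM B hB hs).mul_const (UG.op V))
  convert h using 1
  beta_reduce
  rw [star_mul, hs, ← res_G' hX hr]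
  simp [mul_assoc]

lemma Der.star {G : Type*} [Group G] [TopologicalSpace G] {φ : Flow G}
    {Φ Φ' : G → (H →L[ℂ] H)} (h : Der φ Φ Φ') :
    Der φ (fun V => star (Φ V)) (fun V => star (Φ' V)) :=
  ⟨h.1.star, h.2.1.star, fun V => (h.2.2 V).star⟩

end Grp

end Crest.Agent.H0164
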