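import Crest.Agent.H0164.B5

set_option autoImplicit false
universe u

namespace Crest.Agent.H0164

open scoped InnerProductSpace BigOperators

section
variable {K : Type*} [NormedAddCommGroup K] [InnerProductSpace ℂ K] [CompleteSpace K]
variable {I : Type} [Fintype I] [DecidableEq I]

lemma star_El (a b : I) (x : K →L[ℂ] K) : star (El a x b) = El b (star x) a := by
  symm
  rw [ContinuousLinearMap.star_eq_adjoint (El a x b), ContinuousLinearMap.eq_adjoint_iff]
  intro v w
  simp only [El_apply, inner_sg_left, inner_sg_right, inner_star_left]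

omit [CompleteSpace K] in
lemma El_mul (a b c d : I) (x y : K →L[ℂ] K) :
    El a x b * El c y d = if b = c then El a (x * y) d else 0 := by
  ext1 v
  simp only [ContinuousLinearMap.mul_apply, El_apply, sg_apply]
  split_ifs <;> simp

omit [CompleteSpace K] in
lemma sum_El : ∑ a : I, El a (1 : K →L[ℂ] K) a = 1 := by
  ext1 v
  simp only [ContinuousLinearMap.sum_apply, El_apply, ContinuousLinearMap.one_apply, sum_sg]

variable (K I) in
/-- scalar matrices -/
noncomputable def SM : StarSubalgebra ℂ (HH I K →L[ℂ] HH I K) where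
  carrier := Submodule.span ℂ (Set.range fun p : I × I => El p.1 (1 : K →L[ℂ] K) p.2)
  mul_mem' := by
    intro x y hx hy
    induction hx using Submodule.span_induction with
    | mem x hx =>
      induction hy using Submodule.span_induction with
      | mem y hy =>
        obtain ⟨p, rfl⟩ := hx
        obtain ⟨q, rfl⟩ := hy
        simp only [El_mul, mul_one]
        split_ifs
        · exact Submodule.subset_span ⟨(p.1, q.2), rfl⟩
        · exact Submodule.zero_mem _
      | zero => rw [mul_zero]; exact Submodule.zero_mem _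
      | add y z _ _ h1 h2 => rw [mul_add]; exact Submodule.add_mem _ h1 h2
      | smul c y _ h => rw [mul_smul_comm]; exact Submodule.smul_mem _ _ h
    | zero => rw [zero_mul]; exact Submodule.zero_mem _
    | add y z _ _ h1 h2 => rw [add_mul]; exact Submodule.add_mem _ h1 h2
    | smul c y _ h => rw [smul_mul_assoc]; exact Submodule.smul_mem _ _ h
  add_mem' := fun ha hb => Submodule.add_mem _ ha hb
  algebraMap_mem' := fun c => by
    rw [Algebra.algebraMap_eq_smul_one, ← sum_El]
    exact Submodule.smul_mem _ _ (Submodule.sum_mem _ fun a _ =>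
      Submodule.subset_span ⟨(a, a), rfl⟩)
  star_mem' := by
    intro x hx
    induction hx using Submodule.span_induction with
    | mem x hx =>
      obtain ⟨p, rfl⟩ := hx
      simp only [star_El, star_one]
      exact Submodule.subset_span ⟨(p.2, p.1), rfl⟩
    | zero => rw [star_zero]; exact Submodule.zero_mem _
    | add y z _ _ h1 h2 => rw [star_add]; exact Submodule.add_mem _ h1 h2
    | smul c y _ h => rw [star_smul]; exact Submodule.smul_mem _ _ h

lemma El_mem (a b : I) : El a (1 : K →L[ℂ] K) b ∈ SM K I := Submodule.subset_span ⟨(a, b), rfl⟩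

instance SM_fd : FiniteDimensional ℂ (SM K I) :=
  FiniteDimensional.span_of_finite ℂ
    (Set.finite_range fun p : I × I => El p.1 (1 : K →L[ℂ] K) p.2)

lemma SM_closed : IsClosed (SM K I : Set (HH I K →L[ℂ] HH I K)) := by
  haveI := FiniteDimensional.span_of_finite ℂ
    (Set.finite_range fun p : I × I => El p.1 (1 : K →L[ℂ] K) p.2)
  exact Submodule.closed_of_finiteDimensional
    (Submodule.span ℂ (Set.range fun p : I × I => El p.1 (1 : K →L[ℂ] K) p.2))

lemma SM_le (Q : StarSubalgebra ℂ (HH I K →L[ℂ] HH I K)) (h : ∀ a b, El a 1 b ∈ Q) :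
    SM K I ≤ Q := by
  intro x hx
  induction hx using Submodule.span_induction with
  | mem x hx => obtain ⟨p, rfl⟩ := hx; exact h _ _
  | zero => exact zero_mem _
  | add y z _ _ h1 h2 => exact add_mem h1 h2
  | smul c y _ h => exact Q.smul_mem h c

lemma B1_mem (a b : I) : El a (1 : K →L[ℂ] K) b - El b 1 a ∈ SM K I :=
  sub_mem (El_mem a b) (El_mem b a)
lemma B1_skew (a b : I) : star (El a (1 : K →L[ℂ] K) b - El b 1 a) = -(El a 1 b - El b 1 a) := by
  simp [star_El]
lemma B2_mem (a b : I) : Complex.I • (El a (1 : K →L[ℂ] K) b + El b 1 a) ∈ SM K I :=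
  (SM K I).smul_mem (add_mem (El_mem a b) (El_mem b a)) _
lemma B2_skew (a b : I) : star (Complex.I • (El a (1 : K →L[ℂ] K) b + El b 1 a)) =
    -(Complex.I • (El a 1 b + El b 1 a)) := by
  simp [star_El, add_comm]

lemma cplx {A : Type*} [Ring A] [Algebra ℂ A] (P e e' R : A) :
    P * e * R = (1 / 2 : ℂ) • (P * (e - e') * R - Complex.I • (P * (Complex.I • (e + e')) * R)) := by
  simp only [mul_smul_comm, smul_mul_assoc, smul_smul, Complex.I_mul_I, mul_sub, sub_mul,
    mul_add, add_mul]
  module

theorem exists_sys (D : Finset I) {r : ℝ} (hr0 : 0 ≤ r) (hr : r < 1)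
    (X : HH I K →L[ℂ] HH I K)
    (hX1 : star X * X = ((r ^ 2 : ℝ) : ℂ) • qD K Dᶜ)
    (hX2 : X * star X = ((r ^ 2 : ℝ) : ℂ) • qD K Dᶜ)
    (Q : StarSubalgebra ℂ (HH I K →L[ℂ] HH I K)) (hQ : IsClosed (Q : Set (HH I K →L[ℂ] HH I K)))
    (hE : ∀ a b, El a 1 b ∈ Q) (hXQ : X ∈ Q) :
    ∃ (E : Ex (UG (SM K I))) (S : Sys E K D (1 / (1 - r)) r), S.X = X ∧ ∀ V, S.F V ∈ Q := by
  haveI := UG_compact (SM K I)
  obtain ⟨E, hE'⟩ := exists_ex (UG (SM K I))
  have hX : ‖X‖ ≤ r := by
    apply ContinuousLinearMap.opNorm_le_bound _ hr0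
    intro v
    apply le_of_sq_le_sq _ (by positivity)
    rw [← re_inner_self, ← inner_star_right, ← ContinuousLinearMap.mul_apply, hX1]
    simp only [ContinuousLinearMap.smul_apply, inner_smul_right, Complex.re_ofReal_mul]
    rw [← inner_qD_qD, re_inner_self, mul_pow]
    gcongr
    exact norm_qD_le _ _
  refine ⟨E, ⟨X, res X, hX1, hX2, res_norm hX hr, fun V => ?_, fun V => ?_,
    fun a b => mkCalc E hE' (flowR SM_closed _ (B1_mem a b) (B1_skew a b))
      (flowR SM_closed _ (B2_mem a b) (B2_skew a b)),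
    fun a b => mkCalc E hE' (flowL SM_closed _ (B1_mem a b) (B1_skew a b))
      (flowL SM_closed _ (B2_mem a b) (B2_skew a b)),
    fun a b => ⟨_, _, derR _ _ _ _ hX hr, derR _ _ _ _ hX hr, ?_⟩,
    fun a b => ⟨_, _, (derR _ _ _ _ hX hr).star, (derR _ _ _ _ hX hr).star, ?_⟩,
    fun a b => ⟨_, _, derL _ _ _ _ hX hr, derL _ _ _ _ hX hr, ?_⟩,
    fun a b => ⟨_, _, (derL _ _ _ _ hX hr).star, (derL _ _ _ _ hX hr).star, ?_⟩⟩, rfl,
    res_mem hX hr Q hQ (SM_le Q hE) hXQ⟩
  · rw [← res_G hX hr, star_mul, star_star, mul_assoc, ← mul_assoc (UG.op V), UG.op2, one_mul]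
  · rw [← res_G' hX hr, star_mul, star_star, mul_assoc, ← mul_assoc (star (UG.op V)), UG.op1,
      one_mul]
  · funext V; exact cplx _ _ _ _
  · funext V
    rw [star_mul, star_mul, star_mul, star_mul, B1_skew, B2_skew, cplx _ _ (El b 1 a)]
    simp only [mul_assoc, neg_mul, mul_neg]
    module
  · funext V; exact cplx _ _ _ _
  · funext V
    rw [star_mul, star_mul, star_mul, star_mul, B1_skew, B2_skew, cplx _ _ (El b 1 a)]
    simp only [mul_assoc, neg_mul, mul_neg]
    module

end

end Crest.Agent.H0164
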