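import Crest.Agent.H0164.B6

set_option autoImplicit false
universe u

namespace Crest.Agent.H0164

open scoped InnerProductSpace BigOperators

section
variable {K : Type*} [NormedAddCommGroup K] [InnerProductSpace ℂ K] [CompleteSpace K]
variable {I : Type} [Fintype I] [DecidableEq I]

omit [CompleteSpace K] in
lemma ent_mul (Z W : HH I K →L[ℂ] HH I K) (a b : I) :
    ent (Z * W) a b = ∑ c, ent Z a c * ent W c b := by
  ext ξ
  simp only [ent_apply, ContinuousLinearMap.mul_apply, ContinuousLinearMap.sum_apply]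
  exact apply_eq_sum _ _ _

lemma ent_star (Z : HH I K →L[ℂ] HH I K) (a b : I) : ent (star Z) a b = star (ent Z b a) := by
  ext ξ
  apply ext_inner_left ℂ
  intro η
  rw [ent_apply, inner_star_co, inner_star_right, inner_sg_right, ent_apply]

omit [CompleteSpace K] in
lemma ent_El (a b c d : I) (x : K →L[ℂ] K) :
    ent (El c x d) a b = if a = c ∧ d = b then x else 0 := by
  ext ξ
  simp only [ent_apply, El_apply, sg_apply]
  by_cases h1 : a = c <;> by_cases h2 : d = b <;> simp [h1, h2]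

variable (I) in
/-- operator matrices with entries in `Q` -/
noncomputable def QM (Q : StarSubalgebra ℂ (K →L[ℂ] K)) :
    StarSubalgebra ℂ (HH I K →L[ℂ] HH I K) where
  carrier := {Z | ∀ a b, ent Z a b ∈ Q}
  mul_mem' := fun hx hy a b => by
    rw [ent_mul]; exact sum_mem fun c _ => mul_mem (hx a c) (hy c b)
  add_mem' := fun {x y} hx hy a b => by
    have : ent (x + y) a b = ent x a b + ent y a b := by ext; simp
    rw [this]; exact add_mem (hx a b) (hy a b)
  algebraMap_mem' := fun c a b => by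
    have : ent (algebraMap ℂ (HH I K →L[ℂ] HH I K) c) a b = if a = b then c • 1 else 0 := by
      ext ξ
      simp only [Algebra.algebraMap_eq_smul_one, ent_apply, ContinuousLinearMap.smul_apply,
        ContinuousLinearMap.one_apply, HH.smul_apply, sg_apply]
      split_ifs <;> simp
    rw [this]
    split_ifs
    · exact Q.smul_mem (one_mem _) c
    · exact zero_mem _
  star_mem' := fun hx a b => by rw [ent_star]; exact star_mem (hx b a)

lemma QM_closed {Q : StarSubalgebra ℂ (K →L[ℂ] K)} (hQ : IsClosed (Q : Set (K →L[ℂ] K))) :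
    IsClosed (QM I Q : Set (HH I K →L[ℂ] HH I K)) := by
  have : (QM I Q : Set (HH I K →L[ℂ] HH I K)) =
      ⋂ a, ⋂ b, (fun Z => ent Z a b) ⁻¹' (Q : Set (K →L[ℂ] K)) := by
    ext Z; simp only [Set.mem_iInter]; rfl
  rw [this]
  refine isClosed_iInter fun a => isClosed_iInter fun b => hQ.preimage ?_
  unfold ent
  fun_prop

lemma El_mem_QM {Q : StarSubalgebra ℂ (K →L[ℂ] K)} {x : K →L[ℂ] K} (hx : x ∈ Q) (c d : I) :
    El c x d ∈ QM I Q := fun a b => by
  rw [ent_El]; split_ifs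
  · exact hx
  · exact zero_mem _

variable {T J : Type} [Fintype T] [Fintype J] [DecidableEq J]

/-- operator of a matrix -/
noncomputable def mat (x : J → J → (K →L[ℂ] K)) : HH J K →L[ℂ] HH J K := ∑ i, ∑ j, El i (x i j) j

omit [CompleteSpace K] in
lemma mat_apply (x : J → J → (K →L[ℂ] K)) (v : HH J K) (i : J) :
    mat x v i = ∑ j, x i j (v j) := by
  simp only [mat, ContinuousLinearMap.sum_apply, HH_sum_apply, El_apply, sg_apply]
  rw [Finset.sum_eq_single i]
  · simp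
  · intro k _ hk; simp [Ne.symm hk]
  · simp

lemma star_mat (x : J → J → (K →L[ℂ] K)) : star (mat x) = mat (fun i j => star (x j i)) := by
  simp only [mat, star_sum, star_El]
  rw [Finset.sum_comm]

omit [CompleteSpace K] in
lemma mat_mul (x y : J → J → (K →L[ℂ] K)) (v : HH J K) :
    mat x (mat y v) = mat (fun i j => ∑ k, x i k * y k j) v := by
  ext i
  simp only [mat_apply, map_sum, ContinuousLinearMap.sum_apply, ContinuousLinearMap.mul_apply]
  rw [Finset.sum_comm]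

omit [CompleteSpace K] in
lemma mat_one (c : ℂ) (v : HH J K) :
    mat (fun i j => c • if i = j then (1 : K →L[ℂ] K) else 0) v = c • v := by
  ext i
  rw [mat_apply, Finset.sum_eq_single i]
  · simp
  · intro k _ hk; simp [Ne.symm hk]
  · simp

/-- block diagonal operator -/
noncomputable def blk (idx : T → J → I) (x : J → J → (K →L[ℂ] K)) : HH I K →L[ℂ] HH I K :=
  ∑ s, ∑ i, ∑ j, El (idx s i) (x i j) (idx s j)

omit [DecidableEq J] in
lemma star_blk (idx : T → J → I) (x : J → J → (K →L[ℂ] K)) :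
    star (blk idx x) = blk idx (fun i j => star (x j i)) := by
  simp only [blk, star_sum, star_El]
  refine Finset.sum_congr rfl fun s _ => ?_
  rw [Finset.sum_comm]

omit [CompleteSpace K] in
lemma blk_apply (idx : T → J → I) (x : J → J → (K →L[ℂ] K)) (v : HH I K) :
    blk idx x v = ∑ s, emb (idx s) (mat x (HH.mk fun j => v (idx s j))) := by
  simp only [blk, ContinuousLinearMap.sum_apply, El_apply, emb_def, mat_apply, map_sum,
    HH.mk_apply]

omit [CompleteSpace K] in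
lemma blk_emb (idx : T → J → I) (hinj : ∀ s j s' j', idx s j = idx s' j' → s = s' ∧ j = j')
    (x : J → J → (K →L[ℂ] K)) (s : T) (ζ : HH J K) :
    blk idx x (emb (idx s) ζ) = emb (idx s) (mat x ζ) := by
  have hi : ∀ s, Function.Injective (idx s) := fun s j j' h => (hinj _ _ _ _ h).2
  rw [blk_apply, Finset.sum_eq_single s]
  · congr 2
    ext j; simp [emb_apply (hi s)]
  · intro s' _ hs
    have : (HH.mk fun j => emb (idx s) ζ (idx s' j) : HH J K) = 0 := by
      ext j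
      exact emb_out ζ (fun k h => hs (hinj _ _ _ _ h).1.symm)
    rw [this, map_zero, map_zero]
  · simp

omit [CompleteSpace K] in
lemma blk_mul (idx : T → J → I) (hinj : ∀ s j s' j', idx s j = idx s' j' → s = s' ∧ j = j')
    (D : Finset I) (hD : ∀ v : HH I K, ∑ s, ∑ j, sg (idx s j) (v (idx s j)) = qD K Dᶜ v)
    (x y : J → J → (K →L[ℂ] K)) (c : ℂ)
    (h : ∀ i j, ∑ k, x i k * y k j = c • if i = j then 1 else 0) :
    blk idx x * blk idx y = c • qD K Dᶜ := by
  ext1 v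
  rw [ContinuousLinearMap.mul_apply, blk_apply idx y, map_sum]
  simp only [blk_emb idx hinj, mat_mul, h, mat_one, map_smul, ← Finset.smul_sum]
  simp only [emb_def, HH.mk_apply, hD, ContinuousLinearMap.smul_apply]

omit [CompleteSpace K] in
lemma Ctr.smul {ι : Type} [Fintype ι] {z : ι → ι → (K →L[ℂ] K)} {c : ℝ} (h : Ctr z c) (t : ℝ) :
    Ctr (fun i j => (t : ℂ) • z i j) (t * c) := by
  intro ξ
  simp only [ContinuousLinearMap.smul_apply, ← Finset.smul_sum, norm_smul, mul_pow,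
    ← Finset.mul_sum, Complex.norm_real, Real.norm_eq_abs, sq_abs, mul_assoc]
  exact mul_le_mul_of_nonneg_left (h ξ) (sq_nonneg t)

lemma hf_of {A Dt : Type} [Fintype A] [DecidableEq A] [Fintype Dt] [DecidableEq Dt]
    {Q : StarSubalgebra ℂ (K →L[ℂ] K)} {Y : K →L[ℂ] K} {g : ℝ} (hg : 0 ≤ g)
    (hyp : ∀ z : Dt → Dt → (K →L[ℂ] K), (∀ i j, z i j ∈ Q) → Ctr z 1 →
        Ctr (fun i j => Y * z i j - z i j * Y) g)
    (D : Finset (A ⊕ Dt)) (hD : D = Finset.univ.map Function.Embedding.inr)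
    (Z : HH (A ⊕ Dt) K →L[ℂ] HH (A ⊕ Dt) K) (hZ : Z ∈ QM _ Q)
    (hc : ∀ v, ‖qD K D (Z (qD K D v))‖ ^ 2 ≤ ‖qD K D v‖ ^ 2) (v : HH (A ⊕ Dt) K) :
    ‖dg _ Y (qD K D (Z (qD K D v))) - qD K D (Z (qD K D (dg _ Y v)))‖ ≤ g * ‖v‖ := by
  have hsum : ∀ f : A ⊕ Dt → ℝ, ∑ c ∈ D, f c = ∑ i, f (Sum.inr i) := fun f => by
    rw [hD, Finset.sum_map]; rfl
  have hq : ∀ w : HH (A ⊕ Dt) K, qD K D w = ∑ j, sg (Sum.inr j) (w (Sum.inr j)) := fun w => by
    rw [qD, ContinuousLinearMap.sum_apply, hD, Finset.sum_map]; rfl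
  have hZq : ∀ (w : HH (A ⊕ Dt) K) a, Z (qD K D w) a =
      ∑ j, ent Z a (Sum.inr j) (w (Sum.inr j)) := fun w a => by
    rw [hq, map_sum, HH_sum_apply]; rfl
  have h1 : Ctr (fun i j => ent Z (Sum.inr i) (Sum.inr j)) 1 := by
    intro ξ
    have := hc (HH.mk (Sum.elim 0 ξ))
    rw [norm_qD, norm_qD, hsum, hsum] at this
    simpa [hZq] using this
  have h2 := hyp _ (fun i j => hZ _ _) h1 (fun j => v (Sum.inr j))
  apply le_of_sq_le_sq _ (by positivity)
  rw [dg_qD, ← map_sub, norm_qD, hsum, mul_pow]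
  refine le_trans (le_of_eq ?_) (h2.trans ?_)
  · refine Finset.sum_congr rfl fun i _ => ?_
    simp only [HH.sub_apply, dg_apply, hZq, map_sum, ContinuousLinearMap.sub_apply,
      ContinuousLinearMap.mul_apply, Finset.sum_sub_distrib]
  · gcongr
    rw [← hsum (fun c => ‖v c‖ ^ 2)]
    exact sum_sub_le _ _

theorem mt_norm {h d N : ℕ} {δ κ ρ : ℝ} (hd : 2 ≤ d) (hN : 0 < N) (hδ : 0 < δ) (hρ : 0 < ρ)
    (hρ' : ρ ≤ 1 / 4) (hκ : 2 * d * (1 / ρ) ^ 3 ≤ κ * ((d : ℝ) - 1) ^ 2)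
    (h1 : (1 - (1 - ρ) ^ 2) * (N * h * (1 + κ)) ≤ δ ^ 2)
    (h2 : h * (N + N ^ 2 * κ) ≤ N ^ 2 * δ ^ 2)
    (Q : StarSubalgebra ℂ (K →L[ℂ] K)) (hQ : IsClosed (Q : Set (K →L[ℂ] K)))
    (Y : K →L[ℂ] K) (hY : ‖Y‖ ≤ 1) (g : ℝ) (hg : 0 ≤ g)
    (hyp : ∀ z : Fin d → Fin d → (K →L[ℂ] K), (∀ i j, z i j ∈ Q) → Ctr z 1 →
        Ctr (fun i j => Y * z i j - z i j * Y) g)
    (x : Fin h × Fin d → Fin h × Fin d → (K →L[ℂ] K)) (hx : ∀ i j, x i j ∈ Q)
    (hx1 : ∀ i j, ∑ k, star (x k i) * x k j = if i = j then 1 else 0)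
    (hx2 : ∀ i j, ∑ k, x i k * star (x j k) = if i = j then 1 else 0) :
    Ctr (fun i j => Y * x i j - x i j * Y) (4 * g + 8 * δ) := by
  set r : ℝ := 1 - ρ with hr
  let D : Finset ((Fin N × (Fin h × Fin d)) ⊕ Fin d) := Finset.univ.map Function.Embedding.inr
  let idx : Fin N → (Fin h × Fin d) → ((Fin N × (Fin h × Fin d)) ⊕ Fin d) := fun s j => Sum.inl (s, j)
  have hinj : ∀ s j s' j', idx s j = idx s' j' → s = s' ∧ j = j' := fun s j s' j' h => by
    simpa [idx] using h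
  have hout : ∀ s j, idx s j ∉ D := fun s j => by simp [idx, D]
  have hDc : Dᶜ = Finset.univ.map Function.Embedding.inl := by
    ext a; rcases a with a | a <;> simp [D]
  have hD : ∀ v : HH ((Fin N × (Fin h × Fin d)) ⊕ Fin d) K, ∑ s, ∑ j, sg (idx s j) (v (idx s j)) = qD K Dᶜ v := fun v => by
    rw [qD, ContinuousLinearMap.sum_apply, hDc, Finset.sum_map, Fintype.sum_prod_type]; rfl
  have hcD : D.card = d := by simp [D]
  have hcDc : Dᶜ.card = N * (h * d) := by simp [hDc]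
  let y : (Fin h × Fin d) → (Fin h × Fin d) → (K →L[ℂ] K) := fun i j => (r : ℂ) • x i j
  have hy1 : ∀ i j, ∑ k, star (y k i) * y k j = ((r ^ 2 : ℝ) : ℂ) • if i = j then 1 else 0 := by
    intro i j
    simp only [y, star_smul, smul_mul_smul_comm, ← Finset.smul_sum, hx1]
    simp [sq]
  have hy2 : ∀ i j, ∑ k, y i k * star (y j k) = ((r ^ 2 : ℝ) : ℂ) • if i = j then 1 else 0 := by
    intro i j
    simp only [y, star_smul, smul_mul_smul_comm, ← Finset.smul_sum, hx2]
    simp [sq]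
  have hr0 : 0 ≤ r := by linarith
  have hr1 : r < 1 := by linarith
  have hr2 : r ^ 2 ≤ 1 := by nlinarith
  obtain ⟨E, S, hSX, hSQ⟩ := exists_sys D hr0 hr1 (blk idx y)
    (by rw [star_blk]; exact blk_mul idx hinj D hD _ _ _ hy1)
    (by rw [star_blk]; exact blk_mul idx hinj D hD _ _ _ hy2) (QM ((Fin N × (Fin h × Fin d)) ⊕ Fin d) Q) (QM_closed hQ)
    (fun a b => El_mem_QM (one_mem _) a b)
    (sum_mem fun s _ => sum_mem fun i _ => sum_mem fun j _ =>
      El_mem_QM (Q.smul_mem (hx i j) _) _ _)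
  have hs : 0 ≤ 1 - r ^ 2 := by linarith
  have hW : ‖mat y‖ ≤ 1 := by
    apply ContinuousLinearMap.opNorm_le_bound _ zero_le_one
    intro v
    apply le_of_sq_le_sq _ (by positivity)
    rw [← re_inner_self, ← inner_star_right, star_mat, mat_mul]
    simp only [hy1, mat_one, inner_smul_right, Complex.re_ofReal_mul, re_inner_self]
    nlinarith [sq_nonneg ‖v‖]
  have hdd : (0 : ℝ) < d := by exact_mod_cast (by omega : 0 < d)
  have core := S.core hr2 (by rw [hr]; simp [hρ]) (κ := κ) (δ := δ) (g := g) (by omega) hg hδ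
    (by rw [hcD, hr, sub_sub_cancel]; exact hκ) idx hinj hout (by simpa using hN)
    (by
      rw [hcD, hcDc]; push_cast
      have := mul_le_mul_of_nonneg_right h1 hdd.le
      linarith)
    (by
      rw [hcD]; simp only [Fintype.card_prod, Fintype.card_fin]; push_cast
      have := mul_le_mul_of_nonneg_right h2 hdd.le
      linarith) hY
    (fun V => hf_of hg hyp D rfl _ (hSQ V) (fun v => by
      have := S.energy_q V v
      nlinarith [mul_nonneg hs (sq_nonneg ‖qD K Dᶜ (S.F V (qD K D v))‖)]))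
    (fun V => hf_of hg hyp D rfl _ (star_mem (hSQ V)) (fun v => by
      have := S.swap.energy_q V v
      rw [Sys.swap_F] at this
      nlinarith [mul_nonneg hs (sq_nonneg ‖qD K Dᶜ (star (S.F V) (qD K D v))‖)]))
    (mat y) hW
    (fun s η => by rw [hSX, star_blk, star_mat, blk_emb idx hinj])
    (fun s η => by rw [hSX, blk_emb idx hinj])
  intro ξ
  set ζ : HH (Fin h × Fin d) K := HH.mk ξ
  set w : HH (Fin h × Fin d) K := HH.mk fun i => ∑ j, (Y * x i j - x i j * Y) (ξ j) with hw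
  have hw2 : dg (Fin h × Fin d) Y (mat y ζ) - mat y (dg (Fin h × Fin d) Y ζ) = (r : ℂ) • w := by
    ext i
    simp only [HH.sub_apply, dg_apply, mat_apply, y, ζ, hw, HH.mk_apply, HH.smul_apply,
      ContinuousLinearMap.smul_apply, ContinuousLinearMap.sub_apply,
      ContinuousLinearMap.mul_apply, map_sum, map_smul, Finset.smul_sum, Finset.sum_sub_distrib,
      smul_sub]
  have hc : 0 < 4 * g + 8 * δ := by positivity
  have := core (((1 / (4 * g + 8 * δ) : ℝ) : ℂ) • w) ζ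
  rw [hw2, inner_smul_left, inner_smul_right, Complex.conj_ofReal, Complex.re_ofReal_mul,
    Complex.re_ofReal_mul, re_inner_self, norm_smul, Complex.norm_real, Real.norm_eq_abs, mul_pow,
    sq_abs] at this
  have e1 : ∑ i, ‖∑ j, (Y * x i j - x i j * Y) (ξ j)‖ ^ 2 = ‖w‖ ^ 2 := by rw [nsq]; rfl
  have e2 : ∑ j, ‖ξ j‖ ^ 2 = ‖ζ‖ ^ 2 := by rw [nsq]; rfl
  rw [e1, e2]
  set c := 4 * g + 8 * δ
  have e3 : 3 * g + 6 * δ = 3 / 4 * c := by simp only [c]; ring
  rw [e3] at this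
  have e4 : 1 / c * (3 / 4 * ‖w‖ ^ 2) ≤ 1 / c * (r * ‖w‖ ^ 2) := by gcongr; linarith
  have e5 := mul_le_mul_of_nonneg_left (e4.trans this) hc.le
  have e6 : c * (1 / c * (3 / 4 * ‖w‖ ^ 2)) = 3 / 4 * ‖w‖ ^ 2 := by field_simp
  have e7 : c * (3 / 4 * c * (((1 / c) ^ 2 * ‖w‖ ^ 2 + ‖ζ‖ ^ 2) / 2)) =
      3 / 8 * ‖w‖ ^ 2 + 3 / 8 * (c ^ 2 * ‖ζ‖ ^ 2) := by field_simp; ring
  rw [e6, e7] at e5
  linarith

end

theorem mt : MT.{u} := by
  intro h ε hε
  set δ : ℝ := ε / 8 with hδ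
  have hδ0 : 0 < δ := by positivity
  obtain ⟨N, hN⟩ := exists_nat_gt (2 * h / δ ^ 2)
  have hN0 : (0 : ℝ) < N := lt_of_le_of_lt (by positivity) hN
  have hN1 : 2 * h ≤ N * δ ^ 2 := by
    rw [div_lt_iff₀ (by positivity)] at hN; exact hN.le
  set κ : ℝ := min 1 (δ ^ 2 / (2 * (h + 1))) with hκ
  have hκ0 : 0 < κ := lt_min one_pos (by positivity)
  have hκ1 : κ ≤ 1 := min_le_left _ _
  have hκ2 : κ * (2 * (h + 1)) ≤ δ ^ 2 := by
    rw [← le_div_iff₀ (by positivity)]; exact min_le_right _ _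
  set ρ : ℝ := min (1 / 4) (δ ^ 2 / (4 * (N * h + 1))) with hρ
  have hρ0 : 0 < ρ := lt_min (by norm_num) (by positivity)
  have hρ1 : ρ ≤ 1 / 4 := min_le_left _ _
  have hρ2 : ρ * (4 * (N * h + 1)) ≤ δ ^ 2 := by
    rw [← le_div_iff₀ (by positivity)]; exact min_le_right _ _
  obtain ⟨m, hm⟩ := exists_nat_gt (8 * (1 / ρ) ^ 3 / κ)
  have hm1 : 8 * (1 / ρ) ^ 3 ≤ m * κ := by
    rw [div_lt_iff₀ hκ0] at hm; exact hm.le
  refine ⟨m + 2, by omega, ?_⟩
  intro K _ _ _ Q hQ Y g hg hyp x hx hx1 hx2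
  have hh : (0 : ℝ) ≤ h := Nat.cast_nonneg h
  have hm0 : (0 : ℝ) ≤ m := Nat.cast_nonneg m
  have key := fun Y hY g hg hyp => mt_norm (K := K) (h := h) (d := m + 2) (N := N) (δ := δ)
    (κ := κ) (ρ := ρ) (by omega) (by exact_mod_cast hN0) hδ0 hρ0 hρ1
    (by
      push_cast
      have h3 : 0 ≤ (1 / ρ) ^ 3 := by positivity
      have h4 : 2 * ((m : ℝ) + 2) * (1 / ρ) ^ 3 ≤ (m + 1) * (8 * (1 / ρ) ^ 3) := by nlinarith
      have h5 : ((m : ℝ) + 1) * (8 * (1 / ρ) ^ 3) ≤ (m + 1) * (m * κ) := by gcongr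
      nlinarith)
    (by
      have h3 : 1 - (1 - ρ) ^ 2 ≤ 2 * ρ := by nlinarith
      have h4 : (N : ℝ) * h * (1 + κ) ≤ N * h * 2 := by gcongr; linarith
      have h5 : (1 - (1 - ρ) ^ 2) * (N * h * (1 + κ)) ≤ 2 * ρ * (N * h * 2) := by
        apply mul_le_mul h3 h4 (by positivity) (by positivity)
      nlinarith)
    (by
      have h3 := mul_le_mul_of_nonneg_left hN1 hN0.le
      have h4 := mul_le_mul_of_nonneg_left hκ2 (sq_nonneg (N : ℝ))
      have h5 : 0 ≤ (N : ℝ) ^ 2 * κ := by positivity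
      nlinarith)
    Q hQ Y hY g hg hyp x hx hx1 hx2
  by_cases hY : Y = 0
  · subst hY
    intro ξ
    simp only [zero_mul, mul_zero, sub_zero, ContinuousLinearMap.zero_apply, Finset.sum_const_zero,
      norm_zero]
    simp only [ne_eq, OfNat.ofNat_ne_zero, not_false_eq_true, zero_pow, Finset.sum_const_zero]
    positivity
  · have hn : 0 < ‖Y‖ := norm_pos_iff.2 hY
    have k1 := key (((1 / ‖Y‖ : ℝ) : ℂ) • Y)
      (by
        rw [norm_smul, Complex.norm_real, Real.norm_eq_abs, abs_of_pos (by positivity)]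
        field_simp; exact le_rfl) (1 / ‖Y‖ * g) (by positivity)
      (fun z hz hz1 => by
        have := (hyp z hz hz1).smul (1 / ‖Y‖)
        simpa only [smul_mul_assoc, mul_smul_comm, smul_sub] using this)
    have k2 := k1.smul ‖Y‖
    have e1 : ‖Y‖ * (4 * (1 / ‖Y‖ * g) + 8 * δ) = 4 * g + ε * ‖Y‖ := by
      rw [hδ]; field_simp
    rw [e1] at k2
    convert k2 using 3 with i j
    rw [smul_mul_assoc, mul_smul_comm, ← smul_sub, smul_smul, ← Complex.ofReal_mul,
      mul_one_div_cancel hn.ne', Complex.ofReal_one, one_smul]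

end Crest.Agent.H0164
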