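import Crest.Agent.H0164.Defs

set_option autoImplicit false
universe u

namespace Crest.Agent.H0164

open scoped InnerProductSpace BigOperators

namespace C2

section
variable {K : Type*} [NormedAddCommGroup K] [InnerProductSpace ℂ K] [CompleteSpace K]

/-- The quadratic form of an operator. -/
noncomputable def qf (A : K →L[ℂ] K) (v : K) : ℝ := (⟪v, A v⟫_ℂ).re

lemma le_iff_qf {A B : K →L[ℂ] K} (hA : IsSelfAdjoint A) (hB : IsSelfAdjoint B) :
    A ≤ B ↔ ∀ v, qf A v ≤ qf B v := by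
  rw [ContinuousLinearMap.le_def, ContinuousLinearMap.isPositive_def']
  constructor
  · rintro ⟨-, h⟩ v
    have := h v
    rw [ContinuousLinearMap.reApplyInnerSelf_apply, inner_re_symm] at this
    simp only [sub_apply, inner_sub_right, map_sub] at this
    unfold qf
    simpa using this
  · intro h
    refine ⟨hB.sub hA, fun v => ?_⟩
    rw [ContinuousLinearMap.reApplyInnerSelf_apply, inner_re_symm]
    simp only [sub_apply, inner_sub_right, map_sub]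
    have := h v
    unfold qf at this
    simpa using this

omit [CompleteSpace K] in
lemma qf_alg (r : ℝ) (v : K) : qf (algebraMap ℝ (K →L[ℂ] K) r) v = r * ‖v‖ ^ 2 := by
  unfold qf
  rw [Algebra.algebraMap_eq_smul_one]
  have : ((r • (1 : K →L[ℂ] K)) v) = (r : ℂ) • v := by
    simp [Complex.coe_smul]
  rw [this, inner_smul_right, inner_self_eq_norm_sq_to_K, Complex.re_ofReal_mul]
  norm_cast

omit [CompleteSpace K] in
lemma qf_smul (r : ℝ) (A : K →L[ℂ] K) (v : K) : qf (r • A) v = r * qf A v := by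
  unfold qf
  have : ((r • A) v) = (r : ℂ) • A v := by
    simp [Complex.coe_smul]
  rw [this, inner_smul_right]
  simp

omit [CompleteSpace K] in
lemma qf_add (A B : K →L[ℂ] K) (v : K) : qf (A + B) v = qf A v + qf B v := by
  unfold qf
  simp

omit [CompleteSpace K] in
lemma qf_sub (A B : K →L[ℂ] K) (v : K) : qf (A - B) v = qf A v - qf B v := by
  unfold qf
  simp

omit [CompleteSpace K] in
lemma qf_sum {ι : Type*} (s : Finset ι) (A : ι → (K →L[ℂ] K)) (v : K) :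
    qf (∑ i ∈ s, A i) v = ∑ i ∈ s, qf (A i) v := by
  unfold qf
  simp [Complex.re_sum]

omit [CompleteSpace K] in
lemma abs_qf_le (A : K →L[ℂ] K) (v : K) : |qf A v| ≤ ‖A‖ * ‖v‖ ^ 2 := by
  unfold qf
  calc |(⟪v, A v⟫_ℂ).re| ≤ ‖⟪v, A v⟫_ℂ‖ := Complex.abs_re_le_norm _
    _ ≤ ‖v‖ * ‖A v‖ := norm_inner_le_norm _ _
    _ ≤ ‖v‖ * (‖A‖ * ‖v‖) := by gcongr; exact A.le_opNorm v
    _ = _ := by ring

lemma inner_sa {A : K →L[ℂ] K} (hA : IsSelfAdjoint A) (v w : K) :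
    ⟪v, A w⟫_ℂ = ⟪A v, w⟫_ℂ := by
  conv_lhs => rw [← hA.star_eq, ContinuousLinearMap.star_eq_adjoint]
  rw [ContinuousLinearMap.adjoint_inner_right]

lemma qf_conj {D : K →L[ℂ] K} (hD : IsSelfAdjoint D) (A : K →L[ℂ] K) (v : K) :
    qf (D * A * D) v = qf A (D v) := by
  unfold qf
  simp only [mul_apply_eq_comp]
  rw [inner_sa hD]

/-- Cauchy–Schwarz (AM-GM form) for a positive form. -/
lemma re_le {T : K →L[ℂ] K} (hT : IsSelfAdjoint T) (h0 : ∀ v, 0 ≤ qf T v) (η ξ : K) {t : ℝ}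
    (ht : 0 < t) : 2 * t * (⟪η, T ξ⟫_ℂ).re ≤ t ^ 2 * qf T η + qf T ξ := by
  have h := h0 ((t : ℂ) • η - ξ)
  unfold qf at h ⊢
  have h1 : (⟪ξ, T η⟫_ℂ).re = (⟪η, T ξ⟫_ℂ).re := by
    rw [inner_sa hT ξ η, ← inner_conj_symm, Complex.conj_re]
  simp only [map_sub, map_smul, inner_sub_left, inner_sub_right, inner_smul_left,
    inner_smul_right, Complex.conj_ofReal, Complex.sub_re, Complex.re_ofReal_mul] at h
  rw [h1] at h
  nlinarith

/-- The commutator estimate with respect to the form of `T`. -/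
lemma comm_re {T : K →L[ℂ] K} (hT : IsSelfAdjoint T) (h0 : ∀ v, 0 ≤ qf T v) (x : K →L[ℂ] K)
    {t : ℝ} (ht : 0 < t) (h1 : ∀ v, qf T (x v) ≤ t ^ 2 * qf T v)
    (h2 : ∀ v, qf T (star x v) ≤ t ^ 2 * qf T v) (η ξ : K) :
    (⟪η, (T * x - x * T) ξ⟫_ℂ).re ≤ t * (qf T η + qf T ξ) := by
  have a1 := re_le hT h0 η (x ξ) ht
  have a2 := re_le hT h0 (-ξ) (star x η) ht
  have e1 : qf T (-ξ) = qf T ξ := by unfold qf; simp
  have e2 : (⟪-ξ, T (star x η)⟫_ℂ).re = - (⟪η, x (T ξ)⟫_ℂ).re := by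
    rw [inner_neg_left, inner_sa hT, ContinuousLinearMap.star_eq_adjoint,
      ContinuousLinearMap.adjoint_inner_right, Complex.neg_re, ← inner_conj_symm, Complex.conj_re]
  rw [e1, e2] at a2
  have e3 : (⟪η, (T * x - x * T) ξ⟫_ℂ).re = (⟪η, T (x ξ)⟫_ℂ).re - (⟪η, x (T ξ)⟫_ℂ).re := by
    simp
  rw [e3]
  have b1 := h1 ξ
  have b2 := h2 η
  have : t * ((⟪η, T (x ξ)⟫_ℂ).re - (⟪η, x (T ξ)⟫_ℂ).re) ≤ t * (t * (qf T η + qf T ξ)) := by
    nlinarith
  exact le_of_mul_le_mul_left this ht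

omit [CompleteSpace K] in
lemma norm_le_of_re {B : K →L[ℂ] K} {t : ℝ} (ht : 0 < t)
    (h : ∀ η ξ : K, (⟪η, B ξ⟫_ℂ).re ≤ t * (‖η‖ ^ 2 + ‖ξ‖ ^ 2)) : ‖B‖ ≤ 2 * t := by
  refine B.opNorm_le_bound (by positivity) fun ξ => ?_
  have h1 := h ((((2 * t)⁻¹ : ℝ) : ℂ) • B ξ) ξ
  rw [inner_smul_left, Complex.conj_ofReal, Complex.re_ofReal_mul, norm_smul, Complex.norm_real,
    Real.norm_of_nonneg (by positivity), inner_self_eq_norm_sq_to_K] at h1
  have e : ((‖B ξ‖ : ℂ) ^ 2).re = ‖B ξ‖ ^ 2 := by norm_cast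
  have h2 : (2 * t)⁻¹ * ‖B ξ‖ ^ 2 ≤ t * (((2 * t)⁻¹ * ‖B ξ‖) ^ 2 + ‖ξ‖ ^ 2) := by
    rw [← e]; exact h1
  have h3 : ‖B ξ‖ ^ 2 ≤ (2 * t * ‖ξ‖) ^ 2 := by
    have : (2 * t)⁻¹ * ‖B ξ‖ ^ 2 - t * (((2 * t)⁻¹ * ‖B ξ‖) ^ 2) = (4 * t)⁻¹ * ‖B ξ‖ ^ 2 := by
      field_simp; ring
    have h4 : (4 * t)⁻¹ * ‖B ξ‖ ^ 2 ≤ t * ‖ξ‖ ^ 2 := by linarith
    have h5 : ‖B ξ‖ ^ 2 = (4 * t) * ((4 * t)⁻¹ * ‖B ξ‖ ^ 2) := by field_simp
    rw [h5]
    calc (4 * t) * ((4 * t)⁻¹ * ‖B ξ‖ ^ 2) ≤ (4 * t) * (t * ‖ξ‖ ^ 2) := by gcongr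
      _ = _ := by ring
  exact (pow_le_pow_iff_left₀ (norm_nonneg _) (by positivity) two_ne_zero).1 h3

lemma tele (l : ℝ) (hl : 0 < l) (m : ℕ) :
    ∑ k ∈ Finset.range m, ((2 : ℝ) ^ k)⁻¹ * ((l + ((2 : ℝ) ^ k)⁻¹)⁻¹ * l * (l + ((2 : ℝ) ^ k)⁻¹)⁻¹)
      ≤ 2 * (l / (l + ((2 : ℝ) ^ m)⁻¹)) := by
  induction m with
  | zero => simp only [Finset.range_zero, Finset.sum_empty]; positivity
  | succ m ih =>
    rw [Finset.sum_range_succ]
    have hs : (0 : ℝ) < ((2 : ℝ) ^ m)⁻¹ := by positivity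
    have e : ((2 : ℝ) ^ (m + 1))⁻¹ = ((2 : ℝ) ^ m)⁻¹ / 2 := by rw [pow_succ]; field_simp
    rw [e]
    generalize ((2 : ℝ) ^ m)⁻¹ = s at *
    have : s * ((l + s)⁻¹ * l * (l + s)⁻¹) ≤ 2 * (l / (l + s / 2)) - 2 * (l / (l + s)) := by
      have e1 : 2 * (l / (l + s / 2)) - 2 * (l / (l + s)) = s * l / ((l + s / 2) * (l + s)) := by
        field_simp; ring
      have e2 : s * ((l + s)⁻¹ * l * (l + s)⁻¹) = s * l / ((l + s) * (l + s)) := by
        field_simp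
      rw [e1, e2]
      gcongr
      linarith
    linarith

lemma cfc_sum' {ι : Type*} (f : ι → ℝ → ℝ) (a : K →L[ℂ] K) (s : Finset ι)
    (hf : ∀ i ∈ s, ContinuousOn (f i) (spectrum ℝ a)) :
    cfc (fun l => ∑ i ∈ s, f i l) a = ∑ i ∈ s, cfc (f i) a := by
  rw [← cfc_sum f a s hf]
  congr 1
  ext l
  simp

/-- The discrete logarithm of `T`. -/
lemma exists_L {T : K →L[ℂ] K} (hT : IsSelfAdjoint T) {c : ℝ} (hc : 0 < c)
    (hlo : ∀ v, c * ‖v‖ ^ 2 ≤ qf T v) (hhi : ∀ v, qf T v ≤ ‖v‖ ^ 2) (m : ℕ) :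
    ∃ L : K →L[ℂ] K, IsSelfAdjoint L ∧ (∀ v, (m / 2 : ℝ) * qf T v ≤ qf L v) ∧
      (∀ v, qf L v ≤ 2 ^ m * qf T v) ∧
      ∀ (x : K →L[ℂ] K) (t : ℝ), 0 < t → (∀ v, qf T (x v) ≤ t ^ 2 * qf T v) →
        (∀ v, qf T (star x v) ≤ t ^ 2 * qf T v) → ‖L * x - x * L‖ ≤ 4 * t := by
  have h0 : ∀ v, 0 ≤ qf T v := fun v => le_trans (by positivity) (hlo v)
  have hsa : ∀ r : ℝ, IsSelfAdjoint (algebraMap ℝ (K →L[ℂ] K) r) := fun r =>
    IsSelfAdjoint.algebraMap _ (IsSelfAdjoint.all r)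
  have sp1 : ∀ l ∈ spectrum ℝ T, c ≤ l := by
    rw [← algebraMap_le_iff_le_spectrum (a := T), le_iff_qf (hsa c) hT]
    intro v; rw [qf_alg]; exact hlo v
  have sp2 : ∀ l ∈ spectrum ℝ T, l ≤ 1 := by
    rw [← le_algebraMap_iff_spectrum_le (a := T), le_iff_qf hT (hsa 1)]
    intro v; rw [qf_alg, one_mul]; exact hhi v
  set s : ℕ → ℝ := fun k => ((2 : ℝ) ^ k)⁻¹ with hs
  have spos : ∀ k, 0 < s k := fun k => by simp only [hs]; positivity
  have sle : ∀ k, s k ≤ 1 := fun k => by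
    simp only [hs]; exact inv_le_one_of_one_le₀ (one_le_pow₀ (by norm_num))
  have hne : ∀ k, ∀ l ∈ spectrum ℝ T, l + s k ≠ 0 := fun k l hl => by
    have := sp1 l hl; have := spos k; linarith
  have hcont : ∀ k, ContinuousOn (fun l : ℝ => (l + s k)⁻¹) (spectrum ℝ T) := fun k =>
    ContinuousOn.inv₀ (by fun_prop) (hne k)
  set R : ℕ → (K →L[ℂ] K) := fun k => cfc (fun l : ℝ => (l + s k)⁻¹) T with hR
  have Rsa : ∀ k, IsSelfAdjoint (R k) := fun k => cfc_predicate _ _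
  have hTs : ∀ k, cfc (fun l : ℝ => l + s k) T = T + algebraMap ℝ _ (s k) := fun k => by
    rw [cfc_add_const (s k) (fun l : ℝ => l) T, cfc_id' ℝ T]
  have hR1 : ∀ k, (T + algebraMap ℝ _ (s k)) * R k = 1 := fun k => by
    rw [← hTs, hR, ← cfc_mul _ _ T (by fun_prop) (hcont k), ← cfc_const_one ℝ T]
    exact cfc_congr fun l hl => mul_inv_cancel₀ (hne k l hl)
  have hR2 : ∀ k, R k * (T + algebraMap ℝ _ (s k)) = 1 := fun k => by
    rw [← hTs, hR, ← cfc_mul _ _ T (hcont k) (by fun_prop), ← cfc_const_one ℝ T]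
    exact cfc_congr fun l hl => inv_mul_cancel₀ (hne k l hl)
  have hcont2 : ∀ k, ContinuousOn (fun l : ℝ => 1 - s k * (l + s k)⁻¹) (spectrum ℝ T) := fun k =>
    continuousOn_const.sub (continuousOn_const.mul (hcont k))
  set L : K →L[ℂ] K := cfc (fun l : ℝ => ∑ k ∈ Finset.range m, (1 - s k * (l + s k)⁻¹)) T with hL
  have hcL : ContinuousOn (fun l : ℝ => ∑ k ∈ Finset.range m, (1 - s k * (l + s k)⁻¹))
      (spectrum ℝ T) := continuousOn_finsetSum _ fun k _ => hcont2 k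
  have Lsa : IsSelfAdjoint L := cfc_predicate _ _
  have hLsum : L = ∑ k ∈ Finset.range m, (1 - s k • R k) := by
    rw [hL, cfc_sum' _ _ _ (fun k _ => hcont2 k)]
    refine Finset.sum_congr rfl fun k _ => ?_
    rw [cfc_sub (fun _ : ℝ => (1 : ℝ)) (fun l : ℝ => s k * (l + s k)⁻¹) T continuousOn_const
      (continuousOn_const.mul (hcont k)), cfc_const_one ℝ T,
      cfc_const_mul (s k) (fun l : ℝ => (l + s k)⁻¹) T (hcont k)]
  have hsm : ∀ r : ℝ, cfc (fun l : ℝ => r * l) T = r • T := fun r => by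
    rw [cfc_const_mul r (fun l : ℝ => l) T, cfc_id' ℝ T]
  refine ⟨L, Lsa, ?_, ?_, ?_⟩
  · have : (m / 2 : ℝ) • T ≤ L := by
      rw [← hsm, hL]
      refine cfc_mono (fun l hl => ?_) (by fun_prop) hcL
      have h1 := sp1 l hl
      have h2 := sp2 l hl
      have : ∀ k ∈ Finset.range m, l / 2 ≤ 1 - s k * (l + s k)⁻¹ := fun k _ => by
        have h3 := spos k
        have h4 := sle k
        have e : 1 - s k * (l + s k)⁻¹ = l / (l + s k) := by
          have := hne k l hl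
          field_simp; ring
        rw [e]
        gcongr
        · linarith
        · linarith
        · linarith
      have h5 := Finset.sum_le_sum this
      simp only [Finset.sum_const, Finset.card_range, nsmul_eq_mul] at h5
      linarith
    intro v
    rw [← qf_smul]
    exact (le_iff_qf ((IsSelfAdjoint.all _).smul hT) Lsa).1 this v
  · have : L ≤ ((2 : ℝ) ^ m) • T := by
      rw [← hsm, hL]
      refine cfc_mono (fun l hl => ?_) hcL (by fun_prop)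
      have h1 := sp1 l hl
      have : ∀ k ∈ Finset.range m, 1 - s k * (l + s k)⁻¹ ≤ 2 ^ k * l := fun k _ => by
        have h3 := spos k
        have e : 1 - s k * (l + s k)⁻¹ = l / (l + s k) := by
          have := hne k l hl
          field_simp; ring
        have e2 : (2 : ℝ) ^ k * l = l / s k := by simp only [hs]; field_simp
        rw [e, e2]
        gcongr
        · linarith
        · linarith
      refine (Finset.sum_le_sum this).trans ?_
      rw [← Finset.sum_mul]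
      gcongr
      · linarith
      · rw [geom_sum_eq (by norm_num)]; linarith
    intro v
    rw [← qf_smul]
    exact (le_iff_qf Lsa ((IsSelfAdjoint.all _).smul hT)).1 this v
  · intro x t ht h1 h2
    have hcomm : L * x - x * L = ∑ k ∈ Finset.range m, s k • (R k * (T * x - x * T) * R k) := by
      rw [hLsum, Finset.sum_mul, Finset.mul_sum, ← Finset.sum_sub_distrib]
      refine Finset.sum_congr rfl fun k _ => ?_
      have e1 : R k * (T * x - x * T) * R k = x * R k - R k * x := by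
        have a : T * x - x * T = (T + algebraMap ℝ _ (s k)) * x - x * (T + algebraMap ℝ _ (s k)) := by
          rw [add_mul, mul_add, Algebra.commutes]; abel
        rw [a, mul_sub, sub_mul, ← mul_assoc, hR2, one_mul, mul_assoc, mul_assoc, hR1, mul_one]
      rw [e1]
      simp only [sub_mul, mul_sub, one_mul, mul_one, smul_mul_assoc, mul_smul_comm, smul_sub]
      abel
    have hsum : ∀ η, ∑ k ∈ Finset.range m, s k * qf T (R k η) ≤ 2 * ‖η‖ ^ 2 := by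
      intro η
      have hc3 : ∀ k, ContinuousOn (fun l : ℝ => s k * ((l + s k)⁻¹ * l * (l + s k)⁻¹))
          (spectrum ℝ T) := fun k =>
        continuousOn_const.mul (((hcont k).mul continuousOn_id).mul (hcont k))
      have e1 : ∀ k, cfc (fun l : ℝ => s k * ((l + s k)⁻¹ * l * (l + s k)⁻¹)) T
          = s k • (R k * T * R k) := fun k => by
        rw [cfc_const_mul (s k) (fun l : ℝ => (l + s k)⁻¹ * l * (l + s k)⁻¹) T
            (((hcont k).mul continuousOn_id).mul (hcont k)),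
          cfc_mul (fun l : ℝ => (l + s k)⁻¹ * l) (fun l : ℝ => (l + s k)⁻¹) T
            ((hcont k).mul continuousOn_id) (hcont k),
          cfc_mul (fun l : ℝ => (l + s k)⁻¹) (fun l : ℝ => l) T (hcont k) continuousOn_id,
          cfc_id' ℝ T]
      have e2 : cfc (fun l : ℝ => ∑ k ∈ Finset.range m, s k * ((l + s k)⁻¹ * l * (l + s k)⁻¹)) T
          = ∑ k ∈ Finset.range m, s k • (R k * T * R k) := by
        rw [cfc_sum' _ _ _ (fun k _ => hc3 k)]
        exact Finset.sum_congr rfl fun k _ => e1 k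
      have e3 : cfc (fun l : ℝ => ∑ k ∈ Finset.range m, s k * ((l + s k)⁻¹ * l * (l + s k)⁻¹)) T
          ≤ algebraMap ℝ _ 2 := by
        refine cfc_le_algebraMap _ _ _ (fun l hl => ?_) (continuousOn_finsetSum _ fun k _ => hc3 k)
        have h1 := sp1 l hl
        have hl0 : 0 < l := by linarith
        refine (tele l hl0 m).trans ?_
        have : l / (l + ((2 : ℝ) ^ m)⁻¹) ≤ 1 := by
          rw [div_le_one (by positivity)]
          have : (0 : ℝ) < ((2 : ℝ) ^ m)⁻¹ := by positivity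
          linarith
        linarith
      have e4 := (le_iff_qf (cfc_predicate _ _) (hsa 2)).1 e3 η
      rw [e2, qf_alg, qf_sum] at e4
      refine le_trans (le_of_eq ?_) e4
      refine Finset.sum_congr rfl fun k _ => ?_
      rw [qf_smul, qf_conj (Rsa k)]
    have := norm_le_of_re (B := L * x - x * L) (t := 2 * t) (by positivity) fun η ξ => by
      rw [hcomm]
      have e : (⟪η, (∑ k ∈ Finset.range m, s k • (R k * (T * x - x * T) * R k)) ξ⟫_ℂ).re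
          = ∑ k ∈ Finset.range m, s k * (⟪R k η, (T * x - x * T) (R k ξ)⟫_ℂ).re := by
        rw [sum_apply, inner_sum, Complex.re_sum]
        refine Finset.sum_congr rfl fun k _ => ?_
        have : (s k • (R k * (T * x - x * T) * R k)) ξ
            = ((s k : ℝ) : ℂ) • R k ((T * x - x * T) (R k ξ)) := by
          simp [Complex.coe_smul]
        rw [this, inner_smul_right, Complex.re_ofReal_mul, inner_sa (Rsa k)]
      rw [e]
      calc ∑ k ∈ Finset.range m, s k * (⟪R k η, (T * x - x * T) (R k ξ)⟫_ℂ).re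
          ≤ ∑ k ∈ Finset.range m, s k * (t * (qf T (R k η) + qf T (R k ξ))) :=
            Finset.sum_le_sum fun k _ =>
              mul_le_mul_of_nonneg_left (comm_re hT h0 x ht h1 h2 _ _) (spos k).le
        _ = t * (∑ k ∈ Finset.range m, s k * qf T (R k η)
              + ∑ k ∈ Finset.range m, s k * qf T (R k ξ)) := by
            rw [← Finset.sum_add_distrib, Finset.mul_sum]
            exact Finset.sum_congr rfl fun k _ => by ring
        _ ≤ t * (2 * ‖η‖ ^ 2 + 2 * ‖ξ‖ ^ 2) := by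
            gcongr
            · exact hsum η
            · exact hsum ξ
        _ = _ := by ring
    linarith

/-- One improvement step in normalised form. -/
lemma step0 {C : ℝ} (hC : 0 ≤ C) (P : VonNeumannAlgebra K)
    (hAD : ∀ (Y : K →L[ℂ] K) (g : ℝ), IsSelfAdjoint Y → 0 ≤ g →
      (∀ a ∈ P, ‖Y * a - a * Y‖ ≤ g * ‖a‖) →
      ∃ Y₀ : K →L[ℂ] K, IsSelfAdjoint Y₀ ∧ (∀ a ∈ P, a * Y₀ = Y₀ * a) ∧ ‖Y - Y₀‖ ≤ C * g)
    {κ : ℝ} (hκ : 0 < κ) {m : ℕ} (hm : 32 * C * κ + 1 ≤ m)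
    {T : K →L[ℂ] K} (hT : IsSelfAdjoint T) {γ : ℝ} (hγ : 0 < γ)
    (hlo : ∀ v, ‖v‖ ^ 2 ≤ γ * qf T v) (hhi : ∀ v, qf T v ≤ ‖v‖ ^ 2)
    (hP : ∀ x ∈ P, ∀ v, qf T (x v) ≤ κ ^ 2 * ‖x‖ ^ 2 * qf T v) :
    ∃ T' : K →L[ℂ] K, IsSelfAdjoint T' ∧ (∀ x ∈ P, x * T' = T' * x) ∧
      ∀ v, qf T v ≤ qf T' v ∧ qf T' v ≤ (γ / 2 + 2 ^ (m + 1)) * qf T v := by
  have hlo' : ∀ v, γ⁻¹ * ‖v‖ ^ 2 ≤ qf T v := fun v => by
    rw [inv_mul_le_iff₀ hγ]; exact hlo v
  have h0 : ∀ v, 0 ≤ qf T v := fun v => le_trans (by positivity) (hlo' v)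
  obtain ⟨L, Lsa, h1, h2, h3⟩ := exists_L hT (inv_pos.2 hγ) hlo' hhi m
  obtain ⟨L₀, L0sa, hc, hn⟩ := hAD L (4 * κ) Lsa (by positivity) fun a ha => by
    by_cases ha0 : a = 0
    · simp [ha0]
    have hpos : 0 < ‖a‖ := norm_pos_iff.2 ha0
    have := h3 a (κ * ‖a‖) (by positivity) (fun v => by rw [mul_pow]; exact hP a ha v)
      (fun v => by
        have := hP (star a) (star_mem ha) v
        rw [norm_star] at this
        rw [mul_pow]; exact this)
    linarith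
  have hCκ : 0 ≤ C * κ := by positivity
  have hm1 : (1 : ℝ) ≤ m := by nlinarith
  have hmpos : (0 : ℝ) < m := by linarith
  refine ⟨(2 / m : ℝ) • (algebraMap ℝ _ (C * (4 * κ)) + L₀),
    (IsSelfAdjoint.all _).smul ((IsSelfAdjoint.algebraMap _ (IsSelfAdjoint.all _)).add L0sa),
    fun x hx => ?_, fun v => ?_⟩
  · rw [mul_smul_comm, smul_mul_assoc, mul_add, add_mul, hc x hx, Algebra.commutes]
  · have e := abs_qf_le (L - L₀) v
    rw [qf_sub] at e
    have e2 : ‖L - L₀‖ * ‖v‖ ^ 2 ≤ C * (4 * κ) * ‖v‖ ^ 2 := by gcongr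
    have e3 := abs_le.1 (e.trans e2)
    rw [qf_smul, qf_add, qf_alg]
    have a1 := h1 v
    have a2 := h2 v
    have a3 := hlo v
    have a0 := h0 v
    constructor
    · have : (m / 2 : ℝ) * qf T v ≤ C * (4 * κ) * ‖v‖ ^ 2 + qf L₀ v := by linarith [e3.2]
      calc qf T v = (2 / m : ℝ) * ((m / 2 : ℝ) * qf T v) := by field_simp
        _ ≤ _ := by gcongr
    · have b1 : C * (4 * κ) * ‖v‖ ^ 2 + qf L₀ v ≤ 8 * (C * κ) * (γ * qf T v) + 2 ^ m * qf T v := by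
        have : C * κ * ‖v‖ ^ 2 ≤ C * κ * (γ * qf T v) := by gcongr
        linarith [e3.1]
      have b2 : (2 / m : ℝ) * (8 * (C * κ)) ≤ 1 / 2 := by
        rw [div_mul_eq_mul_div, div_le_iff₀ hmpos]; linarith
      have b3 : (2 / m : ℝ) ≤ 2 := by
        rw [div_le_iff₀ hmpos]; linarith
      have b4 : 0 ≤ γ * qf T v := by positivity
      calc (2 / m : ℝ) * (C * (4 * κ) * ‖v‖ ^ 2 + qf L₀ v)
          ≤ (2 / m : ℝ) * (8 * (C * κ) * (γ * qf T v) + 2 ^ m * qf T v) := by gcongr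
        _ = ((2 / m : ℝ) * (8 * (C * κ))) * (γ * qf T v) + (2 / m : ℝ) * (2 ^ m * qf T v) := by ring
        _ ≤ (1 / 2) * (γ * qf T v) + 2 * (2 ^ m * qf T v) := by gcongr
        _ = _ := by ring

/-- One improvement step. -/
lemma step {C : ℝ} (hC : 0 ≤ C) (P : VonNeumannAlgebra K)
    (hAD : ∀ (Y : K →L[ℂ] K) (g : ℝ), IsSelfAdjoint Y → 0 ≤ g →
      (∀ a ∈ P, ‖Y * a - a * Y‖ ≤ g * ‖a‖) →
      ∃ Y₀ : K →L[ℂ] K, IsSelfAdjoint Y₀ ∧ (∀ a ∈ P, a * Y₀ = Y₀ * a) ∧ ‖Y - Y₀‖ ≤ C * g)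
    {κ : ℝ} (hκ : 0 < κ) {m : ℕ} (hm : 32 * C * κ + 1 ≤ m)
    {T : K →L[ℂ] K} (hT : IsSelfAdjoint T) {c : ℝ} (hc : 0 < c)
    (hlo : ∀ v, c * ‖v‖ ^ 2 ≤ qf T v)
    (hP : ∀ x ∈ P, ∀ v, qf T (x v) ≤ κ ^ 2 * ‖x‖ ^ 2 * qf T v) {γ : ℝ} (hγ : 0 < γ)
    (hG : ∃ T' : K →L[ℂ] K, IsSelfAdjoint T' ∧ (∀ x ∈ P, x * T' = T' * x) ∧
      ∀ v, qf T v ≤ qf T' v ∧ qf T' v ≤ γ * qf T v) :
    ∃ T' : K →L[ℂ] K, IsSelfAdjoint T' ∧ (∀ x ∈ P, x * T' = T' * x) ∧
      ∀ v, qf T v ≤ qf T' v ∧ qf T' v ≤ (γ / 2 + 2 ^ (m + 1)) * qf T v := by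
  obtain ⟨S, Ssa, hSc, hS⟩ := hG
  have hsa : ∀ r : ℝ, IsSelfAdjoint (algebraMap ℝ (K →L[ℂ] K) r) := fun r =>
    IsSelfAdjoint.algebraMap _ (IsSelfAdjoint.all r)
  have sp1 : ∀ l ∈ spectrum ℝ S, c ≤ l := by
    rw [← algebraMap_le_iff_le_spectrum (a := S), le_iff_qf (hsa c) Ssa]
    intro v; rw [qf_alg]; exact (hlo v).trans (hS v).1
  have hne : ∀ l ∈ spectrum ℝ S, √l ≠ 0 := fun l hl =>
    (Real.sqrt_pos.2 (lt_of_lt_of_le hc (sp1 l hl))).ne'
  have hcD : ContinuousOn (fun l : ℝ => (√l)⁻¹) (spectrum ℝ S) :=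
    ContinuousOn.inv₀ (by fun_prop) hne
  set E : K →L[ℂ] K := cfc (fun l : ℝ => √l) S with hE
  set D : K →L[ℂ] K := cfc (fun l : ℝ => (√l)⁻¹) S with hD
  have Esa : IsSelfAdjoint E := cfc_predicate _ _
  have Dsa : IsSelfAdjoint D := cfc_predicate _ _
  have hDE : D * E = 1 := by
    rw [hD, hE, ← cfc_mul _ _ S hcD (by fun_prop), ← cfc_const_one ℝ S]
    exact cfc_congr fun l hl => inv_mul_cancel₀ (hne l hl)
  have hED : E * D = 1 := by
    rw [hD, hE, ← cfc_mul _ _ S (by fun_prop) hcD, ← cfc_const_one ℝ S]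
    exact cfc_congr fun l hl => mul_inv_cancel₀ (hne l hl)
  have hEE : E * E = S := by
    rw [hE, ← cfc_mul _ _ S (by fun_prop) (by fun_prop)]
    conv_rhs => rw [← cfc_id' ℝ S]
    exact cfc_congr fun l hl => Real.mul_self_sqrt (hc.le.trans (sp1 l hl))
  have hDSD : D * S * D = 1 := by
    rw [← hEE, ← mul_assoc, hDE, one_mul, hED]
  have hDc : ∀ x ∈ P, x * D = D * x := fun x hx =>
    ((show Commute S x from (hSc x hx).symm).cfc_real _).symm.eq
  have hEc : ∀ x ∈ P, x * E = E * x := fun x hx =>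
    ((show Commute S x from (hSc x hx).symm).cfc_real _).symm.eq
  have hSD : ∀ v, qf S (D v) = ‖v‖ ^ 2 := fun v => by
    rw [← qf_conj Dsa, hDSD, ← one_mul (‖v‖ ^ 2), ← qf_alg, map_one]
  have hT1 : IsSelfAdjoint (D * T * D) := by
    have := hT.conjugate_self Dsa
    exact this
  obtain ⟨T₁, T1sa, hT1c, hT1b⟩ := step0 hC P hAD hκ hm hT1 hγ
    (fun v => by rw [qf_conj Dsa, ← hSD]; exact (hS _).2)
    (fun v => by rw [qf_conj Dsa, ← hSD]; exact (hS _).1)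
    (fun x hx v => by
      rw [qf_conj Dsa, qf_conj Dsa]
      have : D (x v) = x (D v) := by
        rw [← mul_apply_eq_comp, ← hDc x hx, mul_apply_eq_comp]
      rw [this]
      exact hP x hx _)
  refine ⟨E * T₁ * E, T1sa.conjugate_self Esa, fun x hx => ?_, fun v => ?_⟩
  · rw [← mul_assoc, ← mul_assoc, hEc x hx, mul_assoc E x, hT1c x hx, mul_assoc, mul_assoc,
      hEc x hx]
    simp only [mul_assoc]
  · have e : qf T v = qf (D * T * D) (E v) := by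
      rw [qf_conj Dsa, ← mul_apply_eq_comp, hDE]; rfl
    rw [qf_conj Esa, e]
    exact hT1b _

end

end C2

open C2 in
theorem kl (hAD : AD.{u}) : KL.{u} := by
  obtain ⟨C, hC, hAD⟩ := hAD
  intro κ
  obtain ⟨m, hm⟩ := exists_nat_ge (32 * C * (|κ| + 1) + 1)
  refine ⟨1 + 2 ^ (m + 2), by positivity, ?_⟩
  intro K _ _ _ P T c hc hT hlo hP
  have hκ : 0 < |κ| + 1 := by positivity
  have h0 : ∀ v, 0 ≤ qf T v := fun v => le_trans (by positivity) (hlo v)
  have hP' : ∀ x ∈ P, ∀ v, qf T (x v) ≤ (|κ| + 1) ^ 2 * ‖x‖ ^ 2 * qf T v := fun x hx v => by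
    refine (hP x hx v).trans ?_
    have := h0 v
    have h2 : κ ^ 2 ≤ (|κ| + 1) ^ 2 := by
      rw [← sq_abs κ]; gcongr; linarith
    unfold qf at this ⊢
    gcongr
  set γ₀ : ℝ := ‖T‖ / c + 1 with hγ₀
  have hγ₀pos : 0 < γ₀ := by positivity
  have key : ∀ n : ℕ, ∃ T' : K →L[ℂ] K, IsSelfAdjoint T' ∧ (∀ x ∈ P, x * T' = T' * x) ∧
      ∀ v, qf T v ≤ qf T' v ∧ qf T' v ≤ (γ₀ / 2 ^ n + 2 ^ (m + 2)) * qf T v := by
    intro n
    induction n with
    | zero =>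
      refine ⟨algebraMap ℝ _ ‖T‖, IsSelfAdjoint.algebraMap _ (IsSelfAdjoint.all _),
        fun x _ => (Algebra.commutes _ _).symm, fun v => ?_⟩
      rw [qf_alg]
      refine ⟨(le_abs_self _).trans (abs_qf_le T v), ?_⟩
      have a0 := h0 v
      have a1 : c * ‖v‖ ^ 2 ≤ qf T v := hlo v
      calc ‖T‖ * ‖v‖ ^ 2 = ‖T‖ / c * (c * ‖v‖ ^ 2) := by field_simp
        _ ≤ ‖T‖ / c * qf T v := by gcongr
        _ ≤ _ := by
          gcongr
          have : (0 : ℝ) < 2 ^ (m + 2) := by positivity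
          simp only [pow_zero, div_one]
          linarith
    | succ n ih =>
      have := step hC P (hAD K P) hκ hm hT hc hlo hP' (by positivity) ih
      convert this using 6
      rw [pow_succ (2 : ℝ) n, pow_succ (2 : ℝ) (m + 1)]
      field_simp
      ring_nf
  obtain ⟨n, hn⟩ := pow_unbounded_of_one_lt γ₀ (one_lt_two (α := ℝ))
  obtain ⟨T', h1, h2, h3⟩ := key n
  refine ⟨T', h1, h2, fun v => ⟨(h3 v).1, (h3 v).2.trans ?_⟩⟩
  have a0 := h0 v
  have : γ₀ / 2 ^ n ≤ 1 := by rw [div_le_one (by positivity)]; exact hn.le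
  unfold qf at a0 ⊢
  gcongr

end Crest.Agent.H0164
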