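import Crest.Agent.H0164.Defs

set_option autoImplicit false

namespace Crest.Agent.H0164

/-- Hahn–Banach in cone form. -/
theorem hb_cone {V : Type*} [AddCommGroup V] [Module ℝ V] (C : Set (V × ℝ))
    (hadd : ∀ x ∈ C, ∀ y ∈ C, x + y ∈ C) (hsmul : ∀ t : ℝ, 0 < t → ∀ x ∈ C, t • x ∈ C)
    (h0 : ∀ r : ℝ, ((0 : V), r) ∈ C → 0 ≤ r) (hall : ∀ v : V, ∃ r : ℝ, (v, r) ∈ C) :
    ∃ Φ : V →ₗ[ℝ] ℝ, ∀ v r, (v, r) ∈ C → Φ v ≤ r := by
  set S : V → Set ℝ := fun v => {r | (v, r) ∈ C} with hS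
  have hne : ∀ v, (S v).Nonempty := fun v => hall v
  have hbdd : ∀ v, BddBelow (S v) := fun v => by
    obtain ⟨r', hr'⟩ := hall (-v)
    refine ⟨-r', fun r hr => ?_⟩
    have := hadd _ hr _ hr'
    simp only [Prod.mk_add_mk, add_neg_cancel] at this
    have := h0 _ this
    linarith
  set p : V → ℝ := fun v => sInf (S v) with hp
  have hle : ∀ v r, (v, r) ∈ C → p v ≤ r := fun v r h => csInf_le (hbdd v) h
  have hsm : ∀ t : ℝ, 0 < t → ∀ v, p (t • v) ≤ t * p v := fun t ht v => by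
    rw [← div_le_iff₀' ht]
    refine le_csInf (hne v) fun r hr => ?_
    rw [div_le_iff₀' ht]
    exact hle _ _ (by simpa using hsmul t ht _ hr)
  have hhom : ∀ t : ℝ, 0 < t → ∀ v, p (t • v) = t * p v := fun t ht v => by
    refine le_antisymm (hsm t ht v) ?_
    have := hsm t⁻¹ (inv_pos.2 ht) (t • v)
    rw [smul_smul, inv_mul_cancel₀ ht.ne', one_smul, le_inv_mul_iff₀ ht] at this
    exact this
  have hsub : ∀ v w, p (v + w) ≤ p v + p w := fun v w => by
    have : p (v + w) - p w ≤ p v := by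
      refine le_csInf (hne v) fun r hr => ?_
      have : p (v + w) - r ≤ p w := by
        refine le_csInf (hne w) fun r' hr' => ?_
        have := hle _ _ (by simpa using hadd _ hr _ hr')
        linarith
      linarith
    linarith
  obtain ⟨g, -, hg⟩ := exists_extension_of_le_sublinear
    (⟨⊥, 0⟩ : V →ₗ.[ℝ] ℝ) p hhom hsub (fun x => by
      have hx : (x : V) = 0 := (Submodule.mem_bot ℝ).1 x.2
      rw [hx]
      exact le_csInf (hne 0) fun r hr => h0 r hr)
  exact ⟨g, fun v r h => (hg v).trans (hle v r h)⟩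

end Crest.Agent.H0164
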