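import Crest.Agent.H0164.A1Max
import Crest.Agent.H0164.HB
import Crest.Agent.H0164.C2

set_option autoImplicit false
universe u

namespace Crest.Agent.H0164

open scoped InnerProductSpace BigOperators TensorProduct

namespace C1

open C2

section
variable {K : Type*} [NormedAddCommGroup K] [InnerProductSpace ℂ K] [CompleteSpace K]
variable {ι : Type} [Fintype ι] [DecidableEq ι]

/-- The projection onto the cyclic subspace generated by a vector of `K^ι`. -/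
lemma cyc_proj (S : StarSubalgebra ℂ (K →L[ℂ] K)) (ξ : PiLp 2 (fun _ : ι => K)) :
    ∃ (p : PiLp 2 (fun _ : ι => K) →L[ℂ] PiLp 2 (fun _ : ι => K)) (x : ι → ι → (K →L[ℂ] K)),
      ‖p‖ ≤ 1 ∧ p ξ = ξ ∧ (∀ v, p v ∈ closure {w | ∃ b ∈ S, w = mxDiag ι b ξ}) ∧
      (∀ v i, p v i = ∑ j, x i j (v j)) ∧ (∀ i j, ∀ b ∈ S, b * x i j = x i j * b) := by
  let M₀ : Submodule ℂ (PiLp 2 (fun _ : ι => K)) :=
    { carrier := {w | ∃ b ∈ S, w = mxDiag ι b ξ}
      add_mem' := by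
        rintro _ _ ⟨b, hb, rfl⟩ ⟨b', hb', rfl⟩
        exact ⟨b + b', add_mem hb hb', by ext i; simp⟩
      zero_mem' := ⟨0, zero_mem _, by ext i; simp⟩
      smul_mem' := by
        rintro c _ ⟨b, hb, rfl⟩
        exact ⟨c • b, S.smul_mem hb c, by ext i; simp⟩ }
  let M := M₀.topologicalClosure
  have hcl : IsClosed (M : Set (PiLp 2 (fun _ : ι => K))) := M₀.isClosed_topologicalClosure
  have : CompleteSpace M := hcl.completeSpace_coe
  have h1 : ∀ b ∈ S, ∀ x ∈ M, mxDiag ι b x ∈ M := fun b hb x hx =>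
    map_mem_closure (mxDiag ι b).continuous hx (by
      rintro _ ⟨b', hb', rfl⟩
      exact ⟨b * b', mul_mem hb hb', by ext i; simp⟩)
  set p := M.starProjection with hp
  let q : ι → ι → (K →L[ℂ] K) := fun i j => PiLp.proj 2 (fun _ : ι => K) i ∘L p ∘L mxInc j
  have hq : ∀ i j ξ, q i j ξ = p (mxInc j ξ) i := fun i j ξ => rfl
  have hpM : ∀ x, p x ∈ M := fun x => M.starProjection_apply_mem x
  have hcomm : ∀ b ∈ S, ∀ x, p (mxDiag ι b x) = mxDiag ι b (p x) := by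
    intro b hb x
    refine Submodule.eq_starProjection_of_mem_of_inner_eq_zero (h1 b hb _ (hpM x)) fun w hw => ?_
    rw [← map_sub, inner_mxDiag_left]
    exact Submodule.starProjection_inner_eq_zero _ _ (h1 _ (star_mem hb) w hw)
  refine ⟨p, q, M.starProjection_norm_le, ?_, hpM, fun v i => ?_, fun i j b hb => ?_⟩
  · refine (Submodule.starProjection_eq_self_iff).2 (M₀.le_topologicalClosure ?_)
    exact ⟨1, one_mem _, by ext i; simp⟩
  · conv_lhs => rw [← sum_mxInc v, map_sum]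
    rw [WithLp.ofLp_sum, Finset.sum_apply]
    rfl
  · ext ξ
    rw [mul_apply_eq_comp, mul_apply_eq_comp, hq, hq, ← mxDiag_mxInc,
      hcomm b hb, mxDiag_apply]

/-- The bicommutant density for finitely many vectors. -/
lemma bicomm (S : StarSubalgebra ℂ (K →L[ℂ] K)) (y : K →L[ℂ] K)
    (hy : ∀ x : K →L[ℂ] K, (∀ b ∈ S, b * x = x * b) → x * y = y * x)
    (ξ : PiLp 2 (fun _ : ι => K)) : mxDiag ι y ξ ∈ closure {w | ∃ b ∈ S, w = mxDiag ι b ξ} := by
  obtain ⟨p, x, -, h2, h3, h4, h5⟩ := cyc_proj S ξ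
  have : mxDiag ι y ξ = p (mxDiag ι y ξ) := by
    conv_lhs => rw [← h2]
    ext i
    rw [mxDiag_apply, h4, h4, map_sum]
    refine Finset.sum_congr rfl fun j _ => ?_
    rw [mxDiag_apply, ← mul_apply_eq_comp, ← hy _ (h5 i j), mul_apply_eq_comp]
  rw [this]
  exact h3 _

/-- The self-adjoint version of the bicommutant density. -/
lemma sa_dense {A : Type*} [CStarAlgebra A] (ρ : A →⋆ₐ[ℂ] (K →L[ℂ] K)) (y : K →L[ℂ] K)
    (hsa : IsSelfAdjoint y)
    (hy : ∀ x : K →L[ℂ] K, (∀ a, ρ a * x = x * ρ a) → x * y = y * x) (ζ : K) :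
    y ζ ∈ closure {w | ∃ a : A, IsSelfAdjoint a ∧ w = ρ a ζ} := by
  by_contra hn
  have hconv : Convex ℝ {w | ∃ a : A, IsSelfAdjoint a ∧ w = ρ a ζ} := by
    rintro _ ⟨a, ha, rfl⟩ _ ⟨b, hb, rfl⟩ s t _ _ _
    refine ⟨s • a + t • b, ((IsSelfAdjoint.all s).smul ha).add ((IsSelfAdjoint.all t).smul hb), ?_⟩
    rw [map_add, ← Complex.coe_smul, ← Complex.coe_smul, ← Complex.coe_smul, ← Complex.coe_smul,
      map_smul, map_smul]
    rfl
  obtain ⟨f, r, h1, h2⟩ := RCLike.geometric_hahn_banach_closed_point (𝕜 := ℂ) hconv.closure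
    isClosed_closure hn
  set w := (InnerProductSpace.toDual ℂ K).symm f with hw
  have hf : ∀ v, f v = ⟪w, v⟫_ℂ := fun v => by rw [hw, InnerProductSpace.toDual_symm_apply]
  have hr : 0 < r := by
    have := h1 0 (subset_closure ⟨0, IsSelfAdjoint.zero _, by simp⟩)
    simpa using this
  have hz : ∀ a : A, IsSelfAdjoint a → (⟪w, ρ a ζ⟫_ℂ).re = 0 := by
    intro a ha
    by_contra h
    have := h1 _ (subset_closure ⟨(r / (⟪w, ρ a ζ⟫_ℂ).re) • a, (IsSelfAdjoint.all _).smul ha, rfl⟩)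
    rw [hf, ← Complex.coe_smul, map_smul, smul_apply, inner_smul_right] at this
    change ((((r / (⟪w, ρ a ζ⟫_ℂ).re : ℝ)) : ℂ) * ⟪w, ρ a ζ⟫_ℂ).re < r at this
    rw [Complex.re_ofReal_mul, div_mul_cancel₀ _ h] at this
    exact lt_irrefl _ this
  let ξ : PiLp 2 (fun _ : Fin 2 => K) := WithLp.toLp 2 ![ζ, w]
  have hb := bicomm ρ.range y (fun x hx => hy x fun a => hx _ ⟨a, rfl⟩) ξ
  have hcl : IsClosed {z : PiLp 2 (fun _ : Fin 2 => K) | (⟪w, z 0⟫_ℂ).re + (⟪z 1, ζ⟫_ℂ).re = 0} :=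
    isClosed_eq (by fun_prop) continuous_const
  have := closure_minimal (s := {w | ∃ b ∈ ρ.range, w = mxDiag (Fin 2) b ξ}) (by
    rintro _ ⟨_, ⟨a, rfl⟩, rfl⟩
    have := hz (a + star a) (IsSelfAdjoint.add_star_self a)
    rw [map_add, add_apply, inner_add_right, Complex.add_re, map_star,
      ContinuousLinearMap.star_eq_adjoint, ContinuousLinearMap.adjoint_inner_right] at this
    exact this) hcl hb
  change (⟪w, y ζ⟫_ℂ).re + (⟪y w, ζ⟫_ℂ).re = 0 at this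
  rw [← inner_sa hsa] at this
  rw [hf] at h2
  change r < (⟪w, y ζ⟫_ℂ).re at h2
  linarith

lemma exists_res {A : Type*} [CStarAlgebra A] (a : A) (ha : IsSelfAdjoint a) (z : ℂ)
    (hz : z.re = 0) (hz1 : |z.im| = 1) : ∃ r : A, ‖r‖ ≤ 1 ∧ r * (a + algebraMap ℂ A z) = 1 := by
  have hn : IsStarNormal a := ha.isStarNormal
  have h1 : ∀ l ∈ spectrum ℂ a, 1 ≤ ‖l + z‖ := fun l hl => by
    have h := ha.im_eq_zero_of_mem_spectrum hl
    have := Complex.abs_im_le_norm (l + z)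
    rw [Complex.add_im, h, zero_add, hz1] at this
    exact this
  have hne : ∀ l ∈ spectrum ℂ a, l + z ≠ 0 := fun l hl h => by
    have := h1 l hl
    rw [h, norm_zero] at this
    linarith
  have hc : ContinuousOn (fun l : ℂ => (l + z)⁻¹) (spectrum ℂ a) :=
    ContinuousOn.inv₀ (by fun_prop) hne
  refine ⟨cfc (fun l : ℂ => (l + z)⁻¹) a, norm_cfc_le zero_le_one fun l hl => ?_, ?_⟩
  · rw [norm_inv]; exact inv_le_one_of_one_le₀ (h1 l hl)
  · have : cfc (fun l : ℂ => l + z) a = a + algebraMap ℂ A z := by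
      rw [cfc_add_const z (fun l : ℂ => l) a, cfc_id' ℂ a]
    rw [← this, ← cfc_mul _ _ a hc (by fun_prop), ← cfc_const_one ℂ a]
    exact cfc_congr fun l hl => inv_mul_cancel₀ (hne l hl)

lemma qf_add_le {T : K →L[ℂ] K} (hT : IsSelfAdjoint T) (h0 : ∀ v, 0 ≤ qf T v) (v w : K) :
    qf T (v + w) ≤ 2 * qf T v + 2 * qf T w := by
  have h := re_le hT h0 v w one_pos
  have h1 : (⟪w, T v⟫_ℂ).re = (⟪v, T w⟫_ℂ).re := by
    rw [inner_sa hT w v, ← inner_conj_symm, Complex.conj_re]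
  unfold qf at h ⊢
  simp only [map_add, inner_add_left, inner_add_right, Complex.add_re]
  rw [h1]
  linarith

omit [CompleteSpace K] in
lemma qf_smul_vec (T : K →L[ℂ] K) (c : ℂ) (v : K) : qf T (c • v) = ‖c‖ ^ 2 * qf T v := by
  unfold qf
  rw [map_smul, inner_smul_left, inner_smul_right, ← mul_assoc, Complex.conj_mul',
    ← Complex.ofReal_pow, Complex.re_ofReal_mul]

/-- Kaplansky-type extension of the form estimate. -/
lemma kap {A : Type*} [CStarAlgebra A] (ρ : A →⋆ₐ[ℂ] (K →L[ℂ] K)) {T : K →L[ℂ] K}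
    (hT : IsSelfAdjoint T) (h0 : ∀ v, 0 ≤ qf T v) {κ : ℝ}
    (hρ : ∀ a v, qf T (ρ a v) ≤ κ ^ 2 * ‖a‖ ^ 2 * qf T v) (x : K →L[ℂ] K)
    (hx : ∀ b : K →L[ℂ] K, (∀ a, ρ a * b = b * ρ a) → b * x = x * b) (v : K) :
    qf T (x v) ≤ (4 * κ) ^ 2 * ‖x‖ ^ 2 * qf T v := by
  -- resolvents
  have k1 : ∀ y : K →L[ℂ] K, IsSelfAdjoint y →
      (∀ b : K →L[ℂ] K, (∀ a, ρ a * b = b * ρ a) → b * y = y * b) →
      ∀ z : ℂ, z.re = 0 → |z.im| = 1 → ∀ ζ : K, qf T ζ ≤ κ ^ 2 * qf T (y ζ + z • ζ) := by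
    intro y hy hyc z hz hz1 ζ
    have hcl : IsClosed {w : K | qf T ζ ≤ κ ^ 2 * qf T (w + z • ζ)} := by
      refine isClosed_le continuous_const ?_
      unfold qf
      fun_prop
    refine closure_minimal ?_ hcl (sa_dense ρ y hy hyc ζ)
    rintro _ ⟨a, ha, rfl⟩
    obtain ⟨r, hr1, hr2⟩ := exists_res a ha z hz hz1
    have e : ρ r (ρ a ζ + z • ζ) = ζ := by
      have := congrArg (fun t => ρ t ζ) hr2
      simp only [map_mul, map_add, map_one, mul_apply_eq_comp, add_apply,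
        Algebra.algebraMap_eq_smul_one, map_smul, smul_apply, one_apply_eq_self] at this
      rw [map_add, map_smul]
      exact this
    have h1 := hρ r (ρ a ζ + z • ζ)
    rw [e] at h1
    refine h1.trans ?_
    have := h0 (ρ a ζ + z • ζ)
    have h2 : ‖r‖ ^ 2 ≤ 1 := pow_le_one₀ (norm_nonneg _) hr1
    calc κ ^ 2 * ‖r‖ ^ 2 * qf T (ρ a ζ + z • ζ) ≤ κ ^ 2 * 1 * qf T (ρ a ζ + z • ζ) := by gcongr
      _ = _ := by ring
  -- self-adjoint contractions
  have k2 : ∀ x : K →L[ℂ] K, IsSelfAdjoint x → ‖x‖ ≤ 1 →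
      (∀ b : K →L[ℂ] K, (∀ a, ρ a * b = b * ρ a) → b * x = x * b) →
      ∀ v, qf T (x v) ≤ 4 * κ ^ 2 * qf T v := by
    intro x hx hx1 hxc v
    have hsp : ∀ l ∈ spectrum ℝ x, 0 ≤ 1 - l ^ 2 := fun l hl => by
      have h1 : |l| ≤ 1 := by
        rcases subsingleton_or_nontrivial (K →L[ℂ] K) with h | h
        · simp at hl
        · exact (spectrum.norm_le_norm_of_mem hl).trans hx1
      have := sq_abs l
      nlinarith [abs_nonneg l]
    have hpos : ∀ l : ℝ, 1 + √(1 - l ^ 2) ≠ 0 := fun l => by positivity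
    have hc : Continuous fun l : ℝ => l / (1 + √(1 - l ^ 2)) :=
      Continuous.div (by fun_prop) (by fun_prop) hpos
    set y : K →L[ℂ] K := cfc (fun l : ℝ => l / (1 + √(1 - l ^ 2))) x with hy
    set W : K →L[ℂ] K := cfc (fun l : ℝ => 1 + √(1 - l ^ 2)) x with hW
    have hyW : y * W = x := by
      rw [hy, hW, ← cfc_mul _ _ x hc.continuousOn (by fun_prop)]
      conv_rhs => rw [← cfc_id' ℝ x]
      exact cfc_congr fun l _ => div_mul_cancel₀ _ (hpos l)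
    have hyx : y * x + W = algebraMap ℝ _ 2 := by
      have e : y * x = cfc (fun l : ℝ => l / (1 + √(1 - l ^ 2)) * l) x := by
        rw [cfc_mul _ _ x hc.continuousOn (by fun_prop), cfc_id' ℝ x]
      rw [e, hW, ← cfc_add x (fun l : ℝ => l / (1 + √(1 - l ^ 2)) * l)
        (fun l : ℝ => 1 + √(1 - l ^ 2)) (hc.continuousOn.mul continuousOn_id) (by fun_prop),
        ← cfc_const (2 : ℝ) x]
      refine cfc_congr fun l hl => ?_
      have h1 := Real.sq_sqrt (hsp l hl)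
      have := hpos l
      change l / (1 + √(1 - l ^ 2)) * l + (1 + √(1 - l ^ 2)) = 2
      field_simp
      nlinarith
    have ysa : IsSelfAdjoint y := cfc_predicate _ _
    have hyc : ∀ b : K →L[ℂ] K, (∀ a, ρ a * b = b * ρ a) → b * y = y * b := fun b hb =>
      ((show Commute x b from (hxc b hb).symm).cfc_real _).symm.eq
    have a1 : y (W v) = x v := by rw [← mul_apply_eq_comp, hyW]
    have a2 : y (x v) + W v = (2 : ℂ) • v := by
      rw [← mul_apply_eq_comp, ← add_apply, hyx, Algebra.algebraMap_eq_smul_one,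
        ← Complex.coe_smul, smul_apply]
      simp
    have b : ∀ z : ℂ, z * z = -1 →
        y ((2 : ℂ)⁻¹ • (x v - z • W v)) + z • ((2 : ℂ)⁻¹ • (x v - z • W v)) = v := by
      intro z hz
      rw [map_smul, map_sub, map_smul, a1, smul_comm z, ← smul_add, smul_sub z, smul_smul z z, hz]
      have : y (x v) - z • x v + (z • x v - (-1 : ℂ) • W v) = y (x v) + W v := by
        rw [neg_one_smul]; abel
      rw [this, a2, smul_smul]
      simp
    have b1 := k1 y ysa hyc Complex.I (by simp) (by simp) ((2 : ℂ)⁻¹ • (x v - Complex.I • W v))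
    have b2 := k1 y ysa hyc (-Complex.I) (by simp) (by simp)
      ((2 : ℂ)⁻¹ • (x v - (-Complex.I) • W v))
    rw [b _ (by simp)] at b1 b2
    have e : x v = (2 : ℂ)⁻¹ • (x v - Complex.I • W v) + (2 : ℂ)⁻¹ • (x v - (-Complex.I) • W v) := by
      rw [← smul_add, neg_smul]
      have : x v - Complex.I • W v + (x v - -(Complex.I • W v)) = (2 : ℂ) • x v := by
        rw [two_smul]; abel
      rw [this, smul_smul]
      simp
    have := qf_add_le hT h0 ((2 : ℂ)⁻¹ • (x v - Complex.I • W v))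
      ((2 : ℂ)⁻¹ • (x v - (-Complex.I) • W v))
    rw [← e] at this
    linarith
  have k3 : ∀ y : K →L[ℂ] K, IsSelfAdjoint y → ‖y‖ ≤ ‖x‖ →
      (∀ b : K →L[ℂ] K, (∀ a, ρ a * b = b * ρ a) → b * y = y * b) →
      ∀ v, qf T (y v) ≤ 4 * κ ^ 2 * ‖x‖ ^ 2 * qf T v := by
    intro y hy hyx hyc v
    by_cases hx0 : ‖x‖ = 0
    · have : y = 0 := norm_le_zero_iff.1 (hx0 ▸ hyx)
      rw [this, hx0]
      simp [qf]
    have hpos : 0 < ‖x‖ := lt_of_le_of_ne (norm_nonneg _) (Ne.symm hx0)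
    have := k2 (‖x‖⁻¹ • y) ((IsSelfAdjoint.all _).smul hy) (by
      rw [norm_smul, norm_inv, norm_norm, inv_mul_le_iff₀ hpos, mul_one]; exact hyx)
      (fun b hb => by rw [mul_smul_comm, smul_mul_assoc, hyc b hb]) v
    rw [← Complex.coe_smul, smul_apply, qf_smul_vec, Complex.norm_real, norm_inv, norm_norm,
      inv_pow, inv_mul_le_iff₀ (by positivity)] at this
    linarith
  have hsx : ∀ b : K →L[ℂ] K, (∀ a, ρ a * b = b * ρ a) → b * star x = star x * b := by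
    intro b hb
    have := hx (star b) fun a => by
      have := congrArg star (hb (star a))
      simpa [star_mul, map_star] using this.symm
    have := congrArg star this
    simpa [star_mul] using this.symm
  have c1 := k3 (realPart x) (realPart x).2 (realPart.norm_le x) (fun b hb => by
    rw [realPart_apply_coe, mul_smul_comm, smul_mul_assoc, mul_add, add_mul, hx b hb, hsx b hb]) v
  have c2 := k3 (imaginaryPart x) (imaginaryPart x).2 (imaginaryPart.norm_le x) (fun b hb => by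
    rw [imaginaryPart_apply_coe, mul_smul_comm, smul_mul_assoc, mul_smul_comm, smul_mul_assoc,
      mul_sub, sub_mul, hx b hb, hsx b hb]) v
  have e : x v = (realPart x : K →L[ℂ] K) v + Complex.I • (imaginaryPart x : K →L[ℂ] K) v := by
    conv_lhs => rw [← realPart_add_I_smul_imaginaryPart x]
    rfl
  have := qf_add_le hT h0 ((realPart x : K →L[ℂ] K) v)
    (Complex.I • (imaginaryPart x : K →L[ℂ] K) v)
  rw [← e, qf_smul_vec, Complex.norm_I] at this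
  nlinarith

/-- A bounded real-bilinear form invariant under `i` is `Re ⟪η, D ξ⟫`. -/
lemma exists_op (β : K →ₗ[ℝ] K →ₗ[ℝ] ℝ) {t : ℝ} (ht : 0 < t)
    (hb : ∀ η ξ, β η ξ ≤ t * (‖η‖ ^ 2 + ‖ξ‖ ^ 2))
    (hI : ∀ η ξ, β (Complex.I • η) (Complex.I • ξ) = β η ξ) :
    ∃ D : K →L[ℂ] K, ‖D‖ ≤ 2 * t ∧ ∀ η ξ, (⟪η, D ξ⟫_ℂ).re = β η ξ := by
  have hb1 : ∀ η ξ, β η ξ ≤ 2 * t * ‖η‖ * ‖ξ‖ := fun η ξ => by
    by_cases hη : η = 0
    · simp [hη]
    by_cases hξ : ξ = 0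
    · simp [hξ]
    have p1 : 0 < ‖η‖ := norm_pos_iff.2 hη
    have p2 : 0 < ‖ξ‖ := norm_pos_iff.2 hξ
    have := hb (‖η‖⁻¹ • η) (‖ξ‖⁻¹ • ξ)
    simp only [map_smul, LinearMap.smul_apply, smul_eq_mul, norm_smul, norm_inv, norm_norm,
      inv_mul_cancel₀ p1.ne', inv_mul_cancel₀ p2.ne'] at this
    rw [inv_mul_le_iff₀ p2, inv_mul_le_iff₀ p1] at this
    linarith
  have hb2 : ∀ η ξ, |β η ξ| ≤ 2 * t * ‖η‖ * ‖ξ‖ := fun η ξ => by
    refine abs_le.2 ⟨?_, hb1 η ξ⟩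
    have := hb1 (-η) ξ
    simp only [map_neg, LinearMap.neg_apply, norm_neg] at this
    linarith
  have hdec : ∀ (c : ℂ) (v : K), c • v = c.re • v + c.im • (Complex.I • v) := fun c v => by
    conv_lhs => rw [← Complex.re_add_im c]
    rw [add_smul, mul_smul, Complex.coe_smul, Complex.coe_smul]
  have hII : ∀ v : K, Complex.I • (Complex.I • v) = -v := fun v => by
    rw [smul_smul, Complex.I_mul_I, neg_one_smul]
  have hI2 : ∀ η ξ, β (Complex.I • η) ξ = -β η (Complex.I • ξ) := fun η ξ => by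
    rw [← hI (Complex.I • η) ξ, hII]; simp
  let s : K →ₗ⋆[ℂ] K →ₗ[ℂ] ℂ := LinearMap.mk₂'ₛₗ (starRingEnd ℂ) (RingHom.id ℂ)
    (fun η ξ => (β η ξ : ℂ) - Complex.I * (β η (Complex.I • ξ) : ℂ))
    (fun η η' ξ => by simp only [map_add, LinearMap.add_apply]; push_cast; ring)
    (fun c η ξ => by
      rw [hdec c η]
      simp only [map_add, map_smul, LinearMap.add_apply, LinearMap.smul_apply, smul_eq_mul, hI2,
        hII, map_neg]
      apply Complex.ext <;> simp <;> ring)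
    (fun η ξ ξ' => by simp only [map_add, smul_add]; push_cast; ring)
    (fun c η ξ => by
      rw [smul_comm Complex.I c ξ, hdec c ξ, hdec c (Complex.I • ξ)]
      simp only [map_add, map_smul, smul_eq_mul, hII, map_neg]
      apply Complex.ext <;> simp <;> ring)
  have hs : ∀ η ξ, s η ξ = (β η ξ : ℂ) - Complex.I * (β η (Complex.I • ξ) : ℂ) := fun _ _ => rfl
  let B : K →L⋆[ℂ] K →L[ℂ] ℂ := s.mkContinuous₂ (4 * t) fun η ξ => by
    rw [hs]
    refine (norm_sub_le _ _).trans ?_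
    rw [norm_mul, Complex.norm_I, one_mul, Complex.norm_real, Complex.norm_real,
      Real.norm_eq_abs, Real.norm_eq_abs]
    have a1 := hb2 η ξ
    have a2 := hb2 η (Complex.I • ξ)
    rw [norm_smul, Complex.norm_I, one_mul] at a2
    linarith
  have key : ∀ η ξ, (⟪η, star (InnerProductSpace.continuousLinearMapOfBilin B) ξ⟫_ℂ).re = β η ξ := by
    intro η ξ
    rw [ContinuousLinearMap.star_eq_adjoint, ContinuousLinearMap.adjoint_inner_right,
      InnerProductSpace.continuousLinearMapOfBilin_apply]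
    change (s η ξ).re = _
    rw [hs]
    simp
  exact ⟨_, norm_le_of_re ht fun η ξ => by rw [key]; exact hb η ξ, key⟩

omit [CompleteSpace K] in
/-- The real-bilinear evaluation. -/
noncomputable def ev (B : K →L[ℂ] K) : K ⊗[ℝ] K →ₗ[ℝ] ℝ :=
  TensorProduct.lift (LinearMap.mk₂ ℝ (fun η ξ => (⟪η, B ξ⟫_ℂ).re)
    (fun η η' ξ => by simp [inner_add_left])
    (fun c η ξ => by rw [← Complex.coe_smul, inner_smul_left]; simp)
    (fun η ξ ξ' => by simp [inner_add_right])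
    (fun c η ξ => by rw [← Complex.coe_smul, map_smul, inner_smul_right]; simp))

omit [CompleteSpace K] in
lemma ev_tmul (B : K →L[ℂ] K) (η ξ : K) : ev B (η ⊗ₜ[ℝ] ξ) = (⟪η, B ξ⟫_ℂ).re := by
  simp [ev]

/-- Arveson's distance formula. -/
lemma arv (P : VonNeumannAlgebra K) (Y : K →L[ℂ] K) {t : ℝ} (ht : 0 < t)
    (key : ∀ (n : ℕ) (η ξ : Fin n → K), (∀ B ∈ P.commutant, ∑ i, (⟪η i, B (ξ i)⟫_ℂ).re = 0) →
      ∑ i, (⟪η i, Y (ξ i)⟫_ℂ).re ≤ t * ∑ i, (‖η i‖ ^ 2 + ‖ξ i‖ ^ 2)) :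
    ∃ D : K →L[ℂ] K, ‖D‖ ≤ 2 * t ∧ ∀ a ∈ P, a * (Y - D) = (Y - D) * a := by
  let C : Set (K ⊗[ℝ] K × ℝ) := {z | ∃ (n : ℕ) (η ξ : Fin n → K),
    (∀ B ∈ P.commutant, ev B z.1 = ∑ i, (⟪η i, B (ξ i)⟫_ℂ).re) ∧
    t * ∑ i, (‖η i‖ ^ 2 + ‖ξ i‖ ^ 2) + ev Y z.1 - ∑ i, (⟪η i, Y (ξ i)⟫_ℂ).re ≤ z.2}
  have hadd : ∀ x ∈ C, ∀ y ∈ C, x + y ∈ C := by
    rintro x ⟨n, η, ξ, h1, h2⟩ y ⟨n', η', ξ', h1', h2'⟩
    refine ⟨n + n', Fin.append η η', Fin.append ξ ξ', fun B hB => ?_, ?_⟩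
    · simp only [Fin.sum_univ_add, Fin.append_left, Fin.append_right, Prod.fst_add, map_add]
      rw [h1 B hB, h1' B hB]
    · simp only [Fin.sum_univ_add, Fin.append_left, Fin.append_right, Prod.fst_add, map_add,
        Prod.snd_add]
      linarith
  have hsmul : ∀ s : ℝ, 0 < s → ∀ x ∈ C, s • x ∈ C := by
    rintro s hs x ⟨n, η, ξ, h1, h2⟩
    have e : ∀ (B : K →L[ℂ] K) i, (⟪((√s : ℝ) : ℂ) • η i, B (((√s : ℝ) : ℂ) • ξ i)⟫_ℂ).re
        = s * (⟪η i, B (ξ i)⟫_ℂ).re := fun B i => by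
      rw [map_smul, inner_smul_left, inner_smul_right, Complex.conj_ofReal, ← mul_assoc,
        ← Complex.ofReal_mul, Real.mul_self_sqrt hs.le, Complex.re_ofReal_mul]
    have e2 : ∀ v : K, ‖((√s : ℝ) : ℂ) • v‖ ^ 2 = s * ‖v‖ ^ 2 := fun v => by
      rw [norm_smul, mul_pow, Complex.norm_real, Real.norm_eq_abs, sq_abs, Real.sq_sqrt hs.le]
    refine ⟨n, fun i => ((√s : ℝ) : ℂ) • η i, fun i => ((√s : ℝ) : ℂ) • ξ i, fun B hB => ?_, ?_⟩
    · simp only [e, Prod.smul_fst, map_smul, smul_eq_mul]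
      rw [h1 B hB, Finset.mul_sum]
      exact Finset.sum_congr rfl fun i _ => by rw [← map_smul, e]
    · have e3 : ∑ i, (⟪((√s : ℝ) : ℂ) • η i, Y (((√s : ℝ) : ℂ) • ξ i)⟫_ℂ).re
          = s * ∑ i, (⟪η i, Y (ξ i)⟫_ℂ).re := by
        rw [Finset.mul_sum]; exact Finset.sum_congr rfl fun i _ => e Y i
      have e4 : ∑ i, (‖((√s : ℝ) : ℂ) • η i‖ ^ 2 + ‖((√s : ℝ) : ℂ) • ξ i‖ ^ 2)
          = s * ∑ i, (‖η i‖ ^ 2 + ‖ξ i‖ ^ 2) := by
        rw [Finset.mul_sum]; exact Finset.sum_congr rfl fun i _ => by rw [e2, e2]; ring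
      rw [e3, e4, Prod.smul_fst, Prod.smul_snd, map_smul, smul_eq_mul, smul_eq_mul]
      have := mul_le_mul_of_nonneg_left h2 hs.le
      linarith
  have h0 : ∀ r : ℝ, ((0 : K ⊗[ℝ] K), r) ∈ C → 0 ≤ r := by
    rintro r ⟨n, η, ξ, h1, h2⟩
    have := key n η ξ fun B hB => by rw [← h1 B hB]; simp
    simp only [map_zero] at h2
    linarith
  have hsing : ∀ η ξ : K, (η ⊗ₜ[ℝ] ξ, t * (‖η‖ ^ 2 + ‖ξ‖ ^ 2)) ∈ C := fun η ξ =>
    ⟨1, fun _ => η, fun _ => ξ, fun B _ => by simp [ev_tmul], by simp [ev_tmul]⟩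
  have hker : ∀ τ : K ⊗[ℝ] K, (∀ B ∈ P.commutant, ev B τ = 0) → (τ, ev Y τ) ∈ C := fun τ hτ =>
    ⟨0, Fin.elim0, Fin.elim0, fun B hB => by simp [hτ B hB], by simp⟩
  have hall : ∀ v : K ⊗[ℝ] K, ∃ r : ℝ, (v, r) ∈ C := by
    intro v
    induction v using TensorProduct.induction_on with
    | zero => exact ⟨_, hker 0 fun B _ => map_zero _⟩
    | tmul η ξ => exact ⟨_, hsing η ξ⟩
    | add x y hx hy =>
      obtain ⟨r, hr⟩ := hx
      obtain ⟨r', hr'⟩ := hy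
      exact ⟨r + r', hadd _ hr _ hr'⟩
  obtain ⟨Φ, hΦ⟩ := hb_cone C hadd hsmul h0 hall
  have hΦk : ∀ τ : K ⊗[ℝ] K, (∀ B ∈ P.commutant, ev B τ = 0) → Φ τ = ev Y τ := fun τ hτ => by
    have a1 := hΦ _ _ (hker τ hτ)
    have a2 := hΦ _ _ (hker (-τ) fun B hB => by rw [map_neg, hτ B hB, neg_zero])
    rw [map_neg, map_neg] at a2
    linarith
  have hII : ∀ (B : K →L[ℂ] K) (η ξ : K),
      (⟪Complex.I • η, B (Complex.I • ξ)⟫_ℂ).re = (⟪η, B ξ⟫_ℂ).re := fun B η ξ => by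
    rw [map_smul, inner_smul_left, inner_smul_right, ← mul_assoc]
    simp
  obtain ⟨D, hD1, hD2⟩ := exists_op (TensorProduct.curry Φ) ht
    (fun η ξ => hΦ _ _ (hsing η ξ)) (fun η ξ => by
      have := hΦk ((Complex.I • η) ⊗ₜ[ℝ] (Complex.I • ξ) - η ⊗ₜ[ℝ] ξ) fun B _ => by
        rw [map_sub, ev_tmul, ev_tmul, hII, sub_self]
      rw [map_sub, map_sub, ev_tmul, ev_tmul, hII, sub_self, sub_eq_zero] at this
      exact this)
  refine ⟨D, hD1, fun a ha => ?_⟩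
  have hadj : ∀ η w : K, ⟪star a η, w⟫_ℂ = ⟪η, a w⟫_ℂ := fun η w => by
    rw [ContinuousLinearMap.star_eq_adjoint, ContinuousLinearMap.adjoint_inner_left]
  have hre : ∀ η ξ : K, (⟪η, (a * (Y - D) - (Y - D) * a) ξ⟫_ℂ).re = 0 := fun η ξ => by
    have := hΦk (η ⊗ₜ[ℝ] (a ξ) - (star a η) ⊗ₜ[ℝ] ξ) fun B hB => by
      rw [map_sub, ev_tmul, ev_tmul, hadj, ← mul_apply_eq_comp B, ← mul_apply_eq_comp a,
        VonNeumannAlgebra.mem_commutant_iff.1 hB a ha, sub_self]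
    rw [map_sub, map_sub, ev_tmul, ev_tmul, ← TensorProduct.curry_apply,
      ← TensorProduct.curry_apply, ← hD2, ← hD2, hadj, hadj] at this
    simp only [sub_apply, mul_apply_eq_comp, map_sub, inner_sub_right, Complex.sub_re]
    linarith
  rw [← sub_eq_zero]
  ext ξ
  have := hre ((a * (Y - D) - (Y - D) * a) ξ) ξ
  rw [inner_self_eq_norm_sq_to_K] at this
  have e : ((‖(a * (Y - D) - (Y - D) * a) ξ‖ : ℂ) ^ 2).re = ‖(a * (Y - D) - (Y - D) * a) ξ‖ ^ 2 := by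
    norm_cast
  have h2 : ‖(a * (Y - D) - (Y - D) * a) ξ‖ ^ 2 = 0 := by rw [← e]; exact this
  simpa using h2

end

end C1

open C1 C2 in
theorem ad (h : S165.{u}) : AD.{u} := by
  obtain ⟨C, h⟩ := h
  refine ⟨|C| + 1, by positivity, ?_⟩
  intro K _ _ _ P Y g hY hg hP
  rcases hg.eq_or_lt with rfl | hg
  · refine ⟨Y, hY, fun a ha => ?_, by simp⟩
    have := hP a ha
    rw [zero_mul, norm_le_zero_iff, sub_eq_zero] at this
    exact this.symm
  obtain ⟨D, hD1, hD2⟩ := arv P Y (t := (|C| + 1) * g / 2) (by positivity) (by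
    intro n η ξ hB
    rcases Nat.eq_zero_or_pos n with rfl | hn
    · simp
    let ξ' : PiLp 2 (fun _ : Fin n => K) := WithLp.toLp 2 ξ
    let η' : PiLp 2 (fun _ : Fin n => K) := WithLp.toLp 2 η
    obtain ⟨p, x, p1, p2, p3, p4, p5⟩ := cyc_proj P.commutant.toStarSubalgebra ξ'
    have hxP : ∀ i j, x i j ∈ P := fun i j => by
      rw [← P.commutant_commutant, VonNeumannAlgebra.mem_commutant_iff]
      exact p5 i j
    have hin : ∀ B : K →L[ℂ] K, (⟪η', mxDiag (Fin n) B ξ'⟫_ℂ).re = ∑ i, (⟪η i, B (ξ i)⟫_ℂ).re :=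
      fun B => by rw [PiLp.inner_apply, Complex.re_sum]; rfl
    have horth : ∀ v, (⟪η', p v⟫_ℂ).re = 0 := fun v => by
      have hcl : IsClosed {w : PiLp 2 (fun _ : Fin n => K) | (⟪η', w⟫_ℂ).re = 0} :=
        isClosed_eq (by fun_prop) continuous_const
      refine closure_minimal ?_ hcl (p3 v)
      rintro _ ⟨b, hb, rfl⟩
      change (⟪η', mxDiag (Fin n) b ξ'⟫_ℂ).re = 0
      rw [hin]
      exact hB b hb
    have hn1 := h K P Y g hP n hn (mxDiag (Fin n) Y) p x (fun _ _ => rfl) hxP p4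
    have hn2 : ‖mxDiag (Fin n) Y * p - p * mxDiag (Fin n) Y‖ ≤ (|C| + 1) * g := by
      refine hn1.trans ?_
      calc C * g * ‖p‖ ≤ (|C| + 1) * g * ‖p‖ := by gcongr; linarith [le_abs_self C]
        _ ≤ (|C| + 1) * g * 1 := by gcongr
        _ = _ := mul_one _
    rw [← hin]
    have e : (⟪η', mxDiag (Fin n) Y ξ'⟫_ℂ).re
        = (⟪η', (mxDiag (Fin n) Y * p - p * mxDiag (Fin n) Y) ξ'⟫_ℂ).re := by
      rw [sub_apply, mul_apply_eq_comp, mul_apply_eq_comp, p2, inner_sub_right, Complex.sub_re,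
        horth, sub_zero]
    have e2 : ∑ i, (‖η i‖ ^ 2 + ‖ξ i‖ ^ 2) = ‖η'‖ ^ 2 + ‖ξ'‖ ^ 2 := by
      rw [Finset.sum_add_distrib, PiLp.norm_sq_eq_of_L2, PiLp.norm_sq_eq_of_L2]
    rw [e, e2]
    calc (⟪η', (mxDiag (Fin n) Y * p - p * mxDiag (Fin n) Y) ξ'⟫_ℂ).re
        ≤ ‖⟪η', (mxDiag (Fin n) Y * p - p * mxDiag (Fin n) Y) ξ'⟫_ℂ‖ := Complex.re_le_norm _
      _ ≤ ‖η'‖ * ‖(mxDiag (Fin n) Y * p - p * mxDiag (Fin n) Y) ξ'‖ := norm_inner_le_norm _ _
      _ ≤ ‖η'‖ * ((|C| + 1) * g * ‖ξ'‖) := by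
        gcongr
        exact (ContinuousLinearMap.le_opNorm _ _).trans (by gcongr)
      _ ≤ _ := by
        have : 0 < (|C| + 1) * g := by positivity
        nlinarith [sq_nonneg (‖η'‖ - ‖ξ'‖)])
  refine ⟨Y - realPart D, hY.sub (realPart D).2, fun a ha => ?_, ?_⟩
  · have a1 := hD2 a ha
    have a2 := congrArg star (hD2 (star a) (star_mem ha))
    rw [star_mul, star_mul, star_star, star_sub, hY.star_eq] at a2
    have e : Y - (realPart D : K →L[ℂ] K) = (2 : ℝ)⁻¹ • ((Y - D) + (Y - star D)) := by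
      rw [realPart_apply_coe]
      module
    rw [e, mul_smul_comm, smul_mul_assoc, mul_add, add_mul, a1, a2]
  · rw [sub_sub_cancel]
    refine (realPart.norm_le D).trans (hD1.trans (le_of_eq ?_))
    ring

open C1 C2 in
theorem kla (h : KL.{u}) : KLA.{u} := by
  intro κ
  obtain ⟨γ, hγ, h⟩ := h (4 * κ)
  refine ⟨γ, hγ, ?_⟩
  intro K _ _ _ A _ ρ T c hc hT hlo hρ
  let Q : VonNeumannAlgebra K :=
    { toStarSubalgebra := StarSubalgebra.centralizer ℂ (Set.range ρ)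
      centralizer_centralizer' := by simp }
  have hQ : ∀ b : K →L[ℂ] K, b ∈ Q ↔ ∀ a, ρ a * b = b * ρ a := fun b => by
    change b ∈ StarSubalgebra.centralizer ℂ (Set.range ρ) ↔ _
    rw [StarSubalgebra.mem_centralizer_iff]
    constructor
    · intro hb a
      exact (hb _ ⟨a, rfl⟩).1
    · rintro hb _ ⟨a, rfl⟩
      exact ⟨hb a, by rw [← map_star]; exact hb _⟩
  have h0 : ∀ v, 0 ≤ qf T v := fun v => le_trans (by positivity) (hlo v)
  obtain ⟨T', h1, h2, h3⟩ := h K Q.commutant T c hc hT hlo fun x hx v =>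
    kap ρ hT h0 hρ x (fun b hb => VonNeumannAlgebra.mem_commutant_iff.1 hx b ((hQ b).2 hb)) v
  refine ⟨T', h1, fun a => h2 _ ?_, h3⟩
  rw [VonNeumannAlgebra.mem_commutant_iff]
  intro b hb
  exact ((hQ b).1 hb a).symm

end Crest.Agent.H0164
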